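import Mathlib

/-!
# Labelled graphs over a finite quotient of a free group (row 115, S0154, plan #770).

Shared data structure. `Letter m = Fin m × Bool` is the letter convention of `FreeGroup`:
`(i, true)` is the generator `g_i` and `(i, false)` its inverse. A labelled graph over
`θ0 : FreeGroup (Fin m) →* G0` is a finite vertex type with labels in `G0` and a partial step
function for each letter, inverse-compatible and label-compatible (an immersion).
-/

namespace Crest.Agent.FreeLipBAP

/-- Letters of the free group on `m` generators. -/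
abbrev Letter (m : ℕ) := Fin m × Bool

/-- Inverse letter. -/
def Letter.inv {m : ℕ} (a : Letter m) : Letter m := (a.1, !a.2)

@[simp] lemma Letter.inv_inv {m : ℕ} (a : Letter m) : a.inv.inv = a := by
  simp [Letter.inv]

/-- The group element of a letter. -/
def Letter.toFree {m : ℕ} (a : Letter m) : FreeGroup (Fin m) := FreeGroup.mk [a]

lemma Letter.toFree_inv {m : ℕ} (a : Letter m) : a.inv.toFree = a.toFree⁻¹ := by
  simp [Letter.inv, Letter.toFree, FreeGroup.inv_mk, FreeGroup.invRev]

/-- A finite labelled graph over `θ0`. `step z a = some z'` is the edge `z -a-> z'`. -/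
structure LabGraph {m : ℕ} {G0 : Type} [Group G0] (θ0 : FreeGroup (Fin m) →* G0) where
  /-- vertices -/
  V : Type
  [fintypeV : Fintype V]
  [decEqV : DecidableEq V]
  /-- labels -/
  lab : V → G0
  /-- partial step along a letter -/
  step : V → Letter m → Option V
  /-- an edge can be traversed backwards along the inverse letter -/
  step_inv : ∀ z a z', step z a = some z' → step z' a.inv = some z
  /-- labels follow the letters -/
  step_lab : ∀ z a z', step z a = some z' → lab z' = lab z * θ0 a.toFree

attribute [instance] LabGraph.fintypeV LabGraph.decEqV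

namespace LabGraph

variable {m : ℕ} {G0 : Type} [Group G0] {θ0 : FreeGroup (Fin m) →* G0}

/-- Reading a list of letters from a vertex. -/
def read (Γ : LabGraph θ0) : Γ.V → List (Letter m) → Option Γ.V
  | z, [] => some z
  | z, a :: L => (Γ.step z a).bind fun z' => read Γ z' L

@[simp] lemma read_nil (Γ : LabGraph θ0) (z : Γ.V) : Γ.read z [] = some z := rfl

lemma read_cons (Γ : LabGraph θ0) (z : Γ.V) (a : Letter m) (L : List (Letter m)) :
    Γ.read z (a :: L) = (Γ.step z a).bind fun z' => Γ.read z' L := rfl

/-- `L` is read somewhere in `Γ`. -/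
def ReadsSomewhere (Γ : LabGraph θ0) (L : List (Letter m)) : Prop :=
  ∃ z z', Γ.read z L = some z'

/-- Number of letters with an outgoing edge at `z` (the degree, as steps are injective). -/
noncomputable def deg (Γ : LabGraph θ0) (z : Γ.V) : ℕ :=
  (Finset.univ.filter fun a : Letter m => (Γ.step z a).isSome).card

lemma step_injective (Γ : LabGraph θ0) {z w z' : Γ.V} {a : Letter m}
    (h1 : Γ.step z a = some z') (h2 : Γ.step w a = some z') : z = w := by
  have h3 := Γ.step_inv _ _ _ h1
  have h4 := Γ.step_inv _ _ _ h2
  rw [h3] at h4
  exact Option.some.inj h4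

/-- Adjacency: some letter leads from `x` to `y`. -/
def Adj (Γ : LabGraph θ0) (x y : Γ.V) : Prop := ∃ a, Γ.step x a = some y

lemma Adj.symm {Γ : LabGraph θ0} {x y : Γ.V} (h : Γ.Adj x y) : Γ.Adj y x := by
  obtain ⟨a, ha⟩ := h
  exact ⟨a.inv, Γ.step_inv _ _ _ ha⟩

lemma read_append (Γ : LabGraph θ0) (z : Γ.V) (L₁ L₂ : List (Letter m)) :
    Γ.read z (L₁ ++ L₂) = (Γ.read z L₁).bind fun z' => Γ.read z' L₂ := by
  induction L₁ generalizing z with
  | nil => simp
  | cons a L ih =>
    simp only [List.cons_append, read_cons]
    cases h : Γ.step z a with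
    | none => simp
    | some z' => simpa using ih z'

/-- Labels follow words. -/
lemma read_lab (Γ : LabGraph θ0) {z z' : Γ.V} {L : List (Letter m)} (h : Γ.read z L = some z') :
    Γ.lab z' = Γ.lab z * θ0 (FreeGroup.mk L) := by
  induction L generalizing z with
  | nil =>
    simp only [read_nil, Option.some.injEq] at h
    subst h
    simp [← FreeGroup.one_eq_mk]
  | cons a L ih =>
    rw [read_cons] at h
    cases hs : Γ.step z a with
    | none => simp [hs] at h
    | some w =>
      rw [hs] at h
      have h' : Γ.read w L = some z' := by simpa using h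
      rw [ih h', Γ.step_lab _ _ _ hs]
      have : (FreeGroup.mk (a :: L) : FreeGroup (Fin m)) = a.toFree * FreeGroup.mk L := by
        simp [Letter.toFree, FreeGroup.mul_mk]
      rw [this, map_mul, mul_assoc]

end LabGraph

end Crest.Agent.FreeLipBAP
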