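/-
Row 115 (S0154), plan #770, step (1): counting part of the alteration lemma.

An abstract `2m`-regular "immersion" on a finite vertex type: `next v a` with
`next (next v a) a.inv = v`, no short closed reduced walks.  Edges are `V × Fin m`, `edgeOf v a` is the
edge of the half-edge `(v,a)`.  Average over colourings `c : edges → Fin 200`.
-/
import Crest.Agent.Lib.FreeLipBAP.LabGraph

set_option autoImplicit false

namespace Crest.Agent.FreeLipBAP.Alteration

open Finset

/-- An abstract regular immersion. -/
structure Reg (m : ℕ) (V : Type) where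
  /-- the next vertex along a letter -/
  next : V → Letter m → V
  next_inv : ∀ v a, next (next v a) a.inv = v

namespace Reg

variable {m : ℕ} {V : Type} (R : Reg m V)

/-- End of the walk reading a list. -/
def walk : V → List (Letter m) → V
  | v, [] => v
  | v, a :: L => walk (R.next v a) L

/-- The edge of a half-edge. -/
def edgeOf (v : V) (a : Letter m) : V × Fin m :=
  if a.2 = true then (v, a.1) else (R.next v a, a.1)

lemma edgeOf_next_inv (v : V) (a : Letter m) : R.edgeOf (R.next v a) a.inv = R.edgeOf v a := by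
  rcases a with ⟨i, b⟩
  cases b <;> simp [edgeOf, Letter.inv]
  · simpa [Letter.inv] using R.next_inv v (i, true)

lemma next_injective (a : Letter m) : Function.Injective fun v => R.next v a := by
  intro x y h
  have := congrArg (fun z => R.next z a.inv) h
  simpa [R.next_inv] using this

/-- The list of edges along a walk. -/
def pathEdges : V → List (Letter m) → List (V × Fin m)
  | _, [] => []
  | v, a :: L => R.edgeOf v a :: pathEdges (R.next v a) L

@[simp] lemma length_pathEdges (v : V) (L : List (Letter m)) : (R.pathEdges v L).length = L.length := by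
  induction L generalizing v with
  | nil => rfl
  | cons a L ih => simp [pathEdges, ih]

/-- Short reduced walks do not close up. -/
def NoClose (t : ℕ) : Prop :=
  ∀ v L, FreeGroup.IsReduced L → L ≠ [] → L.length ≤ t → R.walk v L ≠ v

lemma edgeOf_eq_cases [DecidableEq V] {x v : V} {a b : Letter m} (h : R.edgeOf x b = R.edgeOf v a) :
    (x = v ∧ b = a) ∨ (x = R.next v a ∧ b = a.inv) := by
  rcases a with ⟨i, s⟩
  rcases b with ⟨j, s'⟩
  cases s <;> cases s' <;> simp only [edgeOf, Bool.false_eq_true, if_false, if_true, Prod.mk.injEq] at h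
  · obtain ⟨h1, rfl⟩ := h
    left
    exact ⟨R.next_injective (j, false) h1, rfl⟩
  · obtain ⟨rfl, rfl⟩ := h
    right
    exact ⟨rfl, by simp [Letter.inv]⟩
  · obtain ⟨h1, rfl⟩ := h
    right
    refine ⟨?_, by simp [Letter.inv]⟩
    have := congrArg (fun z => R.next z (j, true)) h1
    have e := R.next_inv x (j, false)
    simp only [Letter.inv, Bool.not_false] at e
    simpa [e] using this
  · obtain ⟨rfl, rfl⟩ := h
    left
    exact ⟨rfl, rfl⟩

/-- Distinct letters at a vertex give distinct edges. -/
lemma edgeOf_ne_of_ne [DecidableEq V] {t : ℕ} (ht : 1 ≤ t) (hg : R.NoClose t) (v : V) {a b : Letter m}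
    (hab : a ≠ b) : R.edgeOf v a ≠ R.edgeOf v b := by
  intro h
  rcases R.edgeOf_eq_cases h with ⟨_, h2⟩ | ⟨h1, _⟩
  · exact hab h2
  · have := hg v [b] FreeGroup.IsReduced.singleton (by simp) (by simpa using ht)
    exact this (by simp [walk, ← h1])

lemma next_ne {t : ℕ} (ht : 1 ≤ t) (hg : R.NoClose t) (v : V) (a : Letter m) : R.next v a ≠ v := by
  have := hg v [a] FreeGroup.IsReduced.singleton (by simp) (by simpa using ht)
  simpa [walk] using this

/-- `edgeOf v a` lies in `pathEdges x L` iff some suffix decomposition. -/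
lemma mem_pathEdges {x : V} {L : List (Letter m)} {e : V × Fin m} (h : e ∈ R.pathEdges x L) :
    ∃ L₁ b L₂, L = L₁ ++ b :: L₂ ∧ e = R.edgeOf (R.walk x L₁) b := by
  induction L generalizing x with
  | nil => simp [pathEdges] at h
  | cons c L ih =>
    simp only [pathEdges, List.mem_cons] at h
    rcases h with rfl | h
    · exact ⟨[], c, L, rfl, rfl⟩
    · obtain ⟨L₁, b, L₂, rfl, he⟩ := ih h
      exact ⟨c :: L₁, b, L₂, rfl, he⟩

/-- Edges along a short reduced walk are distinct. -/
lemma nodup_pathEdges [DecidableEq V] {t : ℕ} (hg : R.NoClose t) {v : V} {L : List (Letter m)}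
    (hL : FreeGroup.IsReduced L) (hlen : L.length ≤ t) : (R.pathEdges v L).Nodup := by
  induction L generalizing v with
  | nil => simp [pathEdges]
  | cons a L ih =>
    have hL' : FreeGroup.IsReduced L := hL.infix ⟨[a], [], by simp⟩
    simp only [pathEdges, List.nodup_cons]
    refine ⟨?_, ih hL' (by simp at hlen; omega)⟩
    intro hmem
    obtain ⟨L₁, b, L₂, rfl, he⟩ := R.mem_pathEdges hmem
    rcases R.edgeOf_eq_cases he.symm with ⟨h1, h2⟩ | ⟨h1, h2⟩
    · -- the walk `a :: L₁` closes at `v`
      have hred : FreeGroup.IsReduced (a :: L₁) :=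
        hL.infix ⟨[], b :: L₂, by simp⟩
      exact hg v (a :: L₁) hred (by simp) (by simp at hlen ⊢; omega) (by simpa [walk] using h1)
    · -- the walk `L₁` closes at `next v a`
      by_cases hnil : L₁ = []
      · subst hnil
        subst h2
        have : FreeGroup.IsReduced (a :: a.inv :: L₂) := by simpa using hL
        rw [FreeGroup.isReduced_cons_cons] at this
        have := this.1 rfl
        simp [Letter.inv] at this
      · have hred : FreeGroup.IsReduced L₁ := hL.infix ⟨[a], b :: L₂, by simp⟩
        exact hg _ L₁ hred hnil (by simp at hlen; omega) h1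

end Reg

/-! ### Counting colourings -/

section Colour

variable {α : Type} [Fintype α] [DecidableEq α]

/-- Number of colourings vanishing on a set. -/
lemma card_col (A : Finset α) :
    (((univ : Finset (α → Fin 200)).filter fun c => ∀ e ∈ A, c e = 0).card : ℚ)
      = (200 : ℚ) ^ (Fintype.card α) / 200 ^ A.card := by
  have h : (univ : Finset (α → Fin 200)).filter (fun c => ∀ e ∈ A, c e = 0)
      = Fintype.piFinset (fun e => if e ∈ A then ({0} : Finset (Fin 200)) else univ) := by
    ext c
    simp only [mem_filter, mem_univ, true_and, Fintype.mem_piFinset]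
    constructor
    · intro hc e
      by_cases he : e ∈ A
      · simp [he, hc e he]
      · simp [he]
    · intro hc e he
      have := hc e
      simpa [he] using this
  rw [h, Fintype.card_piFinset]
  have h2 : ∏ e : α, (if e ∈ A then ({0} : Finset (Fin 200)) else univ).card
      = ∏ e : α, (if e ∈ A then 1 else 200) := by
    refine prod_congr rfl fun e _ => ?_
    by_cases he : e ∈ A <;> simp [he]
  rw [h2, Finset.prod_ite]
  simp only [prod_const_one, one_mul, prod_const]
  have h3 : ((univ : Finset α).filter fun e => ¬ e ∈ A).card + A.card = Fintype.card α := by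
    have h4 : (univ : Finset α).filter (fun e => e ∈ A) = A := by ext; simp
    have := Finset.card_filter_add_card_filter_not (s := (univ : Finset α)) (fun e => e ∈ A)
    rw [h4] at this
    rw [add_comm, this, card_univ]
  push_cast
  rw [← h3, pow_add]
  field_simp

end Colour


/-- Swapping the order in a double count. -/
lemma sum_card_filter_comm {ι γ : Type} (I : Finset ι) (C : Finset γ) (p : ι → γ → Prop)
    [∀ i c, Decidable (p i c)] :
    ∑ c ∈ C, (I.filter fun i => p i c).card = ∑ i ∈ I, (C.filter fun c => p i c).card := by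
  simp only [card_filter]
  rw [sum_comm]

namespace Reg

variable {m : ℕ} {V : Type} [Fintype V] [DecidableEq V] (R : Reg m V)

/-- kept edges -/
def K (c : V × Fin m → Fin 200) : Finset (V × Fin m) := univ.filter fun e => c e = 0

/-- kept letters at a vertex -/
def kept (c : V × Fin m → Fin 200) (v : V) : Finset (Letter m) :=
  univ.filter fun a => c (R.edgeOf v a) = 0

/-- Sum over colourings of the number of kept edges. -/
lemma sum_K : ∑ c : V × Fin m → Fin 200, ((K c).card : ℚ)
    = (Fintype.card V : ℚ) * m * ((200 : ℚ) ^ (Fintype.card (V × Fin m)) / 200) := by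
  have h1 : ∀ c : V × Fin m → Fin 200, ((K c).card : ℚ)
      = (((univ : Finset (V × Fin m)).filter fun e => c e = 0).card : ℚ) := fun c => rfl
  simp_rw [h1]
  rw [← Nat.cast_sum, sum_card_filter_comm, Nat.cast_sum]
  have h2 : ∀ e : V × Fin m,
      (((univ : Finset (V × Fin m → Fin 200)).filter fun c => c e = 0).card : ℚ)
        = (200 : ℚ) ^ (Fintype.card (V × Fin m)) / 200 := by
    intro e
    have := card_col ({e} : Finset (V × Fin m))
    simpa using this
  simp_rw [h2]
  simp only [sum_const, card_univ, nsmul_eq_mul, Fintype.card_prod, Fintype.card_fin]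
  push_cast
  ring

/-- Sum over colourings of the number of pairs of kept letters at a vertex. -/
lemma sum_pairs {t : ℕ} (ht : 1 ≤ t) (hg : R.NoClose t) (v : V) :
    ∑ c : V × Fin m → Fin 200, (((R.kept c v).offDiag.card : ℕ) : ℚ)
      = (((2 * m) * (2 * m) - 2 * m : ℕ) : ℚ) * ((200 : ℚ) ^ (Fintype.card (V × Fin m)) / 40000) := by
  have h1 : ∀ c : V × Fin m → Fin 200, (R.kept c v).offDiag
      = (univ : Finset (Letter m)).offDiag.filter fun p =>
          c (R.edgeOf v p.1) = 0 ∧ c (R.edgeOf v p.2) = 0 := by
    intro c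
    ext p
    simp [kept, Finset.mem_offDiag]
    tauto
  simp_rw [h1]
  rw [← Nat.cast_sum, sum_card_filter_comm, Nat.cast_sum]
  have h2 : ∀ p ∈ (univ : Finset (Letter m)).offDiag,
      (((univ : Finset (V × Fin m → Fin 200)).filter fun c =>
          c (R.edgeOf v p.1) = 0 ∧ c (R.edgeOf v p.2) = 0).card : ℚ)
        = (200 : ℚ) ^ (Fintype.card (V × Fin m)) / 40000 := by
    intro p hp
    have hne : p.1 ≠ p.2 := (Finset.mem_offDiag.1 hp).2.2
    have hne' : R.edgeOf v p.1 ≠ R.edgeOf v p.2 := R.edgeOf_ne_of_ne ht hg v hne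
    have := card_col ({R.edgeOf v p.1, R.edgeOf v p.2} : Finset (V × Fin m))
    rw [Finset.card_pair hne'] at this
    simp only [mem_insert, mem_singleton, forall_eq_or_imp, forall_eq] at this
    rw [this]
    norm_num
  rw [sum_congr rfl h2]
  have h3 : (univ : Finset (Letter m)).offDiag.card = (2 * m) * (2 * m) - 2 * m := by
    rw [Finset.offDiag_card, card_univ]
    simp [Fintype.card_prod, mul_comm]
  simp only [sum_const, nsmul_eq_mul, h3]

/-- surviving (vertex, word) pairs -/
def surv (F : Finset (List (Letter m))) (c : V × Fin m → Fin 200) : Finset (V × List (Letter m)) :=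
  ((univ : Finset V) ×ˢ F).filter fun p => ∀ e ∈ R.pathEdges p.1 p.2, c e = 0

lemma sum_surv {t : ℕ} (hg : R.NoClose t) (F : Finset (List (Letter m)))
    (hF : ∀ L ∈ F, FreeGroup.IsReduced L ∧ L.length = t) :
    ∑ c : V × Fin m → Fin 200, ((R.surv F c).card : ℚ)
      = (Fintype.card V : ℚ) * F.card * (200 : ℚ) ^ (Fintype.card (V × Fin m)) / 200 ^ t := by
  unfold surv
  rw [← Nat.cast_sum, sum_card_filter_comm, Nat.cast_sum]
  have h2 : ∀ p ∈ ((univ : Finset V) ×ˢ F),
      (((univ : Finset (V × Fin m → Fin 200)).filter fun c =>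
          ∀ e ∈ R.pathEdges p.1 p.2, c e = 0).card : ℚ)
        = (200 : ℚ) ^ (Fintype.card (V × Fin m)) / 200 ^ t := by
    rintro ⟨v, w⟩ hp
    have hw : w ∈ F := (Finset.mem_product.1 hp).2
    obtain ⟨hr, hl⟩ := hF w hw
    have hnd := R.nodup_pathEdges (v := v) hg hr hl.le
    have := card_col (R.pathEdges v w).toFinset
    rw [List.toFinset_card_of_nodup hnd, R.length_pathEdges, hl] at this
    simpa using this
  rw [sum_congr rfl h2]
  simp only [sum_const, nsmul_eq_mul, card_product, card_univ]
  push_cast
  ring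

/-- A good colouring exists. -/
theorem exists_good_col (hm : m = 400) {t : ℕ} (ht : 1 ≤ t) (hg : R.NoClose t)
    (F : Finset (List (Letter m)))
    (hF : ∀ L ∈ F, FreeGroup.IsReduced L ∧ L.length = t) (hFc : 10 * F.card ≤ 200 ^ t) :
    ∃ c : V × Fin m → Fin 200,
      (170 : ℚ) * ((Fintype.card V : ℕ) : ℚ) ≤ 100 * ((K c).card : ℚ)
        - ∑ v, (((R.kept c v).offDiag.card : ℕ) : ℚ) - 100 * ((R.surv F c).card : ℚ) := by
  classical
  set n : ℚ := ((Fintype.card V : ℕ) : ℚ) with hn
  set Z : ℚ := (200 : ℚ) ^ (Fintype.card (V × Fin m)) with hZ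
  have hZpos : 0 < Z := by positivity
  have hnn : 0 ≤ n := by positivity
  have hmq : (m : ℚ) = 400 := by exact_mod_cast hm
  have hpairs : (((2 * m) * (2 * m) - 2 * m : ℕ) : ℚ) = 639200 := by
    subst hm
    norm_num
  have hcard : ∑ _c : V × Fin m → Fin 200, (170 : ℚ) * n = Z * (170 * n) := by
    simp [hZ, card_univ, Fintype.card_prod]
  have hsum : ∑ c : V × Fin m → Fin 200, (100 * ((K c).card : ℚ)
        - ∑ v, (((R.kept c v).offDiag.card : ℕ) : ℚ) - 100 * ((R.surv F c).card : ℚ))
      = 100 * (n * m * (Z / 200)) - n * (639200 * (Z / 40000))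
          - 100 * (n * F.card * Z / 200 ^ t) := by
    rw [sum_sub_distrib, sum_sub_distrib, ← mul_sum, ← mul_sum, sum_K, R.sum_surv hg F hF, sum_comm]
    simp_rw [R.sum_pairs ht hg]
    simp [card_univ, hn, hZ, hpairs]
  have hFq : (F.card : ℚ) * 10 ≤ 200 ^ t := by
    have : ((10 * F.card : ℕ) : ℚ) ≤ ((200 ^ t : ℕ) : ℚ) := by exact_mod_cast hFc
    push_cast at this
    linarith
  have hratio : n * F.card * Z / 200 ^ t ≤ n * Z / 10 := by
    have h200 : (0 : ℚ) < 200 ^ t := by positivity
    rw [div_le_div_iff₀ h200 (by norm_num)]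
    nlinarith [mul_nonneg hnn hZpos.le, mul_le_mul_of_nonneg_left hFq (mul_nonneg hnn hZpos.le)]
  have hle : ∑ _c : V × Fin m → Fin 200, (170 : ℚ) * n ≤
      ∑ c : V × Fin m → Fin 200, (100 * ((K c).card : ℚ)
        - ∑ v, (((R.kept c v).offDiag.card : ℕ) : ℚ) - 100 * ((R.surv F c).card : ℚ)) := by
    rw [hcard, hsum, hmq]
    have : 0 ≤ n * Z := mul_nonneg hnn hZpos.le
    nlinarith
  obtain ⟨c, _, hc⟩ := Finset.exists_le_of_sum_le (s := (univ : Finset (V × Fin m → Fin 200)))
    ⟨0, mem_univ _⟩ hle
  exact ⟨c, hc⟩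

end Reg

end Crest.Agent.FreeLipBAP.Alteration
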