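/-
Row 115 (S0154), plan #770, step (1): from a good colouring to the labelled graph `H`.
-/
import Crest.Agent.Lib.FreeLipBAP.AltCount

set_option autoImplicit false

namespace Crest.Agent.FreeLipBAP.Alteration

open Finset

namespace Reg

variable {m : ℕ} {V : Type} [Fintype V] [DecidableEq V] (R : Reg m V)

/-- The half-edge count: every edge has exactly two half-edges. -/
lemma sum_card_edgeOf (A : Finset (V × Fin m)) :
    ∑ v, (univ.filter fun a : Letter m => R.edgeOf v a ∈ A).card = 2 * A.card := by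
  classical
  have h1 : ∀ v : V, (univ.filter fun a : Letter m => R.edgeOf v a ∈ A).card
      = ∑ i : Fin m, ((if (v, i) ∈ A then 1 else 0) + (if (R.next v (i, false), i) ∈ A then 1 else 0)) := by
    intro v
    rw [card_filter, Fintype.sum_prod_type]
    refine sum_congr rfl fun i _ => ?_
    rw [Fintype.sum_bool]
    simp [edgeOf]
  simp_rw [h1]
  rw [sum_comm]
  simp_rw [sum_add_distrib]
  have h2 : ∀ i : Fin m, ∑ v : V, (if (R.next v (i, false), i) ∈ A then 1 else 0)
      = ∑ v : V, (if (v, i) ∈ A then 1 else 0) := by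
    intro i
    have hbij : Function.Bijective fun v : V => R.next v (i, false) :=
      Finite.injective_iff_bijective.1 (R.next_injective (i, false))
    exact hbij.sum_comp (fun v => if (v, i) ∈ A then 1 else 0)
  simp_rw [h2]
  have h3 : ∑ i : Fin m, ∑ v : V, (if (v, i) ∈ A then 1 else 0) = A.card := by
    have h4 : A.card = (univ.filter fun p : V × Fin m => p ∈ A).card := by simp
    rw [h4, card_filter, Fintype.sum_prod_type, sum_comm]
  rw [h3]
  ring

/-! ### The edge set `E1` -/

theorem exists_E1 (hm : m = 400) {t : ℕ} (ht : 1 ≤ t) (hg : R.NoClose t)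
    (F : Finset (List (Letter m)))
    (hF : ∀ L ∈ F, FreeGroup.IsReduced L ∧ L.length = t) (hFc : 10 * F.card ≤ 200 ^ t) :
    ∃ E1 : Finset (V × Fin m), 17 * Fintype.card V ≤ 10 * E1.card ∧
      (∀ v, (univ.filter fun a : Letter m => R.edgeOf v a ∈ E1).card ≤ 100) ∧
      ∀ v, ∀ w ∈ F, ¬ ∀ e ∈ R.pathEdges v w, e ∈ E1 := by
  classical
  obtain ⟨c, hc⟩ := R.exists_good_col hm ht hg F hF hFc
  -- high-degree vertices
  set High : Finset V := univ.filter fun v => 100 < (R.kept c v).card with hHigh
  set B1 : Finset (V × Fin m) := High.biUnion fun v => (R.kept c v).image (R.edgeOf v) with hB1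
  set B2 : Finset (V × Fin m) := (R.surv F c).image fun p =>
      (R.pathEdges p.1 p.2).headD (p.1, ⟨0, by omega⟩) with hB2
  set E1 : Finset (V × Fin m) := K c \ (B1 ∪ B2) with hE1
  have hB1card : 100 * B1.card ≤ ∑ v, (R.kept c v).offDiag.card := by
    calc 100 * B1.card ≤ 100 * ∑ v ∈ High, ((R.kept c v).image (R.edgeOf v)).card :=
          Nat.mul_le_mul_left _ card_biUnion_le
      _ ≤ 100 * ∑ v ∈ High, (R.kept c v).card :=
          Nat.mul_le_mul_left _ (sum_le_sum fun v _ => card_image_le)
      _ = ∑ v ∈ High, 100 * (R.kept c v).card := by rw [mul_sum]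
      _ ≤ ∑ v ∈ High, (R.kept c v).offDiag.card := by
          refine sum_le_sum fun v hv => ?_
          have hv' : 100 < (R.kept c v).card := (mem_filter.1 hv).2
          rw [offDiag_card]
          set d := (R.kept c v).card
          have : 100 * d ≤ (d - 1) * d := Nat.mul_le_mul_right _ (by omega)
          have h2 : (d - 1) * d = d * d - d := by
            rw [Nat.sub_mul, one_mul]
          omega
      _ ≤ ∑ v, (R.kept c v).offDiag.card :=
          sum_le_sum_of_subset (subset_univ _)
  have hB2card : B2.card ≤ (R.surv F c).card := card_image_le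
  have hKle : (K c).card ≤ E1.card + B1.card + B2.card := by
    have hsub : K c ⊆ E1 ∪ (B1 ∪ B2) := by
      intro e he
      by_cases h : e ∈ B1 ∪ B2
      · exact mem_union_right _ h
      · exact mem_union_left _ (mem_sdiff.2 ⟨he, h⟩)
    calc (K c).card ≤ (E1 ∪ (B1 ∪ B2)).card := card_le_card hsub
      _ ≤ E1.card + (B1 ∪ B2).card := card_union_le _ _
      _ ≤ E1.card + (B1.card + B2.card) := by gcongr; exact card_union_le _ _
      _ = _ := by ring
  refine ⟨E1, ?_, ?_, ?_⟩
  · -- size
    have h1 : (100 * ((K c).card : ℚ)) ≤ 100 * (E1.card + B1.card + B2.card) := by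
      have : ((K c).card : ℚ) ≤ ((E1.card + B1.card + B2.card : ℕ) : ℚ) := by exact_mod_cast hKle
      push_cast at this
      linarith
    have h2 : (100 * (B1.card : ℚ)) ≤ ∑ v, (((R.kept c v).offDiag.card : ℕ) : ℚ) := by
      have : ((100 * B1.card : ℕ) : ℚ) ≤ ((∑ v, (R.kept c v).offDiag.card : ℕ) : ℚ) := by
        exact_mod_cast hB1card
      push_cast at this
      linarith
    have h3 : (B2.card : ℚ) ≤ ((R.surv F c).card : ℚ) := by exact_mod_cast hB2card
    have h4 : (17 : ℚ) * ((Fintype.card V : ℕ) : ℚ) ≤ 10 * (E1.card : ℚ) := by linarith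
    exact_mod_cast h4
  · -- degrees
    intro v
    by_contra hcontra
    push_neg at hcontra
    have hsub : (univ.filter fun a : Letter m => R.edgeOf v a ∈ E1) ⊆ R.kept c v := by
      intro a ha
      have := (mem_filter.1 ha).2
      have h2 := (mem_sdiff.1 this).1
      exact mem_filter.2 ⟨mem_univ _, (mem_filter.1 h2).2⟩
    have hhigh : 100 < (R.kept c v).card := lt_of_lt_of_le hcontra (card_le_card hsub)
    have hne : (univ.filter fun a : Letter m => R.edgeOf v a ∈ E1).Nonempty := by
      rw [← card_pos]; omega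
    obtain ⟨a, ha⟩ := hne
    have ha' := (mem_filter.1 ha).2
    have hmem := mem_sdiff.1 ha'
    apply hmem.2
    apply mem_union_left
    exact mem_biUnion.2 ⟨v, mem_filter.2 ⟨mem_univ _, hhigh⟩, mem_image.2 ⟨a, hsub ha, rfl⟩⟩
  · -- no surviving path
    intro v w hw hall
    obtain ⟨hr, hl⟩ := hF w hw
    have hne : R.pathEdges v w ≠ [] := by
      intro h
      have := congrArg List.length h
      rw [R.length_pathEdges, hl] at this
      simp at this
      omega
    have hsurv : (v, w) ∈ R.surv F c := by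
      refine mem_filter.2 ⟨mem_product.2 ⟨mem_univ _, hw⟩, fun e he => ?_⟩
      have := hall e he
      exact (mem_filter.1 (mem_sdiff.1 this).1).2
    obtain ⟨e0, L0, hcons⟩ := List.exists_cons_of_ne_nil hne
    have he0 : e0 ∈ R.pathEdges v w := by rw [hcons]; simp
    have hmem := hall e0 he0
    apply (mem_sdiff.1 hmem).2
    apply mem_union_right
    refine mem_image.2 ⟨(v, w), hsurv, ?_⟩
    simp [hcons]

/-! ### Selecting the vertex set `S` -/

/-- degree of `v` towards `S` in the kept graph. -/
def dS (E1 : Finset (V × Fin m)) (S : Finset V) (v : V) : ℕ :=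
  (univ.filter fun a : Letter m => R.edgeOf v a ∈ E1 ∧ R.next v a ∈ S).card

/-- sum of the degrees within `S` -/
def DS (E1 : Finset (V × Fin m)) (S : Finset V) : ℕ := ∑ v ∈ S, R.dS E1 S v

lemma sum_cnt (E1 : Finset (V × Fin m)) (T : Finset V) (v : V) :
    ∑ u ∈ T, (univ.filter fun a : Letter m => R.edgeOf u a ∈ E1 ∧ R.next u a = v).card
      = R.dS E1 T v := by
  classical
  rw [sum_card_filter_comm]
  have h1 : ∀ a : Letter m, (T.filter fun u => R.edgeOf u a ∈ E1 ∧ R.next u a = v).card
      = if R.edgeOf v a.inv ∈ E1 ∧ R.next v a.inv ∈ T then 1 else 0 := by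
    intro a
    have hu : ∀ u, R.next u a = v ↔ u = R.next v a.inv := by
      intro u
      constructor
      · rintro rfl
        exact (R.next_inv u a).symm
      · rintro rfl
        have := R.next_inv v a.inv
        simpa using this
    have he : R.edgeOf (R.next v a.inv) a = R.edgeOf v a.inv := by
      have := R.edgeOf_next_inv v a.inv
      simpa using this
    by_cases hc : R.edgeOf v a.inv ∈ E1 ∧ R.next v a.inv ∈ T
    · rw [if_pos hc, card_eq_one]
      refine ⟨R.next v a.inv, ?_⟩
      ext u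
      simp only [mem_filter, mem_singleton]
      constructor
      · rintro ⟨_, _, h⟩
        exact (hu u).1 h
      · rintro rfl
        exact ⟨hc.2, by rw [he]; exact hc.1, (hu _).2 rfl⟩
    · rw [if_neg hc, card_eq_zero]
      ext u
      simp only [mem_filter, notMem_empty, iff_false, not_and]
      intro huT hue h
      have := (hu u).1 h
      subst this
      rw [he] at hue
      exact hc ⟨hue, huT⟩
  simp_rw [h1]
  unfold dS
  rw [card_filter]
  have hbij : Function.Bijective (Letter.inv : Letter m → Letter m) :=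
    Function.Involutive.bijective Letter.inv_inv
  exact hbij.sum_comp (fun a => if R.edgeOf v a ∈ E1 ∧ R.next v a ∈ T then 1 else 0)

lemma DS_erase {t : ℕ} (ht : 1 ≤ t) (hg : R.NoClose t) (E1 : Finset (V × Fin m)) {S : Finset V}
    {v : V} (hv : v ∈ S) : R.DS E1 (S.erase v) + 2 * R.dS E1 S v = R.DS E1 S := by
  classical
  have h1 : ∀ u ∈ S.erase v, R.dS E1 S u = R.dS E1 (S.erase v) u
      + (univ.filter fun a : Letter m => R.edgeOf u a ∈ E1 ∧ R.next u a = v).card := by
    intro u _
    unfold dS
    rw [← card_union_of_disjoint]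
    · congr 1
      ext a
      simp only [mem_filter, mem_univ, true_and, mem_union, mem_erase]
      constructor
      · rintro ⟨h1, h2⟩
        by_cases hc : R.next u a = v
        · exact Or.inr ⟨h1, hc⟩
        · exact Or.inl ⟨h1, hc, h2⟩
      · rintro (⟨h1, _, h2⟩ | ⟨h1, rfl⟩)
        · exact ⟨h1, h2⟩
        · exact ⟨h1, hv⟩
    · rw [disjoint_left]
      intro a ha hb
      have h1 := (mem_filter.1 ha).2.2
      have h2 := (mem_filter.1 hb).2.2
      exact (mem_erase.1 h1).1 h2
  have h2 : R.dS E1 (S.erase v) v = R.dS E1 S v := by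
    unfold dS
    congr 1
    ext a
    simp only [mem_filter, mem_univ, true_and, mem_erase]
    constructor
    · rintro ⟨h1, _, h2⟩
      exact ⟨h1, h2⟩
    · rintro ⟨h1, h2⟩
      exact ⟨h1, R.next_ne ht hg v a, h2⟩
  unfold DS
  rw [← add_sum_erase S _ hv, sum_congr rfl h1, sum_add_distrib, R.sum_cnt, h2]
  ring

theorem exists_S {t : ℕ} (ht : 1 ≤ t) (hg : R.NoClose t) (E1 : Finset (V × Fin m))
    (hn : 0 < Fintype.card V) (hE1 : 17 * Fintype.card V ≤ 10 * E1.card) :
    ∃ S : Finset V, S.Nonempty ∧ (∀ v ∈ S, 2 ≤ R.dS E1 S v) ∧ 17 * S.card ≤ 5 * R.DS E1 S := by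
  classical
  set n := Fintype.card V with hndef
  let f : Finset V → ℤ := fun S => (R.DS E1 S : ℤ) - 2 * S.card
  let g : Finset V → ℤ := fun S => (n + 1) * f S - S.card
  obtain ⟨S, -, hS⟩ := Finset.exists_max_image (Finset.univ : Finset (Finset V)) g ⟨∅, mem_univ _⟩
  have huniv : R.DS E1 univ = 2 * E1.card := by
    rw [← R.sum_card_edgeOf E1]
    unfold DS dS
    simp
  have hfuniv : 10 * f univ ≥ 14 * n := by
    simp only [f, huniv, card_univ]
    push_cast
    have : (17 : ℤ) * n ≤ 10 * E1.card := by exact_mod_cast hE1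
    rw [← hndef]
    linarith
  have hcardS : (S.card : ℤ) ≤ n := by
    have := Finset.card_le_univ S
    exact_mod_cast this
  have hfS : f univ ≤ f S := by
    have h := hS univ (mem_univ _)
    simp only [g, card_univ] at h
    rw [← hndef] at h
    by_contra hlt
    push_neg at hlt
    have h1 : f S + 1 ≤ f univ := hlt
    have h2 : ((n : ℤ) + 1) * (f S + 1) ≤ (n + 1) * f univ :=
      mul_le_mul_of_nonneg_left h1 (by positivity)
    have h3 : (0 : ℤ) ≤ S.card := by positivity
    nlinarith
  have hnq : (0 : ℤ) < n := by exact_mod_cast hn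
  refine ⟨S, ?_, ?_, ?_⟩
  · -- nonempty
    rw [nonempty_iff_ne_empty]
    rintro rfl
    have : f ∅ = 0 := by simp [f, DS]
    rw [this] at hfS
    linarith
  · -- min degree
    intro v hv
    by_contra hlt
    push_neg at hlt
    have hE := R.DS_erase ht hg E1 hv
    have hcard : ((S.erase v).card : ℤ) = S.card - 1 := by
      rw [card_erase_of_mem hv, Nat.cast_sub (card_pos.2 ⟨v, hv⟩)]
      simp
    have hd : (R.dS E1 S v : ℤ) ≤ 1 := by exact_mod_cast Nat.lt_succ_iff.1 hlt
    have h1 : f S ≤ f (S.erase v) := by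
      simp only [f, hcard]
      have : (R.DS E1 S : ℤ) = R.DS E1 (S.erase v) + 2 * R.dS E1 S v := by exact_mod_cast hE.symm
      rw [this]
      linarith
    have h2 := hS (S.erase v) (mem_univ _)
    simp only [g] at h2
    have h3 : ((n : ℤ) + 1) * f S ≤ (n + 1) * f (S.erase v) :=
      mul_le_mul_of_nonneg_left h1 (by positivity)
    rw [hcard] at h2
    linarith
  · -- edge count
    have h1 : (17 : ℤ) * S.card ≤ 5 * R.DS E1 S := by
      simp only [f] at hfS hfuniv
      have h2 : (5 : ℤ) * S.card ≤ 5 * n := by linarith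
      linarith
    exact_mod_cast h1

/-! ### The labelled graph -/

variable {G0 : Type} [Group G0] {θ0 : FreeGroup (Fin m) →* G0}

/-- The labelled graph on `S` with edge set `E1`. -/
def toLab (lab : V → G0) (hlab : ∀ v a, lab (R.next v a) = lab v * θ0 a.toFree)
    (E1 : Finset (V × Fin m)) (S : Finset V) : LabGraph θ0 where
  V := {v // v ∈ S}
  lab := fun z => lab z.1
  step := fun z a => if h : R.edgeOf z.1 a ∈ E1 ∧ R.next z.1 a ∈ S then some ⟨R.next z.1 a, h.2⟩ else none
  step_inv := by
    intro z a z' h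
    by_cases hc : R.edgeOf z.1 a ∈ E1 ∧ R.next z.1 a ∈ S
    · rw [dif_pos hc] at h
      have hz' : z' = ⟨R.next z.1 a, hc.2⟩ := (Option.some.inj h).symm
      subst hz'
      have h1 : R.edgeOf (R.next z.1 a) a.inv ∈ E1 ∧ R.next (R.next z.1 a) a.inv ∈ S := by
        rw [R.edgeOf_next_inv, R.next_inv]
        exact ⟨hc.1, z.2⟩
      simp only [dif_pos h1]
      congr 1
      exact Subtype.ext (R.next_inv z.1 a)
    · rw [dif_neg hc] at h
      simp at h
  step_lab := by
    intro z a z' h
    by_cases hc : R.edgeOf z.1 a ∈ E1 ∧ R.next z.1 a ∈ S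
    · rw [dif_pos hc] at h
      have hz' : z' = ⟨R.next z.1 a, hc.2⟩ := (Option.some.inj h).symm
      subst hz'
      exact hlab _ _
    · rw [dif_neg hc] at h
      simp at h

lemma toLab_deg (lab : V → G0) (hlab : ∀ v a, lab (R.next v a) = lab v * θ0 a.toFree)
    (E1 : Finset (V × Fin m)) (S : Finset V) (z : (R.toLab lab hlab E1 S).V) :
    (R.toLab lab hlab E1 S).deg z = R.dS E1 S z.1 := by
  unfold LabGraph.deg dS
  congr 1
  ext a
  simp only [mem_filter, mem_univ, true_and]
  by_cases hc : R.edgeOf z.1 a ∈ E1 ∧ R.next z.1 a ∈ S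
  · simp [toLab, dif_pos hc, hc]
  · simp [toLab, dif_neg hc, hc]

lemma toLab_read_edges (lab : V → G0) (hlab : ∀ v a, lab (R.next v a) = lab v * θ0 a.toFree)
    (E1 : Finset (V × Fin m)) (S : Finset V) {L : List (Letter m)}
    {z z' : (R.toLab lab hlab E1 S).V} (h : (R.toLab lab hlab E1 S).read z L = some z') :
    ∀ e ∈ R.pathEdges z.1 L, e ∈ E1 := by
  induction L generalizing z with
  | nil => simp [pathEdges]
  | cons a L ih =>
    rw [LabGraph.read_cons] at h
    by_cases hc : R.edgeOf z.1 a ∈ E1 ∧ R.next z.1 a ∈ S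
    · have hs : (R.toLab lab hlab E1 S).step z a = some ⟨R.next z.1 a, hc.2⟩ := by
        simp only [toLab]
        rw [dif_pos hc]
      rw [hs] at h
      have h' : (R.toLab lab hlab E1 S).read ⟨R.next z.1 a, hc.2⟩ L = some z' := by simpa using h
      intro e he
      simp only [pathEdges, List.mem_cons] at he
      rcases he with rfl | he
      · exact hc.1
      · exact ih h' e he
    · have hs : (R.toLab lab hlab E1 S).step z a = none := by
        simp only [toLab]
        rw [dif_neg hc]
      rw [hs] at h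
      simp at h

/-- **Core of the alteration lemma.** -/
theorem alteration_core (hm : m = 400) [Nonempty V] (lab : V → G0)
    (hlab : ∀ v a, lab (R.next v a) = lab v * θ0 a.toFree) {t : ℕ} (ht : 1 ≤ t) (hg : R.NoClose t)
    (F : Finset (List (Letter m))) (hF : ∀ L ∈ F, FreeGroup.IsReduced L ∧ L.length = t)
    (hFc : 10 * F.card ≤ 200 ^ t) :
    ∃ H : LabGraph θ0, Nonempty H.V ∧ (∀ z, H.deg z ≤ 100) ∧ (∀ z, 2 ≤ H.deg z) ∧
      17 * Fintype.card H.V ≤ 5 * ∑ z, H.deg z ∧ ∀ L ∈ F, ¬ H.ReadsSomewhere L := by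
  classical
  obtain ⟨E1, hE1, hdeg, hpath⟩ := R.exists_E1 hm ht hg F hF hFc
  obtain ⟨S, hSne, hSdeg, hScard⟩ := R.exists_S ht hg E1 Fintype.card_pos hE1
  refine ⟨R.toLab lab hlab E1 S, ?_, ?_, ?_, ?_, ?_⟩
  · obtain ⟨v, hv⟩ := hSne
    exact ⟨⟨v, hv⟩⟩
  · intro z
    rw [toLab_deg]
    refine le_trans (card_le_card ?_) (hdeg z.1)
    intro a ha
    exact mem_filter.2 ⟨mem_univ _, (mem_filter.1 ha).2.1⟩
  · intro z
    rw [toLab_deg]
    exact hSdeg z.1 z.2
  · have h1 : Fintype.card (R.toLab lab hlab E1 S).V = S.card := Fintype.card_coe S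
    have h2 : ∑ z : (R.toLab lab hlab E1 S).V, (R.toLab lab hlab E1 S).deg z = R.DS E1 S := by
      unfold DS
      rw [← Finset.sum_coe_sort S]
      exact Finset.sum_congr rfl fun z _ => R.toLab_deg lab hlab E1 S z
    rw [h1, h2]
    exact hScard
  · rintro L hL ⟨z, z', hread⟩
    exact hpath z.1 L hL (R.toLab_read_edges lab hlab E1 S hread)

end Reg

end Crest.Agent.FreeLipBAP.Alteration
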