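import Mathlib

/-!
Pure free-group combinatorics for row 115 (S0154, plan #770).

* `exists_cancel`, `toWord_mul_cancel`: the cancellation normal form of a product.
* `toWord_mul_letter`, `norm_mul_letter`: a one letter step changes the norm by exactly one.
* `norm_mul_take_le`: tree convexity: along a reduced list the norm has no interior local maximum.
* `exists_infix_toWord`: the reduced form of `e * mk c * f` contains a long factor of `c`.
* `exists_highGirth`: residual finiteness, in the form used by the plan.
* `eq_of_map_eq`: injectivity on small balls.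
-/

set_option autoImplicit false

namespace FreeLipBAP.FreeWord

open FreeGroup

section Cancel

variable {α : Type*} [DecidableEq α]

omit [DecidableEq α] in
theorem isReduced_append_cons {L : List (α × Bool)} {b a : α × Bool} {L' : List (α × Bool)}
    (h₁ : IsReduced (L ++ [b])) (h₂ : IsReduced (a :: L')) (hab : b.1 = a.1 → b.2 = a.2) :
    IsReduced (L ++ [b] ++ a :: L') := by
  unfold FreeGroup.IsReduced at *
  rw [List.isChain_append]
  refine ⟨h₁, h₂, ?_⟩
  intro x hx y hy
  simp only [List.getLast?_append, List.getLast?_singleton, Option.mem_def, Option.some_or] at hx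
  simp only [List.head?_cons, Option.mem_def, Option.some.injEq] at hy
  subst hy
  have : x = b := by simpa using hx.symm
  subst this
  exact hab

/-- Cancellation normal form for a product of two reduced lists. -/
theorem exists_cancel (L₁ L₂ : List (α × Bool)) (h₁ : IsReduced L₁) (h₂ : IsReduced L₂) :
    ∃ X Z Y, L₁ = X ++ Z ∧ L₂ = invRev Z ++ Y ∧ IsReduced (X ++ Y) ∧
      reduce (L₁ ++ L₂) = X ++ Y := by
  induction L₁ using List.reverseRecOn generalizing L₂ with
  | nil =>
    refine ⟨[], [], L₂, rfl, by simp, by simpa using h₂, ?_⟩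
    simpa using h₂.reduce_eq
  | append_singleton L' b ih =>
    have hL' : IsReduced L' := IsReduced.infix h₁ (List.prefix_append L' [b]).isInfix
    cases L₂ with
    | nil =>
      refine ⟨L' ++ [b], [], [], by simp, by simp, by simpa using h₁, ?_⟩
      simpa using h₁.reduce_eq
    | cons a L₂' =>
      have hL₂' : IsReduced L₂' := IsReduced.infix h₂ (List.suffix_cons a L₂').isInfix
      by_cases hab : b.1 = a.1 ∧ b.2 = !a.2
      · -- the junction cancels
        obtain ⟨X, Z, Y, hX, hY, hr, hrr⟩ := ih L₂' hL' hL₂'
        refine ⟨X, Z ++ [b], Y, by simp [hX], ?_, hr, ?_⟩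
        · rw [invRev_append, List.append_assoc]
          have : invRev [b] = [a] := by
            obtain ⟨b1, b2⟩ := b
            obtain ⟨a1, a2⟩ := a
            simp only at hab
            obtain ⟨rfl, rfl⟩ := hab
            simp [invRev]
          rw [this, ← hY]; rfl
        · rw [← hrr]
          obtain ⟨b1, b2⟩ := b
          obtain ⟨a1, a2⟩ := a
          simp only at hab
          obtain ⟨rfl, rfl⟩ := hab
          have hs : Red.Step (L' ++ (b1, !a2) :: (b1, !!a2) :: L₂') (L' ++ L₂') := Red.Step.not
          have := reduce.Step.eq hs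
          simp only [Bool.not_not] at this
          simpa [List.append_assoc] using this
      · -- no cancellation at the junction
        have hab' : b.1 = a.1 → b.2 = a.2 := by
          intro h
          obtain ⟨b1, b2⟩ := b
          obtain ⟨a1, a2⟩ := a
          simp only at h hab ⊢
          subst h
          cases b2 <;> cases a2 <;> simp_all
        have hred : IsReduced (L' ++ [b] ++ a :: L₂') := isReduced_append_cons h₁ h₂ hab'
        exact ⟨L' ++ [b], [], a :: L₂', by simp, by simp, hred, hred.reduce_eq⟩

/-- Cancellation normal form of a product in the free group. -/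
theorem toWord_mul_cancel (x y : FreeGroup α) :
    ∃ X Z Y, x.toWord = X ++ Z ∧ y.toWord = invRev Z ++ Y ∧ (x * y).toWord = X ++ Y := by
  obtain ⟨X, Z, Y, h1, h2, -, h4⟩ :=
    exists_cancel x.toWord y.toWord isReduced_toWord isReduced_toWord
  exact ⟨X, Z, Y, h1, h2, by rw [toWord_mul, h4]⟩

theorem toWord_mk_singleton (a : α × Bool) : (mk [a]).toWord = [a] := by
  rw [toWord_mk]; rfl

theorem toWord_mk_of_isReduced {L : List (α × Bool)} (h : IsReduced L) : (mk L).toWord = L := by
  rw [toWord_mk, h.reduce_eq]

theorem norm_mk_of_isReduced {L : List (α × Bool)} (h : IsReduced L) : (mk L).norm = L.length := by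
  rw [FreeGroup.norm, toWord_mk_of_isReduced h]

/-- A one letter step either appends the letter or cancels the last letter. -/
theorem toWord_mul_letter (g : FreeGroup α) (a : α × Bool) :
    (g * mk [a]).toWord = g.toWord ++ [a] ∨ g.toWord = (g * mk [a]).toWord ++ invRev [a] := by
  obtain ⟨X, Z, Y, h1, h2, h3⟩ := toWord_mul_cancel g (mk [a])
  rw [toWord_mk_singleton] at h2
  have hlen : (invRev Z ++ Y).length = 1 := by rw [← h2]; rfl
  rw [List.length_append, invRev_length] at hlen
  have hZ : Z.length = 0 ∨ Z.length = 1 := by omega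
  rcases hZ with hZ | hZ
  · have : Z = [] := List.length_eq_zero_iff.mp hZ
    subst this
    left
    simp only [invRev_empty, List.nil_append] at h2
    rw [h3, h1, ← h2]; simp
  · right
    have hY : Y = [] := List.length_eq_zero_iff.mp (by omega)
    subst hY
    rw [h1, h3]
    simp only [List.append_nil] at h2 ⊢
    rw [h2, invRev_invRev]

/-- A one letter step changes the norm by exactly one. -/
theorem norm_mul_letter (g : FreeGroup α) (a : α × Bool) :
    (g * mk [a]).norm = g.norm + 1 ∨ g.norm = (g * mk [a]).norm + 1 := by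
  rcases toWord_mul_letter g a with h | h
  · left; simp [FreeGroup.norm, h]
  · right; simp only [FreeGroup.norm]; rw [h]; simp [invRev]

omit [DecidableEq α] in
theorem mk_append_eq_mul (L L' : List (α × Bool)) : (mk (L ++ L') : FreeGroup α) = mk L * mk L' :=
  (mul_mk).symm

/-- If `g`'s reduced word followed by `u` is reduced, the product is just the concatenation. -/
theorem toWord_mul_mk_of_isReduced {g : FreeGroup α} {u : List (α × Bool)}
    (h : IsReduced (g.toWord ++ u)) : (g * mk u).toWord = g.toWord ++ u := by
  have : g * mk u = mk (g.toWord ++ u) := by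
    rw [mk_append_eq_mul, mk_toWord]
  rw [this, toWord_mk_of_isReduced h]

/-- Tree convexity: along a reduced list the norm never exceeds the maximum of the two ends. -/
theorem norm_mul_take_le (g : FreeGroup α) (u : List (α × Bool)) (hu : IsReduced u) (j : ℕ) :
    (g * mk (u.take j)).norm ≤ max g.norm (g * mk u).norm := by
  induction u generalizing g j with
  | nil =>
    have : (mk ([] : List (α × Bool))) = (1 : FreeGroup α) := rfl
    simp [this]
  | cons a u' ih =>
    cases j with
    | zero =>
      have : (mk ([] : List (α × Bool))) = (1 : FreeGroup α) := rfl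
      simp [this]
    | succ j' =>
      have hu' : IsReduced u' := IsReduced.infix hu (List.suffix_cons a u').isInfix
      have e1 : g * mk ((a :: u').take (j' + 1)) = (g * mk [a]) * mk (u'.take j') := by
        rw [List.take_succ_cons, mul_assoc, mul_mk]; rfl
      have e2 : g * mk (a :: u') = (g * mk [a]) * mk u' := by
        rw [mul_assoc, mul_mk]; rfl
      rw [e1, e2]
      rcases toWord_mul_letter g a with h | h
      · -- ascending: everything is concatenation from now on
        have hr : IsReduced (g.toWord ++ a :: u') := by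
          have h1 : IsReduced (g.toWord ++ [a]) := by
            rw [← h]; exact isReduced_toWord
          have h2 : IsReduced ([a] ++ u') := hu
          have := IsReduced.append_overlap h1 h2 (by simp)
          simpa [List.append_assoc] using this
        have hr2 : IsReduced ((g * mk [a]).toWord ++ u') := by
          rw [h]; simpa [List.append_assoc] using hr
        have hr3 : IsReduced ((g * mk [a]).toWord ++ u'.take j') := by
          refine IsReduced.infix hr2 ?_
          exact (List.prefix_append_right_inj _).mpr (List.take_prefix _ _) |>.isInfix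
        apply le_max_of_le_right
        simp only [FreeGroup.norm]
        rw [toWord_mul_mk_of_isReduced hr3, toWord_mul_mk_of_isReduced hr2]
        simp only [List.length_append]
        have := List.length_take_le' j' u'
        omega
      · -- descending
        have hn : (g * mk [a]).norm ≤ g.norm := by
          simp only [FreeGroup.norm]; rw [h]; simp
        refine (ih (g * mk [a]) hu' j').trans ?_
        exact max_le_max hn le_rfl

/-- The reduced form of `e * mk c * f` contains a contiguous factor of `c` of any length up to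
`c.length - e.norm - f.norm`. -/
theorem exists_infix_toWord (e f : FreeGroup α) (c : List (α × Bool)) (hc : IsReduced c) (t : ℕ)
    (ht : e.norm + f.norm + t ≤ c.length) :
    ∃ w : List (α × Bool), w.length = t ∧ w <:+: c ∧ w <:+: (e * mk c * f).toWord := by
  obtain ⟨X, Z, Y, h1, h2, h3⟩ := toWord_mul_cancel e (mk c)
  rw [toWord_mk_of_isReduced hc] at h2
  obtain ⟨X', Z', Y', h1', h2', h3'⟩ := toWord_mul_cancel (e * mk c) f
  rw [h3] at h1'
  have hZlen : Z.length ≤ e.norm := by
    simp only [FreeGroup.norm]; rw [h1]; simp
  have hZ'len : Z'.length ≤ f.norm := by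
    simp only [FreeGroup.norm]; rw [h2']; simp [invRev_length]
  have hclen : c.length = Z.length + Y.length := by
    rw [h2]; simp [invRev_length]
  have hY : Z'.length + t ≤ Y.length := by omega
  -- locate `Z'` inside `Y`
  have hsplit : ∃ Y₀, Y = Y₀ ++ Z' ∧ X' = X ++ Y₀ := by
    rcases List.append_eq_append_iff.mp h1' with ⟨A, hA, hB⟩ | ⟨A, hA, hB⟩
    · -- X' = X ++ A , Y = A ++ Z'
      exact ⟨A, hB, hA⟩
    · -- X = X' ++ A, Z' = A ++ Y
      have hlen : Z'.length = A.length + Y.length := by rw [hB]; simp
      have hA0 : A = [] := List.length_eq_zero_iff.mp (by omega)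
      subst hA0
      exact ⟨[], by simpa using hB.symm, by simpa using hA.symm⟩
  obtain ⟨Y₀, hY₀, hX'⟩ := hsplit
  have hY₀len : t ≤ Y₀.length := by
    have : Y.length = Y₀.length + Z'.length := by rw [hY₀]; simp
    omega
  refine ⟨Y₀.take t, by simp [hY₀len], ?_, ?_⟩
  · have hp : Y₀.take t <+: Y₀ := List.take_prefix _ _
    obtain ⟨R, hR⟩ := hp
    have hc' : c = invRev Z ++ (Y₀.take t ++ R) ++ Z' := by
      rw [hR, h2, hY₀, List.append_assoc]
    exact ⟨invRev Z, R ++ Z', by rw [hc']; simp [List.append_assoc]⟩
  · have hp : Y₀.take t <+: Y₀ := List.take_prefix _ _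
    obtain ⟨R, hR⟩ := hp
    refine ⟨X, R ++ Y', ?_⟩
    have hc' : X' ++ Y' = X ++ (Y₀.take t ++ R) ++ Y' := by
      rw [hR, hX']
    rw [h3', hc']
    simp [List.append_assoc]

/-- Injectivity of a hom on small balls, from the absence of short relations. -/
theorem eq_of_map_eq {Γ : Type*} [Group Γ] (θ : FreeGroup α →* Γ) (R : ℕ)
    (hθ : ∀ w : FreeGroup α, w ≠ 1 → w.norm ≤ R → θ w ≠ 1) {u v : FreeGroup α}
    (hn : u.norm + v.norm ≤ R) (h : θ u = θ v) : u = v := by
  by_contra hne
  have hw : u⁻¹ * v ≠ 1 := by
    intro h'
    exact hne (inv_mul_eq_one.mp h')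
  refine hθ _ hw ?_ (by rw [_root_.map_mul, _root_.map_inv, h, inv_mul_cancel])
  refine (FreeGroup.norm_mul_le _ _).trans ?_
  rwa [norm_inv_eq]

end Cancel

section HighGirth

variable {α : Type} [DecidableEq α] [Finite α]

/-- The ball of radius `R` in the free group. -/
abbrev Ball (α : Type) [DecidableEq α] (R : ℕ) : Type := {w : FreeGroup α // w.norm ≤ R}

instance finite_ball (R : ℕ) : Finite (Ball α R) := by
  have hfin : Set.Finite {l : List (α × Bool) | l.length ≤ R} := List.finite_length_le _ R
  have h2 : Set.Finite {w : FreeGroup α | w.norm ≤ R} := by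
    refine (hfin.image mk).subset ?_
    intro w hw
    exact ⟨w.toWord, hw, mk_toWord⟩
  exact h2.to_subtype

/-- Partial left multiplication by `g` on the ball, as an equivalence of subtypes. -/
def partialMul (R : ℕ) (g : FreeGroup α) :
    {x : Ball α R // (g * x.1).norm ≤ R} ≃ {y : Ball α R // (g⁻¹ * y.1).norm ≤ R} where
  toFun x := ⟨⟨g * x.1.1, x.2⟩, by simpa using x.1.2⟩
  invFun y := ⟨⟨g⁻¹ * y.1.1, y.2⟩, by simpa using y.1.2⟩
  left_inv x := by ext; simp
  right_inv y := by ext; simp

open Classical in
/-- A permutation of the ball extending partial left multiplication by `g`. -/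
noncomputable def ballPerm (R : ℕ) (g : FreeGroup α) : Equiv.Perm (Ball α R) :=
  Equiv.extendSubtype (p := fun x : Ball α R => (g * x.1).norm ≤ R)
    (q := fun y : Ball α R => (g⁻¹ * y.1).norm ≤ R) (partialMul R g)

theorem ballPerm_apply (R : ℕ) (g : FreeGroup α) (x : Ball α R) (hx : (g * x.1).norm ≤ R) :
    ballPerm R g x = ⟨g * x.1, hx⟩ := by
  classical
  unfold ballPerm
  rw [Equiv.extendSubtype_apply_of_mem (p := fun x : Ball α R => (g * x.1).norm ≤ R)
    (q := fun y : Ball α R => (g⁻¹ * y.1).norm ≤ R) (partialMul R g) x hx]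
  rfl

theorem ballPerm_inv_apply (R : ℕ) (g : FreeGroup α) (x : Ball α R) (hx : (g⁻¹ * x.1).norm ≤ R) :
    (ballPerm R g)⁻¹ x = ⟨g⁻¹ * x.1, hx⟩ := by
  rw [Equiv.Perm.inv_eq_iff_eq, ballPerm_apply R g ⟨g⁻¹ * x.1, hx⟩ (by simpa using x.2)]
  ext; simp

/-- The permutation representation on the ball. -/
noncomputable def ballRep (R : ℕ) : FreeGroup α →* Equiv.Perm (Ball α R) :=
  FreeGroup.lift fun i => ballPerm R (FreeGroup.of i)

theorem ballRep_apply_one (R : ℕ) (L : List (α × Bool)) (hL : IsReduced L) (hR : L.length ≤ R) :
    ballRep R (mk L) ⟨1, by simp⟩ = ⟨mk L, by rw [norm_mk_of_isReduced hL]; exact hR⟩ := by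
  induction L with
  | nil =>
    have : (mk ([] : List (α × Bool))) = (1 : FreeGroup α) := rfl
    simp [this]
  | cons a L' ih =>
    have hL' : IsReduced L' := IsReduced.infix hL (List.suffix_cons a L').isInfix
    have hR' : L'.length ≤ R := by simp at hR; omega
    have e : (mk (a :: L') : FreeGroup α) = mk [a] * mk L' := by
      rw [mul_mk]; rfl
    have hn : (mk [a] * mk L' : FreeGroup α).norm ≤ R := by
      rw [← e, norm_mk_of_isReduced hL]; exact hR
    have step : ballRep R (mk (a :: L')) ⟨1, by simp⟩ =
        ballRep R (mk [a]) (ballRep R (mk L') ⟨1, by simp⟩) := by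
      rw [e, _root_.map_mul]; rfl
    rw [step, ih hL' hR']
    obtain ⟨i, b⟩ := a
    cases b with
    | true =>
      have h1 : ballRep R (mk [(i, true)]) = ballPerm R (FreeGroup.of i) := by
        have : (mk [(i, true)] : FreeGroup α) = FreeGroup.of i := rfl
        rw [this, ballRep, FreeGroup.lift_apply_of]
      rw [h1, ballPerm_apply R (FreeGroup.of i) _ (by
        have : (FreeGroup.of i : FreeGroup α) = mk [(i, true)] := rfl
        rw [this]; exact hn)]
      ext
      simp only
      rw [e]; rfl
    | false =>
      have h0 : (mk [(i, false)] : FreeGroup α) = (FreeGroup.of i)⁻¹ := rfl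
      have h1 : ballRep R (mk [(i, false)]) = (ballPerm R (FreeGroup.of i))⁻¹ := by
        rw [h0, _root_.map_inv, ballRep, FreeGroup.lift_apply_of]
      rw [h1, ballPerm_inv_apply R (FreeGroup.of i) _ (by
        rw [← h0]; exact hn)]
      ext
      simp only
      rw [e, h0]

/-- **High girth**: for every radius there is a finite quotient with no short relation. -/
theorem exists_highGirth_gen (R : ℕ) :
    ∃ (Γ : Type) (_ : Group Γ) (_ : Fintype Γ) (θ : FreeGroup α →* Γ),
      ∀ w : FreeGroup α, w ≠ 1 → w.norm ≤ R → θ w ≠ 1 := by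
  classical
  refine ⟨Equiv.Perm (Ball α R), inferInstance, Fintype.ofFinite _, ballRep R, ?_⟩
  intro w hw hn
  intro h1
  have hL : IsReduced w.toWord := isReduced_toWord
  have key := ballRep_apply_one (α := α) R w.toWord hL hn
  have h2 : ((ballRep R w) ⟨1, by simp⟩).1 = w := by
    simpa [mk_toWord] using congrArg Subtype.val key
  rw [h1] at h2
  exact hw (by simpa using h2.symm)

end HighGirth

/-- **High girth** for the free group on `Fin m`. -/
theorem exists_highGirth (m R : ℕ) :
    ∃ (Γ : Type) (_ : Group Γ) (_ : Fintype Γ) (θ : FreeGroup (Fin m) →* Γ),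
      ∀ w : FreeGroup (Fin m), w ≠ 1 → w.norm ≤ R → θ w ≠ 1 :=
  exists_highGirth_gen R

end FreeLipBAP.FreeWord
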