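/-
Row 115 (S0154), plan #770, steps (0)+(1): the alteration lemma and the language-disjoint sequence.

Main results (namespace `Crest.Agent.FreeLipBAP.Alteration`):
* `IsGood H`: nonempty, degrees in `[2,100]`, `17 |V| ≤ 5 ∑ deg` (i.e. `|E| ≥ 1.7 |V|`).
* `alteration θ0 l`: given finitely many labelled graphs of maximal degree `≤ 100`, a good graph `H`
  and `t ≥ 1` such that no reduced list of length `t` is read both in `H` and in a member of `l`.
* `exists_seq θ0`: a sequence `B : ℕ → LabGraph θ0` of good graphs such that for every `k` there is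
  `t ≥ 1` with: no reduced list of length `t` is read both in `B k` and in some `B j`, `j < k`.
-/
import Crest.Agent.Lib.FreeLipBAP.AltGraph
import Crest.Agent.Lib.FreeLipBAP.FreeWord

set_option autoImplicit false

namespace Crest.Agent.FreeLipBAP.Alteration

open Finset

variable {m : ℕ} {G0 : Type} [Group G0] {θ0 : FreeGroup (Fin m) →* G0}

/-- Good labelled graphs. -/
structure IsGood (H : LabGraph θ0) : Prop where
  nonempty : Nonempty H.V
  deg_le : ∀ z, H.deg z ≤ 100
  two_le_deg : ∀ z, 2 ≤ H.deg z
  edges : 17 * Fintype.card H.V ≤ 5 * ∑ z, H.deg z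

/-- Lists of length `t` read from a fixed vertex. -/
lemma card_read_from (Γ : LabGraph θ0) (hdeg : ∀ z, Γ.deg z ≤ 100) (t : ℕ) (z : Γ.V)
    (S : Finset (List (Letter m))) (h : ∀ L ∈ S, L.length = t ∧ (Γ.read z L).isSome = true) :
    S.card ≤ 100 ^ t := by
  classical
  induction t generalizing z S with
  | zero =>
    have : S ⊆ {[]} := by
      intro L hL
      have := (h L hL).1
      simp only [mem_singleton]
      exact List.length_eq_zero_iff.1 this
    simpa using card_le_card this
  | succ t ih =>
    have himg : (S.image List.head?) ⊆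
        ((univ.filter fun a : Letter m => (Γ.step z a).isSome = true).image some) := by
      intro o ho
      obtain ⟨L, hL, rfl⟩ := mem_image.1 ho
      obtain ⟨hlen, hread⟩ := h L hL
      cases L with
      | nil => simp at hlen
      | cons a L =>
        refine mem_image.2 ⟨a, mem_filter.2 ⟨mem_univ _, ?_⟩, by simp⟩
        rw [LabGraph.read_cons] at hread
        cases hs : Γ.step z a with
        | none => simp [hs] at hread
        | some w => simp
    have hfib : ∀ o ∈ S.image List.head?, (S.filter fun L => L.head? = o).card ≤ 100 ^ t := by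
      intro o ho
      obtain ⟨a, ha, rfl⟩ := mem_image.1 (himg ho)
      have hs : (Γ.step z a).isSome = true := (mem_filter.1 ha).2
      obtain ⟨w, hw⟩ := Option.isSome_iff_exists.1 hs
      have hinj : Set.InjOn List.tail (↑(S.filter fun L => L.head? = some a) : Set (List (Letter m))) := by
        intro L hL L' hL' htl
        have h1 := (mem_filter.1 (mem_coe.1 hL)).2
        have h2 := (mem_filter.1 (mem_coe.1 hL')).2
        cases L with
        | nil => simp at h1
        | cons b L =>
          cases L' with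
          | nil => simp at h2
          | cons b' L' =>
            simp only [List.head?_cons, Option.some.injEq] at h1 h2
            simp only [List.tail_cons] at htl
            rw [h1, h2, htl]
      rw [← card_image_of_injOn hinj]
      refine ih w _ ?_
      intro L hL
      obtain ⟨L0, hL0, rfl⟩ := mem_image.1 hL
      have hL0' := mem_filter.1 hL0
      obtain ⟨hlen, hread⟩ := h L0 hL0'.1
      cases L0 with
      | nil => simp at hL0'
      | cons b L1 =>
        have hb : b = a := by simpa using hL0'.2
        subst hb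
        simp only [List.tail_cons]
        refine ⟨by simpa using hlen, ?_⟩
        rw [LabGraph.read_cons, hw] at hread
        simpa using hread
    calc S.card ≤ 100 ^ t * (S.image List.head?).card :=
          card_le_mul_card_image S _ hfib
      _ ≤ 100 ^ t * 100 := by
          refine Nat.mul_le_mul_left _ ?_
          refine (card_le_card himg).trans (card_image_le.trans ?_)
          exact hdeg z
      _ = 100 ^ (t + 1) := by ring

/-- Lists of length `t` read somewhere in a labelled graph. -/
lemma card_read_somewhere (Γ : LabGraph θ0) (hdeg : ∀ z, Γ.deg z ≤ 100) (t : ℕ)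
    (S : Finset (List (Letter m))) (h : ∀ L ∈ S, L.length = t ∧ Γ.ReadsSomewhere L) :
    S.card ≤ Fintype.card Γ.V * 100 ^ t := by
  classical
  have hsub : S ⊆ univ.biUnion fun z : Γ.V => S.filter fun L => (Γ.read z L).isSome = true := by
    intro L hL
    obtain ⟨z, z', hz⟩ := (h L hL).2
    exact mem_biUnion.2 ⟨z, mem_univ _, mem_filter.2 ⟨hL, by simp [hz]⟩⟩
  calc S.card ≤ _ := card_le_card hsub
    _ ≤ ∑ z : Γ.V, (S.filter fun L => (Γ.read z L).isSome = true).card := card_biUnion_le
    _ ≤ ∑ _z : Γ.V, 100 ^ t := by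
        refine sum_le_sum fun z _ => card_read_from Γ hdeg t z _ ?_
        intro L hL
        have := mem_filter.1 hL
        exact ⟨(h L this.1).1, this.2⟩
    _ = _ := by simp [card_univ]

/-- Lists of length `t` read somewhere in a finite list of labelled graphs. -/
lemma card_read_list (l : List (LabGraph θ0)) (hl : ∀ g ∈ l, ∀ z, g.deg z ≤ 100) (t : ℕ)
    (S : Finset (List (Letter m))) (h : ∀ L ∈ S, L.length = t ∧ ∃ g ∈ l, g.ReadsSomewhere L) :
    S.card ≤ (l.map fun g => Fintype.card g.V).sum * 100 ^ t := by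
  classical
  induction l generalizing S with
  | nil =>
    have : S = ∅ := by
      apply eq_empty_of_forall_notMem
      intro L hL
      simpa using (h L hL).2
    simp [this]
  | cons g l ih =>
    have h1 : (S.filter fun L => g.ReadsSomewhere L).card ≤ Fintype.card g.V * 100 ^ t :=
      card_read_somewhere g (hl g (by simp)) t _ fun L hL => by
        have := mem_filter.1 hL
        exact ⟨(h L this.1).1, this.2⟩
    have h2 : (S.filter fun L => ¬ g.ReadsSomewhere L).card
        ≤ (l.map fun g => Fintype.card g.V).sum * 100 ^ t :=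
      ih (fun g' hg' => hl g' (by simp [hg'])) _ fun L hL => by
        have := mem_filter.1 hL
        obtain ⟨hlen, g', hg', hr⟩ := h L this.1
        refine ⟨hlen, g', ?_, hr⟩
        rcases List.mem_cons.1 hg' with rfl | h3
        · exact absurd hr this.2
        · exact h3
    have h3 := card_filter_add_card_filter_not (s := S) fun L => g.ReadsSomewhere L
    simp only [List.map_cons, List.sum_cons]
    rw [add_mul, ← h3]
    omega

/-- The product regular immersion on `G0 × Γ1`. -/
def prodReg {m : ℕ} {G0 Γ1 : Type} [Group G0] [Group Γ1] (θ0 : FreeGroup (Fin m) →* G0)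
    (θ1 : FreeGroup (Fin m) →* Γ1) : Reg m (G0 × Γ1) where
  next := fun v a => (v.1 * θ0 a.toFree, v.2 * θ1 a.toFree)
  next_inv := by
    rintro ⟨g, h⟩ a
    simp [Letter.toFree_inv]

lemma prodReg_walk {m : ℕ} {G0 Γ1 : Type} [Group G0] [Group Γ1] (θ0 : FreeGroup (Fin m) →* G0)
    (θ1 : FreeGroup (Fin m) →* Γ1) (v : G0 × Γ1) (L : List (Letter m)) :
    (prodReg θ0 θ1).walk v L = (v.1 * θ0 (FreeGroup.mk L), v.2 * θ1 (FreeGroup.mk L)) := by
  induction L generalizing v with
  | nil =>
    simp [Reg.walk, ← FreeGroup.one_eq_mk]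
  | cons a L ih =>
    have hcons : (FreeGroup.mk (a :: L) : FreeGroup (Fin m)) = a.toFree * FreeGroup.mk L := by
      simp [Letter.toFree, FreeGroup.mul_mk]
    rw [Reg.walk, ih, hcons]
    simp [prodReg, mul_assoc]

lemma exists_ofFn {α : Type} {t : ℕ} {L : List α} (h : L.length = t) :
    ∃ f : Fin t → α, List.ofFn f = L := by
  subst h
  exact ⟨L.get, List.ofFn_get L⟩

/-- **Alteration lemma** (#770, step (1)). -/
theorem alteration [Fintype G0] (hm : m = 400) (θ : FreeGroup (Fin m) →* G0)
    (l : List (LabGraph θ)) (hl : ∀ g ∈ l, ∀ z, g.deg z ≤ 100) :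
    ∃ H : LabGraph θ, IsGood H ∧ ∃ t, 1 ≤ t ∧ ∀ L : List (Letter m), FreeGroup.IsReduced L →
      L.length = t → H.ReadsSomewhere L → ∀ g ∈ l, ¬ g.ReadsSomewhere L := by
  classical
  set N := (l.map fun g => Fintype.card g.V).sum with hN
  obtain ⟨t, ht⟩ : ∃ t, t = 10 * N + 1 := ⟨_, rfl⟩
  have ht1 : 1 ≤ t := by omega
  have h2t : 10 * N ≤ 2 ^ t := by
    have : t < 2 ^ t := Nat.lt_two_pow_self
    omega
  -- the forbidden lists
  let F : Finset (List (Letter m)) :=
    ((univ : Finset (Fin t → Letter m)).image List.ofFn).filter fun L =>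
      FreeGroup.IsReduced L ∧ ∃ g ∈ l, g.ReadsSomewhere L
  have hFmem : ∀ L : List (Letter m), L ∈ F ↔
      L.length = t ∧ FreeGroup.IsReduced L ∧ ∃ g ∈ l, g.ReadsSomewhere L := by
    intro L
    simp only [F, mem_filter, mem_image, mem_univ, true_and]
    constructor
    · rintro ⟨⟨f, rfl⟩, h⟩
      exact ⟨by simp, h⟩
    · rintro ⟨hlen, h⟩
      exact ⟨exists_ofFn hlen, h⟩
  have hF : ∀ L ∈ F, FreeGroup.IsReduced L ∧ L.length = t := fun L hL => by
    have := (hFmem L).1 hL
    exact ⟨this.2.1, this.1⟩
  have hFcard : F.card ≤ N * 100 ^ t :=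
    card_read_list l hl t F fun L hL => by
      have := (hFmem L).1 hL
      exact ⟨this.1, this.2.2⟩
  have hFc : 10 * F.card ≤ 200 ^ t := by
    calc 10 * F.card ≤ 10 * (N * 100 ^ t) := Nat.mul_le_mul_left _ hFcard
      _ = (10 * N) * 100 ^ t := by ring
      _ ≤ 2 ^ t * 100 ^ t := Nat.mul_le_mul_right _ h2t
      _ = 200 ^ t := by rw [← mul_pow]; norm_num
  -- the big Cayley graph
  obtain ⟨Γ1, _, _, θ1, hθ1⟩ := FreeLipBAP.FreeWord.exists_highGirth m t
  let R := prodReg θ θ1
  have hg : R.NoClose t := by
    intro v L hr hne hlen hw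
    have h1 := prodReg_walk θ θ1 v L
    have h2 : v.2 * θ1 (FreeGroup.mk L) = v.2 := by
      have := congrArg Prod.snd (h1.symm.trans hw)
      simpa using this
    have h3 : θ1 (FreeGroup.mk L) = 1 := by simpa using h2
    have hnorm : (FreeGroup.mk L).norm = L.length := FreeLipBAP.FreeWord.norm_mk_of_isReduced hr
    have hne1 : (FreeGroup.mk L : FreeGroup (Fin m)) ≠ 1 := by
      intro h
      rw [h, FreeGroup.norm_one] at hnorm
      exact hne (List.length_eq_zero_iff.1 hnorm.symm)
    exact hθ1 _ hne1 (by omega) h3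
  obtain ⟨H, hne, hdeg, hmin, hedges, hread⟩ :=
    R.alteration_core (θ0 := θ) hm (lab := Prod.fst) (fun _ _ => rfl) ht1 hg F hF hFc
  refine ⟨H, ⟨hne, hdeg, hmin, hedges⟩, t, ht1, ?_⟩
  intro L hr hlen hH g hg' hgL
  exact hread L ((hFmem L).2 ⟨hlen, hr, g, hg', hgL⟩) hH

/-- **The language-disjoint sequence** (#770, step (2)). -/
theorem exists_seq [Fintype G0] (hm : m = 400) (θ : FreeGroup (Fin m) →* G0) :
    ∃ B : ℕ → LabGraph θ, (∀ k, IsGood (B k)) ∧ ∀ k, ∃ t, 1 ≤ t ∧ ∀ L : List (Letter m),
      FreeGroup.IsReduced L → L.length = t → (B k).ReadsSomewhere L →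
        ∀ j < k, ¬ (B j).ReadsSomewhere L := by
  classical
  let GG := {H : LabGraph θ // IsGood H}
  have hnext : ∀ l : List GG, ∃ H : GG, ∃ t, 1 ≤ t ∧ ∀ L : List (Letter m),
      FreeGroup.IsReduced L → L.length = t → H.1.ReadsSomewhere L →
        ∀ g ∈ l, ¬ g.1.ReadsSomewhere L := by
    intro l
    obtain ⟨H, hH, t, ht, hprop⟩ := alteration hm θ (l.map Subtype.val) (by
      intro g hg
      obtain ⟨g', _, rfl⟩ := List.mem_map.1 hg
      exact g'.2.deg_le)
    refine ⟨⟨H, hH⟩, t, ht, ?_⟩
    intro L hr hlen hread g hg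
    exact hprop L hr hlen hread g.1 (List.mem_map.2 ⟨g, hg, rfl⟩)
  choose next hnextP using hnext
  let seq : ℕ → List GG := fun k => Nat.rec [] (fun _ l => l ++ [next l]) k
  have hseq_succ : ∀ k, seq (k + 1) = seq k ++ [next (seq k)] := fun k => rfl
  have hmem : ∀ k j, j < k → next (seq j) ∈ seq k := by
    intro k
    induction k with
    | zero => intro j hj; omega
    | succ k ih =>
      intro j hj
      rw [hseq_succ]
      rcases Nat.lt_succ_iff_lt_or_eq.1 hj with h | rfl
      · exact List.mem_append_left _ (ih j h)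
      · exact List.mem_append_right _ (by simp)
  refine ⟨fun k => (next (seq k)).1, fun k => (next (seq k)).2, ?_⟩
  intro k
  obtain ⟨t, ht, hprop⟩ := hnextP (seq k)
  refine ⟨t, ht, ?_⟩
  intro L hr hlen hread j hj
  exact hprop L hr hlen hread _ (hmem k j hj)

end Crest.Agent.FreeLipBAP.Alteration
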