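import Crest.Agent.Lib.FreeLipBAP.FreeWord
import Crest.Agent.Lib.FreeLipBAP.LabGraph

/-!
# The ball functions `b_q` of plan #770 (row 115, S0154)

`InBallG θ0 K q g` : `g = q * θ0 w` for some `w` of norm `< K`; under the girth hypothesis `w` is unique
and `bL θ0 K q g = 1 - norm w / K` (and `0` outside the ball).
-/

namespace Crest.Agent.FreeLipBAP

variable {m : ℕ} {G0 : Type} [Group G0] (θ0 : FreeGroup (Fin m) →* G0) (K : ℕ)

/-- `g` lies in the ball of radius `K - 1` around `q`. -/
def InBallG (q g : G0) : Prop := ∃ w : FreeGroup (Fin m), w.norm < K ∧ g = q * θ0 w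

open Classical in
/-- The ball function. -/
noncomputable def bL (q g : G0) : ℝ :=
  if h : InBallG θ0 K q g then 1 - (h.choose.norm : ℝ) / K else 0

/-- The girth hypothesis used throughout. -/
def Girth (R : ℕ) : Prop := ∀ w : FreeGroup (Fin m), w ≠ 1 → w.norm ≤ R → θ0 w ≠ 1

variable {θ0 K}

lemma bL_of_not {q g : G0} (h : ¬ InBallG θ0 K q g) : bL θ0 K q g = 0 := by
  simp [bL, h]

lemma bL_eq (hg : Girth θ0 (2 * K + 2)) {q g : G0} {w : FreeGroup (Fin m)} (hw : w.norm < K)
    (hgw : g = q * θ0 w) : bL θ0 K q g = 1 - (w.norm : ℝ) / K := by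
  have h : InBallG θ0 K q g := ⟨w, hw, hgw⟩
  simp only [bL, dif_pos h]
  obtain ⟨h1, h2⟩ := h.choose_spec
  have : h.choose = w := by
    refine FreeLipBAP.FreeWord.eq_of_map_eq θ0 (2 * K + 2) hg (by omega) ?_
    have : q * θ0 h.choose = q * θ0 w := by rw [← h2, hgw]
    exact mul_left_cancel this
  rw [this]

lemma bL_nonneg (q g : G0) : 0 ≤ bL θ0 K q g := by
  by_cases h : InBallG θ0 K q g
  · simp only [bL, dif_pos h]
    have h1 := h.choose_spec.1
    have hK : (0:ℝ) < K := by
      have : 0 < K := by omega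
      exact_mod_cast this
    have h2 : ((h.choose.norm : ℕ) : ℝ) ≤ K := by exact_mod_cast h1.le
    have : ((h.choose.norm : ℕ) : ℝ) / K ≤ 1 := by
      rw [div_le_one hK]; exact h2
    linarith
  · rw [bL_of_not h]

lemma bL_le_one (q g : G0) : bL θ0 K q g ≤ 1 := by
  by_cases h : InBallG θ0 K q g
  · simp only [bL, dif_pos h]
    have : (0:ℝ) ≤ ((h.choose.norm : ℕ) : ℝ) / K := by positivity
    linarith
  · rw [bL_of_not h]; norm_num

lemma abs_bL_le_one (q g : G0) : |bL θ0 K q g| ≤ 1 := by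
  rw [abs_of_nonneg (bL_nonneg q g)]; exact bL_le_one q g

lemma bL_self (hg : Girth θ0 (2 * K + 2)) (hK : 0 < K) (q : G0) : bL θ0 K q q = 1 := by
  have := bL_eq (q := q) (g := q) (w := 1) hg (by simpa using hK) (by simp)
  simpa using this

lemma bL_symm (hg : Girth θ0 (2 * K + 2)) (q g : G0) : bL θ0 K q g = bL θ0 K g q := by
  by_cases h : InBallG θ0 K q g
  · obtain ⟨w, hw, e⟩ := h
    rw [bL_eq hg hw e, bL_eq (w := w⁻¹) hg (by rwa [FreeGroup.norm_inv_eq]) (by simp [e]),
      FreeGroup.norm_inv_eq]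
  · have h' : ¬ InBallG θ0 K g q := by
      rintro ⟨w, hw, e⟩
      exact h ⟨w⁻¹, by rwa [FreeGroup.norm_inv_eq], by simp [e]⟩
    rw [bL_of_not h, bL_of_not h']

/-- One step, starting inside the ball. -/
lemma bL_step_aux (hg : Girth θ0 (2 * K + 2)) {q g : G0} (h : InBallG θ0 K q g) (a : Letter m) :
    |bL θ0 K q (g * θ0 a.toFree) - bL θ0 K q g| ≤ 1 / K := by
  obtain ⟨w, hw, e⟩ := h
  have hKpos : (0:ℝ) < K := by
    have : 0 < K := by omega
    exact_mod_cast this
  have e' : g * θ0 a.toFree = q * θ0 (w * a.toFree) := by rw [e, map_mul, mul_assoc]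
  rw [bL_eq hg hw e]
  have hn := FreeLipBAP.FreeWord.norm_mul_letter w a
  have hn' : (w * a.toFree).norm = w.norm + 1 ∨ w.norm = (w * a.toFree).norm + 1 := hn
  by_cases hlt : (w * a.toFree).norm < K
  · rw [bL_eq hg hlt e']
    rcases hn' with h1 | h1
    · rw [h1]; push_cast
      rw [show (1:ℝ) - ((w.norm:ℝ) + 1) / K - (1 - (w.norm:ℝ) / K) = -(1 / K) by field_simp; ring,
        abs_neg, abs_of_pos (by positivity)]
    · rw [h1]; push_cast
      rw [show (1:ℝ) - (((w * a.toFree).norm:ℝ)) / K - (1 - (((w * a.toFree).norm:ℝ) + 1) / K) = 1 / K by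
        field_simp; ring, abs_of_pos (by positivity)]
  · have hnot : ¬ InBallG θ0 K q (g * θ0 a.toFree) := by
      rintro ⟨w', hw', e''⟩
      have : θ0 w' = θ0 (w * a.toFree) := by
        have h3 : q * θ0 w' = q * θ0 (w * a.toFree) := by rw [← e'', e']
        exact mul_left_cancel h3
      have h4 : (w * a.toFree).norm ≤ K := by
        rcases hn' with h1 | h1 <;> omega
      have := FreeLipBAP.FreeWord.eq_of_map_eq θ0 (2 * K + 2) hg (by omega) this
      rw [this] at hw'
      exact hlt hw'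
    rw [bL_of_not hnot]
    have hnK : w.norm + 1 = K := by
      rcases hn' with h1 | h1 <;> omega
    have : (1:ℝ) - (w.norm:ℝ) / K = 1 / K := by
      have h5 : (K:ℝ) = (w.norm:ℝ) + 1 := by exact_mod_cast hnK.symm
      field_simp
      rw [h5]; ring
    rw [this, zero_sub, abs_neg, abs_of_pos (by positivity)]

/-- The ball function is `1/K`-Lipschitz along letters, in the second variable. -/
lemma bL_step (hg : Girth θ0 (2 * K + 2)) (q g : G0) (a : Letter m) :
    |bL θ0 K q (g * θ0 a.toFree) - bL θ0 K q g| ≤ 1 / K := by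
  by_cases h : InBallG θ0 K q g
  · exact bL_step_aux hg h a
  · by_cases h' : InBallG θ0 K q (g * θ0 a.toFree)
    · have := bL_step_aux hg h' a.inv
      have e : g * θ0 a.toFree * θ0 a.inv.toFree = g := by
        rw [Letter.toFree_inv, map_inv]; simp
      rw [e] at this
      rwa [abs_sub_comm]
    · rw [bL_of_not h, bL_of_not h']
      simp only [sub_self, abs_zero]
      positivity

/-- The ball function is `1/K`-Lipschitz along letters, in the first variable. -/
lemma bL_step_left (hg : Girth θ0 (2 * K + 2)) (q g : G0) (a : Letter m) :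
    |bL θ0 K (q * θ0 a.toFree) g - bL θ0 K q g| ≤ 1 / K := by
  rw [bL_symm hg (q * θ0 a.toFree) g, bL_symm hg q g]
  exact bL_step hg g q a

end Crest.Agent.FreeLipBAP
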