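/-
Abstract chain metric of a weighted graph (row 115, S0154, module ChainMetric).

`WGraph V`: a symmetric edge relation with symmetric weights `≥ 1`, connected.
`G.dist u v` = infimum of the weights of chains from `u` to `v`.
Provides the `MetricSpace`, `dist ≤ w` on edges, `1 ≤ dist` for distinct points and the
Lipschitz test: `|f u - f v| ≤ L * w u v` on edges implies `L`-Lipschitz.
-/
import Mathlib

set_option autoImplicit false

namespace Crest.Agent.FreeLipBAP

/-- A connected weighted graph with symmetric weights at least `1`. -/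
structure WGraph (V : Type) where
  /-- edge relation -/
  Adj : V → V → Prop
  /-- weights (only values on edges matter) -/
  w : V → V → ℝ
  adj_symm : ∀ u v, Adj u v → Adj v u
  w_symm : ∀ u v, Adj u v → w u v = w v u
  one_le_w : ∀ u v, Adj u v → 1 ≤ w u v
  conn : ∀ u v, Relation.ReflTransGen Adj u v

namespace WGraph

variable {V : Type} (G : WGraph V)

/-- `G.Chain u v c`: there is a chain from `u` to `v` of total weight `c`. -/
inductive Chain : V → V → ℝ → Prop
  | refl (u : V) : Chain u u 0
  | step {u v x : V} {c : ℝ} (h : G.Adj u v) (t : Chain v x c) : Chain u x (G.w u v + c)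

variable {G}

lemma Chain.nonneg {u v : V} {c : ℝ} (h : G.Chain u v c) : 0 ≤ c := by
  induction h with
  | refl u => exact le_rfl
  | step h _ ih => have := G.one_le_w _ _ h; linarith

lemma Chain.trans {u v x : V} {c d : ℝ} (h : G.Chain u v c) (k : G.Chain v x d) :
    G.Chain u x (c + d) := by
  induction h with
  | refl u => simpa using k
  | step h _ ih =>
    rw [add_assoc]
    exact Chain.step h (ih k)

lemma Chain.single {u v : V} (h : G.Adj u v) : G.Chain u v (G.w u v) := by
  simpa using Chain.step h (Chain.refl v)

lemma Chain.symm {u v : V} {c : ℝ} (h : G.Chain u v c) : G.Chain v u c := by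
  induction h with
  | refl u => exact Chain.refl u
  | @step u v x c h _ ih =>
    have h' : G.Chain v u (G.w u v) := by
      rw [G.w_symm u v h]
      exact Chain.single (G.adj_symm _ _ h)
    have := ih.trans h'
    rwa [add_comm] at this

lemma Chain.one_le {u v : V} {c : ℝ} (h : G.Chain u v c) (huv : u ≠ v) : 1 ≤ c := by
  cases h with
  | refl u => exact absurd rfl huv
  | step h t =>
    have := G.one_le_w _ _ h
    have := t.nonneg
    linarith

variable (G)

lemma exists_chain (u v : V) : ∃ c, G.Chain u v c := by
  have := G.conn u v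
  induction this with
  | refl => exact ⟨0, Chain.refl u⟩
  | tail _ h ih =>
    obtain ⟨c, hc⟩ := ih
    exact ⟨_, hc.trans (Chain.single h)⟩

/-- Chain distance. -/
noncomputable def cdist (u v : V) : ℝ := sInf {c | G.Chain u v c}

variable {G}

lemma cdist_bdd (u v : V) : BddBelow {c | G.Chain u v c} := ⟨0, fun _ h => Chain.nonneg h⟩

lemma cdist_le_of_chain {u v : V} {c : ℝ} (h : G.Chain u v c) : G.cdist u v ≤ c :=
  csInf_le (cdist_bdd u v) h

lemma cdist_le_w {u v : V} (h : G.Adj u v) : G.cdist u v ≤ G.w u v :=
  cdist_le_of_chain (Chain.single h)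

lemma le_cdist {u v : V} {a : ℝ} (h : ∀ c, G.Chain u v c → a ≤ c) : a ≤ G.cdist u v :=
  le_csInf (G.exists_chain u v) (fun c hc => h c hc)

lemma cdist_self (u : V) : G.cdist u u = 0 :=
  le_antisymm (cdist_le_of_chain (Chain.refl u)) (le_cdist fun _ h => h.nonneg)

lemma cdist_comm (u v : V) : G.cdist u v = G.cdist v u :=
  le_antisymm (le_cdist fun _ h => cdist_le_of_chain h.symm)
    (le_cdist fun _ h => cdist_le_of_chain h.symm)

lemma cdist_triangle (u v x : V) : G.cdist u x ≤ G.cdist u v + G.cdist v x := by
  have huv := G.exists_chain u v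
  have hvx := G.exists_chain v x
  -- use `le_csInf` twice
  have h1 : ∀ c, G.Chain u v c → G.cdist u x - c ≤ G.cdist v x := fun c hc =>
    le_cdist fun d hd => by
      have := cdist_le_of_chain (hc.trans hd)
      linarith
  have h2 : G.cdist u x - G.cdist v x ≤ G.cdist u v :=
    le_cdist fun c hc => by
      have := h1 c hc
      linarith
  linarith

lemma one_le_cdist {u v : V} (h : u ≠ v) : 1 ≤ G.cdist u v :=
  le_cdist fun _ hc => hc.one_le h

lemma eq_of_cdist_eq_zero {u v : V} (h : G.cdist u v = 0) : u = v := by
  by_contra hne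
  have := one_le_cdist (G := G) hne
  linarith

variable (G)

/-- The chain metric of a weighted graph as a `MetricSpace`. -/
noncomputable def metricSpace : MetricSpace V where
  dist := G.cdist
  dist_self := cdist_self
  dist_comm := cdist_comm
  dist_triangle := cdist_triangle
  eq_of_dist_eq_zero := eq_of_cdist_eq_zero

variable {G}

lemma dist_eq (u v : V) :
    @dist V (G.metricSpace.toPseudoMetricSpace.toDist) u v = G.cdist u v := rfl

/-- A function which is `L`-Lipschitz across each edge changes by at most `L * c` along a chain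
of weight `c`. -/
lemma abs_sub_le_of_chain {f : V → ℝ} {L : ℝ}
    (hf : ∀ u v, G.Adj u v → |f u - f v| ≤ L * G.w u v) {u v : V} {c : ℝ}
    (h : G.Chain u v c) : |f u - f v| ≤ L * c := by
  induction h with
  | refl u => simp
  | @step u v x c h _ ih =>
    have h1 := hf u v h
    calc |f u - f x| = |(f u - f v) + (f v - f x)| := by ring_nf
      _ ≤ |f u - f v| + |f v - f x| := abs_add_le _ _
      _ ≤ L * (G.w u v + c) := by rw [mul_add]; exact add_le_add h1 ih

/-- **Lipschitz test.** -/
lemma abs_sub_le_cdist {f : V → ℝ} {L : ℝ} (hL : 0 ≤ L)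
    (hf : ∀ u v, G.Adj u v → |f u - f v| ≤ L * G.w u v) (u v : V) :
    |f u - f v| ≤ L * G.cdist u v := by
  rcases hL.eq_or_lt with h0 | hpos
  · -- `L = 0`: use a chain
    obtain ⟨c, hc⟩ := G.exists_chain u v
    have := abs_sub_le_of_chain hf hc
    rw [← h0] at this ⊢
    simpa using this
  · have : |f u - f v| / L ≤ G.cdist u v := le_cdist fun c hc => by
      rw [div_le_iff₀ hpos]
      have := abs_sub_le_of_chain hf hc
      linarith
    rw [div_le_iff₀ hpos] at this
    linarith

/-- Lipschitz test in `LipschitzWith` form, for the chain metric. -/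
lemma lipschitzWith_of_edges {f : V → ℝ} {L : NNReal}
    (hf : ∀ u v, G.Adj u v → |f u - f v| ≤ L * G.w u v) :
    @LipschitzWith V ℝ (G.metricSpace.toPseudoMetricSpace.toPseudoEMetricSpace) _ L f := by
  letI := G.metricSpace
  refine LipschitzWith.of_dist_le_mul fun u v => ?_
  rw [Real.dist_eq]
  exact abs_sub_le_cdist L.2 hf u v

end WGraph

end Crest.Agent.FreeLipBAP
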