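import Mathlib
import Crest.Agent.Lib.FreeLipBAP.LabGraph
import Crest.Agent.Lib.FreeLipBAP.FreeWord

/-!
# Ball representatives, pieces, partners (row 115, S0154, section (4) of plan #770).

`Y` is a labelled graph over `θ0`, `θ0` has no relation up to length `2K+2`.
`IsRep q z w`: the label of `z` is `q * θ0 w` with `‖w‖ < K`. Pieces at `q` are the connected
components of the ball of `q` inside `Y`, partners are pieces (at adjacent labels) that meet.
-/

namespace Crest.Agent.FreeLipBAP

variable {m : ℕ}

/-! ### one letter multiplication in the free group -/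

lemma toFree_mul_toWord (a : Letter m) (w : FreeGroup (Fin m)) :
    (a.toFree * w).toWord = FreeGroup.reduce (a :: w.toWord) := by
  conv_lhs => rw [← FreeGroup.mk_toWord (x := w)]
  rw [Letter.toFree, FreeGroup.mul_mk, FreeGroup.toWord_mk]
  rfl

/-- A letter on the left changes the norm by one; it decreases exactly when it cancels the head. -/
lemma norm_letter_mul (a : Letter m) (w : FreeGroup (Fin m)) :
    (a.toFree * w).norm = w.norm + 1 ∨
      ((a.toFree * w).norm + 1 = w.norm ∧ w.toWord.head? = some a.inv) := by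
  unfold FreeGroup.norm
  rw [toFree_mul_toWord, FreeGroup.reduce.cons, FreeGroup.reduce_toWord]
  cases h : w.toWord with
  | nil => left; simp
  | cons hd tl =>
    by_cases hc : a.1 = hd.1 ∧ a.2 = !hd.2
    · right
      simp only [hc, and_self, if_true, List.length_cons, List.head?_cons, Option.some.injEq, true_and]
      obtain ⟨h1, h2⟩ := hc
      refine Prod.ext ?_ ?_
      · simp [Letter.inv, h1]
      · simp [Letter.inv, h2]
    · left
      simp [hc]

/-- A letter on the right changes the norm by one. -/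
lemma norm_mul_letter (w : FreeGroup (Fin m)) (a : Letter m) :
    (w * a.toFree).norm = w.norm + 1 ∨
      ((w * a.toFree).norm + 1 = w.norm ∧ (w⁻¹).toWord.head? = some a) := by
  have h := norm_letter_mul a.inv (w⁻¹)
  have e : a.inv.toFree * w⁻¹ = (w * a.toFree)⁻¹ := by
    rw [Letter.toFree_inv, mul_inv_rev]
  rw [e, FreeGroup.norm_inv_eq, FreeGroup.norm_inv_eq, Letter.inv_inv] at h
  exact h

/-- The letter decreasing the norm is unique. -/
lemma decreasing_letter_unique {w : FreeGroup (Fin m)} {a b : Letter m}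
    (ha : (w * a.toFree).norm + 1 = w.norm) (hb : (w * b.toFree).norm + 1 = w.norm) : a = b := by
  rcases norm_mul_letter w a with h | ⟨_, h⟩
  · omega
  rcases norm_mul_letter w b with h' | ⟨_, h'⟩
  · omega
  rw [h] at h'
  exact Option.some.inj h'

lemma norm_letter_toFree_le (a : Letter m) : a.toFree.norm ≤ 1 := by
  unfold Letter.toFree
  simpa using FreeGroup.norm_mk_le (L₁ := [a])

variable {G0 : Type} [Group G0] {θ0 : FreeGroup (Fin m) →* G0}

/-- `θ0` has no relation up to length `2K+2`. -/
def NoRel (θ0 : FreeGroup (Fin m) →* G0) (K : ℕ) : Prop :=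
  ∀ w : FreeGroup (Fin m), w ≠ 1 → w.norm ≤ 2 * K + 2 → θ0 w ≠ 1

lemma NoRel.eq {K : ℕ} (h : NoRel θ0 K) {w w' : FreeGroup (Fin m)}
    (hw : w.norm ≤ K + 1) (hw' : w'.norm ≤ K + 1) (e : θ0 w = θ0 w') : w = w' := by
  by_contra hne
  have h1 : w⁻¹ * w' ≠ 1 := by
    intro h2
    exact hne (inv_mul_eq_one.mp h2)
  have h2 : (w⁻¹ * w').norm ≤ 2 * K + 2 := by
    refine (FreeGroup.norm_mul_le _ _).trans ?_
    rw [FreeGroup.norm_inv_eq]
    omega
  exact h _ h1 h2 (by simp [e])

section Pieces

variable (Y : LabGraph θ0) (K : ℕ)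

/-- `w` represents `z` from `q`: the label of `z` is `q * θ0 w` and `‖w‖ < K`. -/
def IsRep (q : G0) (z : Y.V) (w : FreeGroup (Fin m)) : Prop :=
  w.norm < K ∧ Y.lab z = q * θ0 w

/-- `z` lies in the ball of `q`. -/
def InBall (q : G0) (z : Y.V) : Prop := ∃ w, IsRep Y K q z w

/-- Graph edge inside the ball of `q`. -/
def BallEdge (q : G0) (z z' : Y.V) : Prop :=
  InBall Y K q z ∧ InBall Y K q z' ∧ Y.Adj z z'

lemma BallEdge.symm {q : G0} {z z' : Y.V} (h : BallEdge Y K q z z') : BallEdge Y K q z' z :=
  ⟨h.2.1, h.1, h.2.2.symm⟩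

/-- The connectivity setoid on the ball of `q`. -/
def pieceSetoid (q : G0) : Setoid {z : Y.V // InBall Y K q z} where
  r z z' := Relation.ReflTransGen (BallEdge Y K q) z.1 z'.1
  iseqv :=
    { refl := fun _ => Relation.ReflTransGen.refl
      symm := fun h => by
        have : Std.Symm (BallEdge Y K q) := ⟨fun _ _ e => BallEdge.symm Y K e⟩
        exact (Relation.ReflTransGen.stdSymm (r := BallEdge Y K q)).symm _ _ h
      trans := fun h h' => Relation.ReflTransGen.trans h h' }

/-- Pieces at `q`: connected components of the ball of `q` in `Y`. -/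
def Piece (q : G0) : Type := Quotient (pieceSetoid Y K q)

noncomputable instance (q : G0) : Fintype (Piece Y K q) := by
  classical
  haveI : Finite (Piece Y K q) := Quotient.finite _
  exact Fintype.ofFinite _

noncomputable instance (q : G0) : DecidableEq (Piece Y K q) := Classical.decEq _

/-- The piece of a ball point. -/
def pieceOf (q : G0) (z : Y.V) (h : InBall Y K q z) : Piece Y K q :=
  Quotient.mk (pieceSetoid Y K q) ⟨z, h⟩

/-- Membership in a piece. -/
def Piece.Mem {Y : LabGraph θ0} {K : ℕ} {q : G0} (P : Piece Y K q) (z : Y.V) : Prop :=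
  ∃ h : InBall Y K q z, pieceOf Y K q z h = P

variable {Y K}

lemma Piece.Mem.inBall {q : G0} {P : Piece Y K q} {z : Y.V} (h : P.Mem z) : InBall Y K q z := h.1

lemma mem_pieceOf {q : G0} {z : Y.V} (h : InBall Y K q z) : (pieceOf Y K q z h).Mem z := ⟨h, rfl⟩

lemma Piece.exists_mem {q : G0} (P : Piece Y K q) : ∃ z, P.Mem z := by
  induction P using Quotient.inductionOn with
  | h a => exact ⟨a.1, a.2, rfl⟩

lemma Piece.Mem.unique {q : G0} {P P' : Piece Y K q} {z : Y.V} (h : P.Mem z) (h' : P'.Mem z) :
    P = P' := by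
  obtain ⟨h1, rfl⟩ := h
  obtain ⟨h2, rfl⟩ := h'
  rfl

/-- Two points of a piece are joined inside the ball. -/
lemma Piece.Mem.joined {q : G0} {P : Piece Y K q} {z z' : Y.V} (h : P.Mem z) (h' : P.Mem z') :
    Relation.ReflTransGen (BallEdge Y K q) z z' := by
  obtain ⟨h1, e1⟩ := h
  obtain ⟨h2, e2⟩ := h'
  have : pieceOf Y K q z h1 = pieceOf Y K q z' h2 := e1.trans e2.symm
  exact Quotient.exact (s := pieceSetoid Y K q) this

/-- Joined points lie in the same piece. -/
lemma Piece.Mem.of_joined {q : G0} {P : Piece Y K q} {z z' : Y.V} (h : P.Mem z)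
    (hz' : InBall Y K q z') (hj : Relation.ReflTransGen (BallEdge Y K q) z z') : P.Mem z' := by
  obtain ⟨h1, rfl⟩ := h
  refine ⟨hz', ?_⟩
  exact (Quotient.sound (s := pieceSetoid Y K q) hj).symm

/-- Adjacent ball points are in one piece. -/
lemma Piece.Mem.of_adj {q : G0} {P : Piece Y K q} {z z' : Y.V} (h : P.Mem z)
    (hz' : InBall Y K q z') (ha : Y.Adj z z') : P.Mem z' :=
  h.of_joined hz' (Relation.ReflTransGen.single ⟨h.inBall, hz', ha⟩)

/-- Partners: pieces that meet. -/
def Partner {q q' : G0} (P : Piece Y K q) (P' : Piece Y K q') : Prop :=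
  ∃ z, P.Mem z ∧ P'.Mem z

lemma Partner.symm {q q' : G0} {P : Piece Y K q} {P' : Piece Y K q'} (h : Partner P P') :
    Partner P' P := by
  obtain ⟨z, h1, h2⟩ := h
  exact ⟨z, h2, h1⟩

/-! ### uniqueness of representatives -/

lemma IsRep.unique (hK : NoRel θ0 K) {q : G0} {z : Y.V} {w w' : FreeGroup (Fin m)}
    (h : IsRep Y K q z w) (h' : IsRep Y K q z w') : w = w' := by
  refine hK.eq (by have := h.1; omega) (by have := h'.1; omega) ?_
  have := h.2.symm.trans h'.2
  exact mul_left_cancel this

/-- Changing the centre along a letter. -/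
lemma lab_eq_of_isRep {q q' : G0} {a : Letter m} (hq : q' = q * θ0 a.toFree) {z : Y.V}
    {w : FreeGroup (Fin m)} (h : Y.lab z = q * θ0 w) : Y.lab z = q' * θ0 (a.toFree⁻¹ * w) := by
  rw [h, hq, map_mul, map_inv]
  group

/-- Representative at the partner centre. -/
lemma IsRep.partner (hK : NoRel θ0 K) {q q' : G0} {a : Letter m} (hq : q' = q * θ0 a.toFree)
    {z : Y.V} {w w' : FreeGroup (Fin m)} (h : IsRep Y K q z w) (h' : IsRep Y K q' z w') :
    w' = a.toFree⁻¹ * w := by
  have h1 := lab_eq_of_isRep (Y := Y) hq h.2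
  have hn : (a.toFree⁻¹ * w).norm ≤ K + 1 := by
    refine (FreeGroup.norm_mul_le _ _).trans ?_
    rw [FreeGroup.norm_inv_eq]
    have := norm_letter_toFree_le a
    have := h.1
    omega
  refine hK.eq (by have := h'.1; omega) hn ?_
  have := h'.2.symm.trans h1
  exact mul_left_cancel this

/-- A ball point outside the next ball has a representative of norm `K - 1`. -/
lemma IsRep.norm_of_not_inBall {q q' : G0} {a : Letter m} (hq : q' = q * θ0 a.toFree)
    {z : Y.V} {w : FreeGroup (Fin m)} (h : IsRep Y K q z w) (hn : ¬ InBall Y K q' z) :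
    w.norm + 1 = K := by
  have h1 := lab_eq_of_isRep (Y := Y) hq h.2
  by_contra hne
  apply hn
  refine ⟨a.toFree⁻¹ * w, ?_, h1⟩
  have h2 := h.1
  have h3 : (a.toFree⁻¹ * w).norm ≤ 1 + w.norm := by
    refine (FreeGroup.norm_mul_le _ _).trans ?_
    rw [FreeGroup.norm_inv_eq]
    have := norm_letter_toFree_le a
    omega
  omega

/-- Representatives along an edge. -/
lemma IsRep.step (hK : NoRel θ0 K) {q : G0} {z z' : Y.V} {a : Letter m}
    {w w' : FreeGroup (Fin m)} (h : IsRep Y K q z w) (hs : Y.step z a = some z')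
    (h' : IsRep Y K q z' w') : w' = w * a.toFree := by
  have hl := Y.step_lab _ _ _ hs
  have hn : (w * a.toFree).norm ≤ K + 1 := by
    refine (FreeGroup.norm_mul_le _ _).trans ?_
    have := norm_letter_toFree_le a
    have := h.1
    omega
  refine hK.eq (by have := h'.1; omega) hn ?_
  have e : q * θ0 w' = q * θ0 (w * a.toFree) := by
    rw [← h'.2, hl, h.2, map_mul, mul_assoc]
  exact mul_left_cancel e

/-- A walk inside the ball reads a word that relates the representatives. -/
lemma exists_read_of_joined (hK : NoRel θ0 K) {q : G0} {z z' : Y.V}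
    (hj : Relation.ReflTransGen (BallEdge Y K q) z z') :
    ∃ L : List (Letter m), Y.read z L = some z' ∧
      ∀ w w', IsRep Y K q z w → IsRep Y K q z' w' → w' = w * FreeGroup.mk L := by
  induction hj with
  | refl =>
    refine ⟨[], rfl, fun w w' h h' => ?_⟩
    rw [← IsRep.unique hK h h']
    simp [← FreeGroup.one_eq_mk]
  | @tail b c _ hbc ih =>
    obtain ⟨L, hL, hrep⟩ := ih
    obtain ⟨⟨wb, hwb⟩, _, a, ha⟩ := hbc
    refine ⟨L ++ [a], ?_, fun w w' h h' => ?_⟩
    · rw [LabGraph.read_append, hL]
      simp [LabGraph.read_cons, ha]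
    · have h1 := hrep w wb h hwb
      have h2 := IsRep.step hK hwb ha h'
      rw [h2, h1, mul_assoc]
      congr 1

/-- Invariant used for `partner_unique`: a ball walk at `q` starting in the ball of `q'` stays in
the ball of `q'` except for excursions of length one. -/
lemma joined_of_joined (hK : NoRel θ0 K) {q q' : G0} {a : Letter m} (hq : q' = q * θ0 a.toFree)
    {z1 z2 : Y.V} (h1 : InBall Y K q' z1)
    (hj : Relation.ReflTransGen (BallEdge Y K q) z1 z2) (h1q : InBall Y K q z1)
    (h2 : InBall Y K q' z2) :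
    Relation.ReflTransGen (BallEdge Y K q') z1 z2 := by
  have key : ∀ z, Relation.ReflTransGen (BallEdge Y K q) z1 z →
      ∃ u, InBall Y K q' u ∧ InBall Y K q u ∧ Relation.ReflTransGen (BallEdge Y K q') z1 u ∧
        (z = u ∨ (¬ InBall Y K q' z ∧ Y.Adj z u ∧ InBall Y K q z)) := by
    intro z hz
    induction hz with
    | refl => exact ⟨z1, h1, h1q, Relation.ReflTransGen.refl, Or.inl rfl⟩
    | @tail b c _ hbc ih =>
      obtain ⟨u, hu', huq, hju, hor⟩ := ih
      obtain ⟨hbq, hcq, hadj⟩ := hbc
      rcases hor with rfl | ⟨hbn, hbu, _⟩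
      · by_cases hc' : InBall Y K q' c
        · exact ⟨c, hc', hcq, hju.tail ⟨hu', hc', hadj⟩, Or.inl rfl⟩
        · exact ⟨b, hu', huq, hju, Or.inr ⟨hc', hadj.symm, hcq⟩⟩
      · -- `b` is a boundary point: both `u` and `c` are its unique neighbour towards the centre
        obtain ⟨w, hw⟩ := hbq
        have hnorm := IsRep.norm_of_not_inBall hq hw hbn
        obtain ⟨α, hα⟩ := hbu
        obtain ⟨β, hβ⟩ := hadj
        obtain ⟨wu, hwu⟩ := huq
        obtain ⟨wc, hwc⟩ := hcq
        have e1 := IsRep.step hK hw hα hwu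
        have e2 := IsRep.step hK hw hβ hwc
        have hdec : ∀ γ : Letter m, ∀ v, v = w * γ.toFree → v.norm < K →
            (w * γ.toFree).norm + 1 = w.norm := by
          intro γ v hv hvn
          subst hv
          rcases norm_mul_letter w γ with h | ⟨h, _⟩
          · omega
          · exact h
        have hαβ : α = β :=
          decreasing_letter_unique (hdec α wu e1 hwu.1) (hdec β wc e2 hwc.1)
        subst hαβ
        have hcu : c = u := by
          rw [hα] at hβ
          exact (Option.some.inj hβ).symm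
        subst hcu
        exact ⟨c, hu', ⟨wc, hwc⟩, hju, Or.inl rfl⟩
  obtain ⟨u, _, _, hju, hor⟩ := key z2 hj
  rcases hor with rfl | ⟨hn, _⟩
  · exact hju
  · exact absurd h2 hn

/-- **Partner lemma**: a piece has at most one partner at an adjacent centre. -/
theorem partner_unique (hK : NoRel θ0 K) {q q' : G0} {a : Letter m} (hq : q' = q * θ0 a.toFree)
    {P : Piece Y K q} {P₁ P₂ : Piece Y K q'} (h₁ : Partner P P₁) (h₂ : Partner P P₂) : P₁ = P₂ := by
  obtain ⟨z1, hz1, hz1'⟩ := h₁
  obtain ⟨z2, hz2, hz2'⟩ := h₂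
  have hj := joined_of_joined hK hq hz1'.inBall (hz1.joined hz2) hz1.inBall hz2'.inBall
  exact Piece.Mem.unique (hz1'.of_joined hz2'.inBall hj) hz2'

/-- The symmetric form of the partner lemma. -/
theorem partner_unique_left (hK : NoRel θ0 K) {q q' : G0} {a : Letter m}
    (hq : q' = q * θ0 a.toFree) {P₁ P₂ : Piece Y K q} {P : Piece Y K q'}
    (h₁ : Partner P₁ P) (h₂ : Partner P₂ P) : P₁ = P₂ := by
  have hq' : q = q' * θ0 a.inv.toFree := by
    rw [hq, Letter.toFree_inv, map_inv]
    group
  exact partner_unique hK hq' h₁.symm h₂.symm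


/-! ### a total representative function -/

open Classical in
/-- The representative of `z` from `q` (junk `1` outside the ball). -/
noncomputable def rep (Y : LabGraph θ0) (K : ℕ) (q : G0) (z : Y.V) : FreeGroup (Fin m) :=
  if h : InBall Y K q z then h.choose else 1

lemma rep_spec {q : G0} {z : Y.V} (h : InBall Y K q z) : IsRep Y K q z (rep Y K q z) := by
  unfold rep
  rw [dif_pos h]
  exact h.choose_spec

lemma IsRep.rep_eq (hK : NoRel θ0 K) {q : G0} {z : Y.V} {w : FreeGroup (Fin m)}
    (h : IsRep Y K q z w) : rep Y K q z = w :=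
  IsRep.unique hK (rep_spec ⟨w, h⟩) h

/-- On the overlap of two adjacent balls the representatives differ by the letter. -/
lemma rep_partner (hK : NoRel θ0 K) {q q' : G0} {a : Letter m} (hq : q' = q * θ0 a.toFree)
    {z : Y.V} (h : InBall Y K q z) (h' : InBall Y K q' z) :
    rep Y K q' z = a.toFree⁻¹ * rep Y K q z :=
  IsRep.partner hK hq (rep_spec h) (rep_spec h')

/-- On the overlap of two adjacent balls the norms of the representatives differ by at most one. -/
lemma rep_norm_partner (hK : NoRel θ0 K) {q q' : G0} {a : Letter m} (hq : q' = q * θ0 a.toFree)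
    {z : Y.V} (h : InBall Y K q z) (h' : InBall Y K q' z) :
    (rep Y K q' z).norm ≤ (rep Y K q z).norm + 1 ∧ (rep Y K q z).norm ≤ (rep Y K q' z).norm + 1 := by
  rw [rep_partner hK hq h h']
  have h1 := norm_letter_toFree_le a
  constructor
  · refine (FreeGroup.norm_mul_le _ _).trans ?_
    rw [FreeGroup.norm_inv_eq]
    omega
  · have e : rep Y K q z = a.toFree * (a.toFree⁻¹ * rep Y K q z) := by group
    conv_lhs => rw [e]
    refine (FreeGroup.norm_mul_le _ _).trans ?_
    omega

/-- The norm of the representative changes by at most one along a ball edge. -/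
lemma rep_norm_step (hK : NoRel θ0 K) {q : G0} {z z' : Y.V} {a : Letter m}
    (hs : Y.step z a = some z') (h : InBall Y K q z) (h' : InBall Y K q z') :
    (rep Y K q z').norm ≤ (rep Y K q z).norm + 1 ∧ (rep Y K q z).norm ≤ (rep Y K q z').norm + 1 := by
  have e := IsRep.step hK (rep_spec h) hs (rep_spec h')
  have h1 := norm_letter_toFree_le a
  rw [e]
  constructor
  · refine (FreeGroup.norm_mul_le _ _).trans ?_
    omega
  · have e2 : rep Y K q z = (rep Y K q z * a.toFree) * a.toFree⁻¹ := by group
    conv_lhs => rw [e2]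
    refine (FreeGroup.norm_mul_le _ _).trans ?_
    rw [FreeGroup.norm_inv_eq]
    omega

/-- A step can only leave the ball of `q` from a point with representative of norm `K - 1`. -/
lemma IsRep.norm_of_step_not_inBall {q : G0} {z z' : Y.V} {a : Letter m}
    {w : FreeGroup (Fin m)} (h : IsRep Y K q z w) (hs : Y.step z a = some z')
    (hn : ¬ InBall Y K q z') : w.norm + 1 = K := by
  by_contra hne
  apply hn
  refine ⟨w * a.toFree, ?_, ?_⟩
  · have h2 := h.1
    have h3 : (w * a.toFree).norm ≤ w.norm + 1 := by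
      refine (FreeGroup.norm_mul_le _ _).trans ?_
      have := norm_letter_toFree_le a
      omega
    omega
  · rw [Y.step_lab _ _ _ hs, h.2, map_mul, mul_assoc]

/-- Same statement with the total representative function. -/
lemma rep_norm_of_step_not_inBall {q : G0} {z z' : Y.V} {a : Letter m}
    (h : InBall Y K q z) (hs : Y.step z a = some z') (hn : ¬ InBall Y K q z') :
    (rep Y K q z).norm + 1 = K :=
  (rep_spec h).norm_of_step_not_inBall hs hn

/-- A ball point outside the adjacent ball has representative of norm `K - 1`. -/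
lemma rep_norm_of_not_inBall {q q' : G0} {a : Letter m} (hq : q' = q * θ0 a.toFree)
    {z : Y.V} (h : InBall Y K q z) (hn : ¬ InBall Y K q' z) :
    (rep Y K q z).norm + 1 = K :=
  (rep_spec h).norm_of_not_inBall hq hn

end Pieces

/-! ### reading reduced forms and factors -/

section Reading

/-- Cancelling an inverse pair does not change what is read. -/
lemma LabGraph.read_red_step (Γ : LabGraph θ0) {L₁ L₂ : List (Letter m)} (hst : FreeGroup.Red.Step L₁ L₂)
    {z z' : Γ.V} (h : Γ.read z L₁ = some z') : Γ.read z L₂ = some z' := by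
  induction hst generalizing z with
  | @not L₃ L₄ x b =>
    rw [LabGraph.read_append] at h ⊢
    cases hr : Γ.read z L₃ with
    | none => simp [hr] at h
    | some w =>
      rw [hr] at h
      simp only [Option.bind_some, LabGraph.read_cons] at h ⊢
      cases hs : Γ.step w (x, b) with
      | none => simp [hs] at h
      | some w' =>
        rw [hs] at h
        simp only [Option.bind_some] at h
        have hs' : Γ.step w' (x, !b) = some w := Γ.step_inv _ _ _ hs
        rw [hs'] at h
        simpa using h

/-- What is read is also read in reduced form. -/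
lemma LabGraph.read_red (Γ : LabGraph θ0) {L₁ L₂ : List (Letter m)} (hr : FreeGroup.Red L₁ L₂)
    {z z' : Γ.V} (h : Γ.read z L₁ = some z') : Γ.read z L₂ = some z' := by
  induction hr with
  | refl => exact h
  | tail _ hst ih => exact Γ.read_red_step hst ih

lemma LabGraph.read_reduce (Γ : LabGraph θ0) {L : List (Letter m)} {z z' : Γ.V}
    (h : Γ.read z L = some z') : Γ.read z (FreeGroup.reduce L) = some z' :=
  Γ.read_red FreeGroup.reduce.red h

/-- Reading the normal form of `mk L`. -/
lemma LabGraph.read_toWord (Γ : LabGraph θ0) {L : List (Letter m)} {z z' : Γ.V}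
    (h : Γ.read z L = some z') : Γ.read z (FreeGroup.mk L).toWord = some z' := by
  rw [FreeGroup.toWord_mk]
  exact Γ.read_reduce h

/-- Factors of what is read somewhere are read somewhere. -/
lemma LabGraph.readsSomewhere_of_infix (Γ : LabGraph θ0) {w L : List (Letter m)} (hw : w <:+: L)
    {z z' : Γ.V} (h : Γ.read z L = some z') : Γ.ReadsSomewhere w := by
  obtain ⟨A, B, rfl⟩ := hw
  rw [List.append_assoc, LabGraph.read_append] at h
  cases hr : Γ.read z A with
  | none => simp [hr] at h
  | some y =>
    rw [hr] at h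
    simp only [Option.bind_some] at h
    rw [LabGraph.read_append] at h
    cases hr' : Γ.read y w with
    | none => simp [hr'] at h
    | some y' => exact ⟨y, y', hr'⟩

end Reading

/-! ### letters between adjacent vertices -/

section Fibre

lemma toFree_ne_one (a : Letter m) : a.toFree ≠ 1 := by
  intro h
  have h2 : FreeGroup.mk [a] = (1 : FreeGroup (Fin m)) := h
  have h3 := congrArg FreeGroup.toWord h2
  rw [FreeGroup.toWord_mk, FreeGroup.toWord_one] at h3
  simp [FreeGroup.reduce] at h3

lemma toFree_injective : Function.Injective (Letter.toFree (m := m)) := by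
  intro a b h
  have h3 := congrArg FreeGroup.toWord h
  unfold Letter.toFree at h3
  rw [FreeGroup.toWord_mk, FreeGroup.toWord_mk] at h3
  simpa [FreeGroup.reduce] using h3

variable (H : LabGraph θ0)

/-- There are no loops. -/
lemma LabGraph.not_adj_self {K : ℕ} (hK : NoRel θ0 K) (x : H.V) : ¬ H.Adj x x := by
  rintro ⟨a, ha⟩
  have h1 := H.step_lab _ _ _ ha
  have h2 : θ0 a.toFree = 1 := by simpa using h1
  exact hK _ (toFree_ne_one a)
    ((norm_letter_toFree_le a).trans (by omega)) h2

/-- The letter between two vertices is unique. -/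
lemma LabGraph.letter_unique {K : ℕ} (hK : NoRel θ0 K) {x y : H.V} {a b : Letter m}
    (ha : H.step x a = some y) (hb : H.step x b = some y) : a = b := by
  apply toFree_injective
  have h1 := H.step_lab _ _ _ ha
  have h2 := H.step_lab _ _ _ hb
  refine hK.eq ((norm_letter_toFree_le a).trans (by omega))
    ((norm_letter_toFree_le b).trans (by omega)) ?_
  exact mul_left_cancel (h1.symm.trans h2)

variable (Y : LabGraph θ0) (K : ℕ)

/-- Vertices of the fibre product `W`. -/
abbrev FibreV : Type := Σ x : H.V, Piece Y K (H.lab x)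

/-- Adjacency in the fibre product. -/
def adjF (v v' : FibreV H Y K) : Prop := H.Adj v.1 v'.1 ∧ Partner v.2 v'.2

noncomputable instance : DecidableRel (adjF H Y K) := Classical.decRel _

noncomputable instance : DecidableRel H.Adj := Classical.decRel _

variable {H Y K}

lemma adjF.symm {v v' : FibreV H Y K} (h : adjF H Y K v v') : adjF H Y K v' v :=
  ⟨h.1.symm, h.2.symm⟩

lemma adjF.irrefl (hK : NoRel θ0 K) (v : FibreV H Y K) : ¬ adjF H Y K v v :=
  fun h => H.not_adj_self hK _ h.1

variable (H Y K) in
/-- `y` is a neighbour of `x` in `H` at which `P` has no partner. -/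
def MissAt (v : FibreV H Y K) (y : H.V) : Prop :=
  H.Adj v.1 y ∧ ¬ ∃ P' : Piece Y K (H.lab y), Partner v.2 P'

noncomputable instance (v : FibreV H Y K) : DecidablePred (MissAt H Y K v) := Classical.decPred _

variable (H Y K) in
/-- The number of neighbours of `x` at which the piece has no partner. -/
noncomputable def missCount (v : FibreV H Y K) : ℕ :=
  (Finset.univ.filter (MissAt H Y K v)).card

/-- Degree count in the fibre product. -/
theorem deg_F_add_miss (hK : NoRel θ0 K) (v : FibreV H Y K) :
    (Finset.univ.filter (adjF H Y K v)).card + missCount H Y K v =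
      (Finset.univ.filter (H.Adj v.1)).card := by
  classical
  obtain ⟨x, P⟩ := v
  unfold missCount
  have e : (Finset.univ.filter (H.Adj x)) =
      (Finset.univ.filter (fun y => H.Adj x y ∧ ∃ P' : Piece Y K (H.lab y), Partner P P')) ∪
        (Finset.univ.filter (MissAt H Y K ⟨x, P⟩)) := by
    ext y
    simp only [Finset.mem_filter, Finset.mem_univ, true_and, Finset.mem_union, MissAt]
    tauto
  have hd : Disjoint
      (Finset.univ.filter (fun y => H.Adj x y ∧ ∃ P' : Piece Y K (H.lab y), Partner P P'))
      (Finset.univ.filter (MissAt H Y K ⟨x, P⟩)) := by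
    rw [Finset.disjoint_left]
    intro y hy hy'
    simp only [Finset.mem_filter, Finset.mem_univ, true_and, MissAt] at hy hy'
    exact hy'.2 hy.2
  have e2 : ((Finset.univ.filter (adjF H Y K ⟨x, P⟩)).card) =
      (Finset.univ.filter (fun y => H.Adj x y ∧ ∃ P' : Piece Y K (H.lab y), Partner P P')).card := by
    refine Finset.card_bij (fun v _ => v.1) ?_ ?_ ?_
    · rintro ⟨y, P'⟩ hv
      simp only [Finset.mem_filter, Finset.mem_univ, true_and, adjF] at hv ⊢
      exact ⟨hv.1, P', hv.2⟩
    · rintro ⟨y, P'⟩ hv ⟨y', P''⟩ hv' (hy : y = y')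
      subst hy
      simp only [Finset.mem_filter, Finset.mem_univ, true_and, adjF] at hv hv'
      obtain ⟨a, ha⟩ := hv.1
      have := partner_unique hK (H.step_lab _ _ _ ha) hv.2 hv'.2
      subst this
      rfl
    · intro y hy
      simp only [Finset.mem_filter, Finset.mem_univ, true_and] at hy
      obtain ⟨hadj, P', hP'⟩ := hy
      refine ⟨⟨y, P'⟩, ?_, rfl⟩
      simp only [Finset.mem_filter, Finset.mem_univ, true_and, adjF]
      exact ⟨hadj, hP'⟩
  rw [e, Finset.card_union_of_disjoint hd, e2]

/-- The graph degree is the number of neighbours. -/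
theorem deg_eq_card_adj (hK : NoRel θ0 K) (x : H.V) :
    (Finset.univ.filter (H.Adj x)).card = H.deg x := by
  unfold LabGraph.deg
  symm
  refine Finset.card_bij (fun a ha => ((H.step x a).get (by simpa using ha))) ?_ ?_ ?_
  · intro a ha
    simp only [Finset.mem_filter, Finset.mem_univ, true_and]
    refine ⟨a, ?_⟩
    simp
  · intro a ha b hb hab
    apply H.letter_unique hK (x := x) (y := (H.step x a).get (by simpa using ha))
    · simp
    · rw [hab]; simp
  · intro y hy
    simp only [Finset.mem_filter, Finset.mem_univ, true_and] at hy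
    obtain ⟨a, ha⟩ := hy
    refine ⟨a, by simp [ha], ?_⟩
    simp [ha]

/-! ### the forest lemma -/

/-- A piece at the start of a partner pair: the next `Y`-walk. -/
lemma exists_walk_step (hK : NoRel θ0 K) {q q' : G0} {c : Letter m} (hq : q' = q * θ0 c.toFree)
    {P' : Piece Y K q'} {z z' : Y.V} {e e' : FreeGroup (Fin m)}
    (hz : P'.Mem z) (hz' : P'.Mem z') (he : IsRep Y K q z e) (he' : IsRep Y K q' z' e') :
    ∃ U : List (Letter m), Y.read z U = some z' ∧ FreeGroup.mk U = e⁻¹ * c.toFree * e' := by
  obtain ⟨U, hU, hrep⟩ := exists_read_of_joined hK (hz.joined hz')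
  refine ⟨U, hU, ?_⟩
  obtain ⟨w, hw⟩ := hz.inBall
  have h1 := IsRep.partner hK hq he hw
  have h2 := hrep w e' hw he'
  rw [h2, h1]
  group

/-- **Forest lemma** for the fibre product of two language-disjoint labelled graphs. -/
theorem forest (hK : NoRel θ0 K) (t : ℕ)
    (hdisj : ∀ L : List (Letter m), FreeGroup.IsReduced L → L.length = t →
      H.ReadsSomewhere L → Y.ReadsSomewhere L → False)
    (S : Finset (FibreV H Y K)) (hS : S.Nonempty) :
    ∃ v ∈ S, (S.filter (adjF H Y K v)).card ≤ 1 := by
  classical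
  by_contra hcon
  push Not at hcon
  -- next vertex, avoiding a given vertex
  have hnext : ∀ v ∈ S, ∀ u, ∃ n ∈ S, adjF H Y K v n ∧ n ≠ u := by
    intro v hv u
    obtain ⟨a, ha, b, hb, hab⟩ := Finset.one_lt_card.mp (hcon v hv)
    simp only [Finset.mem_filter] at ha hb
    by_cases hau : a = u
    · exact ⟨b, hb.1, hb.2, fun hbu => hab (hau.trans hbu.symm)⟩
    · exact ⟨a, ha.1, ha.2, hau⟩
  obtain ⟨v0, hv0⟩ := hS
  obtain ⟨v1, hv1, hadj01, -⟩ := hnext v0 hv0 v0
  obtain ⟨z0, hz0, hz0'⟩ := hadj01.2
  obtain ⟨c0, hc0⟩ := hadj01.1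
  obtain ⟨e0, he0⟩ := hz0.inBall
  -- the invariant
  have key : ∀ s : ℕ, ∃ (v v' : FibreV H Y K) (c : Letter m) (z : Y.V) (e : FreeGroup (Fin m))
      (C L : List (Letter m)),
      v ∈ S ∧ v' ∈ S ∧ adjF H Y K v v' ∧ H.step v.1 c = some v'.1 ∧ v'.2.Mem z ∧
      IsRep Y K (H.lab v.1) z e ∧ H.read v0.1 C = some v.1 ∧ Y.read z0 L = some z ∧
      FreeGroup.mk L = e0⁻¹ * FreeGroup.mk C * e ∧ FreeGroup.IsReduced (C ++ [c]) ∧
      C.length = s := by
    intro s
    induction s with
    | zero =>
      refine ⟨v0, v1, c0, z0, e0, [], [], hv0, hv1, hadj01, hc0, hz0', he0, rfl, rfl, ?_, ?_, rfl⟩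
      · simp [← FreeGroup.one_eq_mk]
      · simp [FreeGroup.IsReduced]
    | succ s ih =>
      obtain ⟨v, v', c, z, e, C, L, hv, hv', hadj, hc, hz', he, hC, hL, hmk, hred, hlen⟩ := ih
      obtain ⟨v'', hv'', hadj', hne⟩ := hnext v' hv' v
      obtain ⟨c', hc'⟩ := hadj'.1
      obtain ⟨z', hz'1, hz'2⟩ := hadj'.2
      obtain ⟨e', he'⟩ := hz'1.inBall
      have hq : H.lab v'.1 = H.lab v.1 * θ0 c.toFree := H.step_lab _ _ _ hc
      obtain ⟨U, hU, hUmk⟩ := exists_walk_step hK hq hz' hz'1 he he'
      refine ⟨v', v'', c', z', e', C ++ [c], L ++ U, hv', hv'', hadj', hc', hz'2, he', ?_, ?_, ?_,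
        ?_, ?_⟩
      · rw [LabGraph.read_append, hC]
        simp [LabGraph.read_cons, hc]
      · rw [LabGraph.read_append, hL]
        simpa using hU
      · rw [← FreeGroup.mul_mk, hmk, hUmk, ← FreeGroup.mul_mk]
        have : (FreeGroup.mk [c] : FreeGroup (Fin m)) = c.toFree := rfl
        rw [this]
        group
      · -- non-backtracking
        have hnb : c.1 = c'.1 → c.2 = c'.2 := by
          intro h1
          by_contra h2
          have hcc : c' = c.inv := by
            refine Prod.ext h1.symm ?_
            simp only [Letter.inv]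
            cases hb1 : c.2 <;> cases hb2 : c'.2 <;> simp_all
          subst hcc
          have hback : H.step v'.1 c.inv = some v.1 := H.step_inv _ _ _ hc
          rw [hback] at hc'
          have hvv : v''.1 = v.1 := (Option.some.inj hc').symm
          obtain ⟨x, P⟩ := v
          obtain ⟨x', P'⟩ := v'
          obtain ⟨x'', P''⟩ := v''
          simp only at hvv
          subst hvv
          apply hne
          have hq' : H.lab x'' = H.lab x' * θ0 c.inv.toFree := H.step_lab _ _ _ hback
          have hPP : P'' = P := partner_unique hK hq' hadj'.2 hadj.2.symm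
          subst hPP
          rfl
        exact FreeLipBAP.FreeWord.isReduced_append_cons hred (by simp [FreeGroup.IsReduced]) hnb
      · simp [hlen]
  obtain ⟨v, v', c, z, e, C, L, hv, hv', hadj, hc, hz', he, hC, hL, hmk, hred, hlen⟩ := key (2 * K + t)
  have hredC : FreeGroup.IsReduced C := FreeGroup.IsReduced.infix hred (List.prefix_append C [c]).isInfix
  have hnorm : e0⁻¹.norm + e.norm + t ≤ C.length := by
    rw [FreeGroup.norm_inv_eq, hlen]
    have := he0.1
    have := he.1
    omega
  obtain ⟨w, hwlen, hw1, hw2⟩ := FreeLipBAP.FreeWord.exists_infix_toWord e0⁻¹ e C hredC t hnorm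
  have hY : Y.read z0 (e0⁻¹ * FreeGroup.mk C * e).toWord = some z := by
    rw [← hmk]
    exact Y.read_toWord hL
  exact hdisj w (FreeGroup.IsReduced.infix hredC hw1) hwlen
    (H.readsSomewhere_of_infix hw1 hC) (Y.readsSomewhere_of_infix hw2 hY)

end Fibre

end Crest.Agent.FreeLipBAP
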