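import Crest.Agent.Lib.FreeLipBAP.Finish
import Crest.Agent.Lib.FreeLipBAP.Fibre

/-!
# Core of the non-BAP theorem (row 115, S0154, plan #770): Fibre + Finish.

A purely finite statement.  `Y` (old graphs with anchors) and `H` (new graph) are language-disjoint
labelled graphs; `H` has minimum degree `≥ 2` and average degree `≥ 3.4`.  There is no family of
coefficient vectors `u x` on `Y` (`x ∈ H`) which tests like a `L`-Lipschitz map sending `x` near its
anchor, as soon as `r ≥ 100 L`, at `K = r ^ 2`.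
-/

namespace Crest.Agent.FreeLipBAP

open Finset
open scoped Classical

variable {m : ℕ} {G0 : Type} [Group G0] {θ0 : FreeGroup (Fin m) →* G0}

/-- **Core theorem.** -/
theorem core (Y H : LabGraph θ0) (K r : ℕ) (hK : K = r ^ 2) (hg : NoRel θ0 K)
    (anc : G0 → Y.V) (hanc : ∀ q, Y.lab (anc q) = q) (t : ℕ)
    (hdisj : ∀ L : List (Letter m), FreeGroup.IsReduced L → L.length = t →
      H.ReadsSomewhere L → Y.ReadsSomewhere L → False)
    [Nonempty H.V] (hdeg : ∀ x, 2 ≤ H.deg x)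
    (hcount : 17 * (Fintype.card H.V : ℝ) ≤ 5 * ∑ x, (H.deg x : ℝ))
    (L : ℝ) (hL : 1 ≤ L) (hL100 : 100 * L ≤ r) (u : H.V → Y.V → ℝ)
    (h1 : ∀ x a y, H.step x a = some y → ∀ c g, 0 ≤ c → IsTest Y anc r c g →
      |∑ z, (u y z - u x z) * g z| ≤ c * L)
    (h2a : ∀ x c g, 0 ≤ c → IsTest Y anc r c g →
      |∑ z, u x z * g z - g (anc (H.lab x))| ≤ c * L * r)
    (h2b : ∀ x c (φ : G0 → ℝ), 0 ≤ c → (∀ q a, |φ (q * θ0 (Letter.toFree a)) - φ q| ≤ c) →
      (∀ q, |φ q| ≤ c * K) → |∑ z, u x z * φ (Y.lab z) - φ (H.lab x)| ≤ c * L * r) :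
    False := by
  have hrpos : 0 < r := by
    have : (0:ℝ) < r := by linarith
    exact_mod_cast this
  have hKpos : 0 < K := by rw [hK]; positivity
  have hancBall : ∀ q, InBall Y K q (anc q) := fun q => ⟨1, by simpa using hKpos, by simp [hanc]⟩
  -- total piece map
  let pc : ∀ q, Y.V → Piece Y K q := fun q z =>
    if h : InBall Y K q z then pieceOf Y K q z h else pieceOf Y K q (anc q) (hancBall q)
  have hpcMem : ∀ q z, InBall Y K q z → (pc q z).Mem z := by
    intro q z h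
    simp only [pc, dif_pos h]
    exact mem_pieceOf h
  have hpc : ∀ q z a z', Y.step z a = some z' → InBallG θ0 K q (Y.lab z) →
      InBallG θ0 K q (Y.lab z') → pc q z = pc q z' := by
    intro q z a z' hs h1 h2
    have h1' : InBall Y K q z := h1
    have h2' : InBall Y K q z' := h2
    exact Piece.Mem.unique ((hpcMem q z h1').of_adj h2' ⟨a, hs⟩) (hpcMem q z' h2')
  have hiff : ∀ x y (P : Piece Y K (H.lab x)) (P' : Piece Y K (H.lab y)),
      PartnerF Y H K (Piece Y K) pc x y P P' ↔ Partner P P' := by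
    intro x y P P'
    constructor
    · rintro ⟨z, h1, h2, rfl, rfl⟩
      exact ⟨z, hpcMem _ z h1, hpcMem _ z h2⟩
    · rintro ⟨z, h1, h2⟩
      exact ⟨z, h1.inBall, h2.inBall, Piece.Mem.unique (hpcMem _ z h1.inBall) h1,
        Piece.Mem.unique (hpcMem _ z h2.inBall) h2⟩
  have huA : ∀ x y, H.Adj x y → ∀ P P₁ P₂, PartnerF Y H K (Piece Y K) pc x y P P₁ →
      PartnerF Y H K (Piece Y K) pc x y P P₂ → P₁ = P₂ := by
    rintro x y ⟨a, ha⟩ P P₁ P₂ h₁ h₂
    exact partner_unique hg (H.step_lab _ _ _ ha) ((hiff _ _ _ _).1 h₁) ((hiff _ _ _ _).1 h₂)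
  have hforest : ∀ S : Finset (Σ x : H.V, Piece Y K (H.lab x)), S.Nonempty →
      ∃ v ∈ S, (S.filter (fibAdj H.Adj (fun v : H.V => Piece Y K (H.lab v))
        (PartnerF Y H K (Piece Y K) pc) v)).card ≤ 1 := by
    intro S hS
    obtain ⟨v, hv, hcard⟩ := forest hg t hdisj S hS
    refine ⟨v, hv, ?_⟩
    refine le_trans (le_of_eq ?_) hcard
    congr 1
    ext w
    simp only [Finset.mem_filter, fibAdj, adjF, hiff]
  exact finish_core (Pc := Piece Y K) (pc := pc) r hK hg anc hpc huA hforest hdeg hcount L hL hL100 u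
    h1 h2a h2b

end Crest.Agent.FreeLipBAP
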