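/-
The concrete space of plan #770 (row 115, S0154), section (2): the wedge of the parts `M_r`.

`Level m` is the data of a part: a finite group `G0`, `θ : FreeGroup (Fin m) →* G0` and a sequence
`B` of labelled graphs. `Pt D` is the point type of the
wedge, `graph D : WGraph (Pt D)` the weighted graph (graph edges 1, spokes `r`, links `r ^ 2`, with
`r = rr i = i + 2` in part `i`) and `P D` the resulting `PointedMetric`.
-/
import Crest.Agent.Lib.FreeLipBAP.LabGraph
import Crest.Agent.Lib.FreeLipBAP.ChainMetric
import Crest.Agent.Lib.FreeLipBAP.FreeAPI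
import Crest.Agent.Lib.FreeLipBAP.Core
import Crest.Agent.Lib.FreeLipBAP.Alteration
import Crest.Agent.Lib.FreeLipBAP.FreeWord
import Crest.Prelude.Def_LipschitzFree

set_option autoImplicit false

namespace Crest.Agent.FreeLipBAP

open Crest.AnalysisR

namespace LabGraph

variable {m : ℕ} {G0 : Type} [Group G0] {θ0 : FreeGroup (Fin m) →* G0}

/-- The empty labelled graph. -/
def emptyG (θ0 : FreeGroup (Fin m) →* G0) : LabGraph θ0 where
  V := Empty
  lab := Empty.elim
  step := Empty.elim
  step_inv := fun z => z.elim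
  step_lab := fun z => z.elim

/-- Disjoint union of two labelled graphs. -/
def sumG (A B : LabGraph θ0) : LabGraph θ0 where
  V := A.V ⊕ B.V
  lab := Sum.elim A.lab B.lab
  step := fun z a => match z with
    | Sum.inl v => (A.step v a).map Sum.inl
    | Sum.inr v => (B.step v a).map Sum.inr
  step_inv := by
    rintro (z | z) a (z' | z') h
    · simp only [Option.map_eq_some_iff, Sum.inl.injEq, exists_eq_right] at h
      simp [A.step_inv _ _ _ h]
    · simp at h
    · simp at h
    · simp only [Option.map_eq_some_iff, Sum.inr.injEq, exists_eq_right] at h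
      simp [B.step_inv _ _ _ h]
  step_lab := by
    rintro (z | z) a (z' | z') h
    · simp only [Option.map_eq_some_iff, Sum.inl.injEq, exists_eq_right] at h
      exact A.step_lab _ _ _ h
    · simp at h
    · simp at h
    · simp only [Option.map_eq_some_iff, Sum.inr.injEq, exists_eq_right] at h
      exact B.step_lab _ _ _ h

/-- `Γ` together with isolated anchors: one vertex labelled `q` for every `q : G0`. -/
noncomputable def withAnchors [Fintype G0] (Γ : LabGraph θ0) : LabGraph θ0 where
  V := G0 ⊕ Γ.V
  decEqV := Classical.decEq _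
  lab := Sum.elim id Γ.lab
  step := fun z a => match z with
    | Sum.inl _ => none
    | Sum.inr v => (Γ.step v a).map Sum.inr
  step_inv := by
    rintro (z | z) a (z' | z') h
    · simp at h
    · simp at h
    · simp at h
    · simp only [Option.map_eq_some_iff, Sum.inr.injEq, exists_eq_right] at h
      simp [Γ.step_inv _ _ _ h]
  step_lab := by
    rintro (z | z) a (z' | z') h
    · simp at h
    · simp at h
    · simp at h
    · simp only [Option.map_eq_some_iff, Sum.inr.injEq, exists_eq_right] at h
      exact Γ.step_lab _ _ _ h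

lemma read_sumG_inl (A B : LabGraph θ0) (v : A.V) (L : List (Letter m)) :
    (sumG A B).read (Sum.inl v) L = (A.read v L).map Sum.inl := by
  induction L generalizing v with
  | nil => rfl
  | cons a L ih =>
    rw [read_cons A v a L]
    change ((A.step v a).map Sum.inl).bind (fun z' => (sumG A B).read z' L) = _
    cases h : A.step v a with
    | none => rfl
    | some w => simpa using ih w

lemma read_sumG_inr (A B : LabGraph θ0) (v : B.V) (L : List (Letter m)) :
    (sumG A B).read (Sum.inr v) L = (B.read v L).map Sum.inr := by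
  induction L generalizing v with
  | nil => rfl
  | cons a L ih =>
    rw [read_cons B v a L]
    change ((B.step v a).map Sum.inr).bind (fun z' => (sumG A B).read z' L) = _
    cases h : B.step v a with
    | none => rfl
    | some w => simpa using ih w

lemma read_withAnchors_inr [Fintype G0] (Γ : LabGraph θ0) (v : Γ.V) (L : List (Letter m)) :
    (withAnchors Γ).read (Sum.inr v) L = (Γ.read v L).map Sum.inr := by
  induction L generalizing v with
  | nil => rfl
  | cons a L ih =>
    rw [read_cons Γ v a L]
    change ((Γ.step v a).map Sum.inr).bind (fun z' => (withAnchors Γ).read z' L) = _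
    cases h : Γ.step v a with
    | none => rfl
    | some w => simpa using ih w

/-- A nonempty list read in `withAnchors Γ` is read in `Γ`. -/
lemma readsSomewhere_of_withAnchors [Fintype G0] (Γ : LabGraph θ0) {L : List (Letter m)}
    (hL : L ≠ []) (h : (withAnchors Γ).ReadsSomewhere L) : Γ.ReadsSomewhere L := by
  obtain ⟨z, z', h⟩ := h
  cases L with
  | nil => exact absurd rfl hL
  | cons a L =>
    rcases z with q | v
    · change (none : Option _).bind (fun z' => (withAnchors Γ).read z' L) = _ at h
      simp at h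
    · rw [read_withAnchors_inr] at h
      obtain ⟨w, hw, -⟩ := Option.map_eq_some_iff.mp h
      exact ⟨v, w, hw⟩

end LabGraph

/-- The data of one part of the wedge. -/
structure Level (m : ℕ) where
  /-- the finite group of labels -/
  G0 : Type
  [grp : Group G0]
  [fin : Fintype G0]
  /-- the quotient map -/
  θ : FreeGroup (Fin m) →* G0
  /-- the sequence of graphs -/
  B : ℕ → LabGraph θ

attribute [instance] Level.grp Level.fin

namespace Level

variable {m : ℕ} (L : Level m)

/-- Union of the first `k` graphs. -/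
def U : ℕ → LabGraph L.θ
  | 0 => LabGraph.emptyG L.θ
  | k + 1 => LabGraph.sumG (U k) (L.B k)

/-- A nonempty list read in the union of the first `k` graphs is read in one of them. -/
lemma readsSomewhere_U : ∀ (k : ℕ) (W : List (Letter m)), (L.U k).ReadsSomewhere W →
    ∃ j < k, (L.B j).ReadsSomewhere W
  | 0, _, h => by
    obtain ⟨z, _, _⟩ := h
    exact z.elim
  | k + 1, W, h => by
    obtain ⟨z, z', h⟩ := h
    rcases z with v | v
    · have h' : (LabGraph.sumG (L.U k) (L.B k)).read (Sum.inl v) W = some z' := h
      rw [LabGraph.read_sumG_inl] at h'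
      obtain ⟨w, hw, -⟩ := Option.map_eq_some_iff.mp h'
      obtain ⟨j, hj, hr⟩ := readsSomewhere_U k W ⟨v, w, hw⟩
      exact ⟨j, by omega, hr⟩
    · have h' : (LabGraph.sumG (L.U k) (L.B k)).read (Sum.inr v) W = some z' := h
      rw [LabGraph.read_sumG_inr] at h'
      obtain ⟨w, hw, -⟩ := Option.map_eq_some_iff.mp h'
      exact ⟨k, by omega, v, w, hw⟩

end Level

variable {m : ℕ} (D : ℕ → Level m)

/-- `r` of the `i`-th part. -/
def rr (i : ℕ) : ℕ := i + 2

lemma two_le_rr (i : ℕ) : 2 ≤ rr i := by unfold rr; omega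

lemma one_le_rr_real (i : ℕ) : (1 : ℝ) ≤ rr i := by
  have := two_le_rr i
  have h : (2 : ℝ) ≤ rr i := by exact_mod_cast this
  linarith

/-- Points of the wedge. -/
inductive Pt : Type
  | o : Pt
  | anc (i : ℕ) (q : (D i).G0) : Pt
  | vert (i k : ℕ) (z : ((D i).B k).V) : Pt

namespace Pt

/-- Edges of the wedge. -/
inductive Edge : Pt D → Pt D → Prop
  | graph (i k : ℕ) (z z' : ((D i).B k).V) (a : Letter m) (h : ((D i).B k).step z a = some z') :
      Edge (.vert i k z) (.vert i k z')
  | spoke (i k : ℕ) (z : ((D i).B k).V) : Edge (.vert i k z) (.anc i (((D i).B k).lab z))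
  | spoke' (i k : ℕ) (z : ((D i).B k).V) : Edge (.anc i (((D i).B k).lab z)) (.vert i k z)
  | link (i : ℕ) (q : (D i).G0) : Edge (.anc i q) .o
  | link' (i : ℕ) (q : (D i).G0) : Edge .o (.anc i q)

/-- Edge weights (values off the edges do not matter). -/
def wt : Pt D → Pt D → ℝ
  | .o, .anc i _ => (rr i : ℝ) ^ 2
  | .anc i _, .o => (rr i : ℝ) ^ 2
  | .vert i _ _, .anc _ _ => (rr i : ℝ)
  | .anc i _, .vert _ _ _ => (rr i : ℝ)
  | _, _ => 1

variable {D}

lemma Edge.symm {u v : Pt D} (h : Edge D u v) : Edge D v u := by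
  cases h with
  | graph i k z z' a h => exact .graph i k z' z a.inv (((D i).B k).step_inv _ _ _ h)
  | spoke i k z => exact .spoke' i k z
  | spoke' i k z => exact .spoke i k z
  | link i q => exact .link' i q
  | link' i q => exact .link i q

lemma Edge.wt_symm {u v : Pt D} (h : Edge D u v) : wt D u v = wt D v u := by
  cases h <;> rfl

lemma Edge.one_le_wt {u v : Pt D} (h : Edge D u v) : 1 ≤ wt D u v := by
  cases h with
  | graph i k z z' a h => exact le_rfl
  | spoke i k z => exact one_le_rr_real i
  | spoke' i k z => exact one_le_rr_real i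
  | link i q =>
    have := one_le_rr_real i
    show 1 ≤ (rr i : ℝ) ^ 2
    nlinarith
  | link' i q =>
    have := one_le_rr_real i
    show 1 ≤ (rr i : ℝ) ^ 2
    nlinarith

variable (D)

lemma toO (u : Pt D) : Relation.ReflTransGen (Edge D) u .o := by
  cases u with
  | o => exact .refl
  | anc i q => exact .single (.link i q)
  | vert i k z => exact (Relation.ReflTransGen.single (.spoke i k z)).tail (.link i _)

lemma fromO (u : Pt D) : Relation.ReflTransGen (Edge D) .o u := by
  cases u with
  | o => exact .refl
  | anc i q => exact .single (.link' i q)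
  | vert i k z => exact (Relation.ReflTransGen.single (.link' i _)).tail (.spoke' i k z)

end Pt

/-- The weighted graph of the wedge. -/
def graph : WGraph (Pt D) where
  Adj := Pt.Edge D
  w := Pt.wt D
  adj_symm := fun _ _ h => h.symm
  w_symm := fun _ _ h => h.wt_symm
  one_le_w := fun _ _ h => h.one_le_wt
  conn := fun u v => (Pt.toO D u).trans (Pt.fromO D v)

/-- The wedge as a pointed metric space. -/
noncomputable def P : PointedMetric := ⟨Pt D, (graph D).metricSpace, Pt.o⟩

/-- The chain distance of the wedge. -/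
noncomputable abbrev dd (u v : Pt D) : ℝ := (graph D).cdist u v

variable {D}

lemma dd_anc_o_le (i : ℕ) (q : (D i).G0) : dd D (.anc i q) .o ≤ (rr i : ℝ) ^ 2 :=
  WGraph.cdist_le_w (G := graph D) (Pt.Edge.link i q)

lemma dd_vert_anc_le (i k : ℕ) (z : ((D i).B k).V) :
    dd D (.vert i k z) (.anc i (((D i).B k).lab z)) ≤ (rr i : ℝ) :=
  WGraph.cdist_le_w (G := graph D) (Pt.Edge.spoke i k z)

lemma dd_vert_vert_le (i k : ℕ) (z z' : ((D i).B k).V) (a : Letter m)
    (h : ((D i).B k).step z a = some z') : dd D (.vert i k z) (.vert i k z') ≤ 1 :=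
  WGraph.cdist_le_w (G := graph D) (Pt.Edge.graph i k z z' a h)

lemma dd_vert_o_le (i k : ℕ) (z : ((D i).B k).V) :
    dd D (.vert i k z) .o ≤ (rr i : ℝ) + (rr i : ℝ) ^ 2 :=
  ((graph D).cdist_triangle _ _ _).trans
    (add_le_add (dd_vert_anc_le i k z) (dd_anc_o_le i _))

/-- The level of a point: `0` at the base point, `i + 1` in part `i`. -/
def Pt.lev : Pt D → ℕ
  | .o => 0
  | .anc i _ => i + 1
  | .vert i _ _ => i + 1

/-- Depth: the anchors of part `i` are far from the base point. -/
lemma le_dd_anc_o (i : ℕ) (q : (D i).G0) : (rr i : ℝ) ^ 2 ≤ dd D (.anc i q) .o := by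
  classical
  set K : ℝ := (rr i : ℝ) ^ 2 with hK
  have hK0 : 0 ≤ K := by positivity
  let f : Pt D → ℝ := fun p => if p.lev = i + 1 then K else 0
  have hf : ∀ u v, (graph D).Adj u v → |f u - f v| ≤ 1 * (graph D).w u v := by
    intro u v h
    rw [one_mul]
    have h1 := Pt.Edge.one_le_wt h
    change Pt.Edge D u v at h
    change |f u - f v| ≤ Pt.wt D u v
    cases h with
    | graph j k z z' a h =>
      have e : f (.vert j k z) = f (.vert j k z') := rfl
      rw [e, sub_self, abs_zero]; linarith
    | spoke j k z =>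
      have e : f (.vert j k z) = f (.anc j (((D j).B k).lab z)) := rfl
      rw [e, sub_self, abs_zero]; linarith
    | spoke' j k z =>
      have e : f (.anc j (((D j).B k).lab z)) = f (.vert j k z) := rfl
      rw [e, sub_self, abs_zero]; linarith
    | link j q' =>
      by_cases hj : j = i
      · subst hj; simp [f, Pt.lev, Pt.wt, abs_of_nonneg hK0, hK]
      · simp only [f, Pt.lev, Nat.add_right_cancel_iff, hj, if_false, sub_zero, abs_zero]
        simpa using (by linarith : (0 : ℝ) ≤ Pt.wt D (.anc j q') .o)
    | link' j q' =>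
      by_cases hj : j = i
      · subst hj; simp [f, Pt.lev, Pt.wt, abs_of_nonneg hK0, hK]
      · simp only [f, Pt.lev, Nat.add_right_cancel_iff, hj, if_false, sub_zero, abs_zero]
        simpa using (by linarith : (0 : ℝ) ≤ Pt.wt D .o (.anc j q'))
  have := WGraph.abs_sub_le_cdist (G := graph D) zero_le_one hf (.anc i q) .o
  simp only [f, Pt.lev, if_true] at this
  simpa [abs_of_nonneg hK0] using this

/-! ### Metric properties of the wedge -/

attribute [local instance] PointedMetric.metric

lemma dist_P (x y : (P D).M) : dist x y = dd D x y := rfl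

lemma dd_nonneg (u v : Pt D) : 0 ≤ dd D u v := WGraph.le_cdist fun _ h => h.nonneg

lemma dd_self (u : Pt D) : dd D u u = 0 := WGraph.cdist_self u

lemma dd_le_wt {u v : Pt D} (h : Pt.Edge D u v) : dd D u v ≤ Pt.wt D u v :=
  WGraph.cdist_le_w (G := graph D) h

lemma abs_dd_sub_le (u v x : Pt D) : |dd D u x - dd D v x| ≤ dd D u v := by
  have h1 : dd D u x ≤ dd D u v + dd D v x := (graph D).cdist_triangle u v x
  have h2 : dd D v x ≤ dd D v u + dd D u x := (graph D).cdist_triangle v u x
  have h3 : dd D v u = dd D u v := (graph D).cdist_comm v u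
  rw [abs_le]
  constructor <;> linarith

lemma wt_nonneg_of_edge {u v : Pt D} (h : Pt.Edge D u v) : 0 ≤ Pt.wt D u v :=
  zero_le_one.trans h.one_le_wt

/-- The base point is a cut vertex. -/
lemma dd_o_le_of_lev_ne (x y : Pt D) (h : x.lev ≠ y.lev) : dd D x .o ≤ dd D x y := by
  classical
  by_cases hx0 : x.lev = 0
  · have : x = .o := by
      cases x with
      | o => rfl
      | anc i q => simp [Pt.lev] at hx0
      | vert i k z => simp [Pt.lev] at hx0
    subst this
    rw [dd_self]
    exact dd_nonneg _ _
  let f : Pt D → ℝ := fun p => if p.lev = x.lev then dd D p .o else 0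
  have hsame : ∀ u v : Pt D, Pt.Edge D u v → u.lev = v.lev → |f u - f v| ≤ Pt.wt D u v := by
    intro u v hE huv
    by_cases hu : u.lev = x.lev
    · have hv : v.lev = x.lev := huv ▸ hu
      simp only [f, if_pos hu, if_pos hv]
      exact (abs_dd_sub_le u v .o).trans (dd_le_wt hE)
    · have hv : ¬ v.lev = x.lev := fun h' => hu (huv.trans h')
      simp only [f, if_neg hu, if_neg hv, sub_zero, abs_zero]
      exact wt_nonneg_of_edge hE
  have ho : f .o = 0 := by
    simp only [f]
    rw [if_neg]
    exact fun h' => hx0 h'.symm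
  have hle : ∀ u : Pt D, Pt.Edge D u .o → |f u - f .o| ≤ Pt.wt D u .o := by
    intro u hE
    rw [ho, sub_zero]
    by_cases hu : u.lev = x.lev
    · simp only [f, if_pos hu]
      rw [abs_of_nonneg (dd_nonneg _ _)]
      exact dd_le_wt hE
    · simp only [f, if_neg hu, abs_zero]
      exact wt_nonneg_of_edge hE
  have hf : ∀ u v, (graph D).Adj u v → |f u - f v| ≤ 1 * (graph D).w u v := by
    intro u v hE
    rw [one_mul]
    change Pt.Edge D u v at hE
    change |f u - f v| ≤ Pt.wt D u v
    cases hE with
    | graph j k z z' a h => exact hsame _ _ (.graph j k z z' a h) rfl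
    | spoke j k z => exact hsame _ _ (.spoke j k z) rfl
    | spoke' j k z => exact hsame _ _ (.spoke' j k z) rfl
    | link j q => exact hle _ (.link j q)
    | link' j q =>
      rw [abs_sub_comm, Pt.Edge.wt_symm (.link' j q)]
      exact hle _ (.link j q)
  have := WGraph.abs_sub_le_cdist (G := graph D) zero_le_one hf x y
  have hfx : f x = dd D x .o := by simp [f]
  have hfy : f y = 0 := by
    simp only [f]
    rw [if_neg]
    exact fun h' => h h'.symm
  rw [hfx, hfy, sub_zero, one_mul, abs_of_nonneg (dd_nonneg _ _)] at this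
  exact this

lemma hsep_P (x y : (P D).M) (h : x ≠ y) : 1 ≤ dist x y :=
  WGraph.one_le_cdist (G := graph D) h

lemma hbdd_P (n : ℕ) : ∃ R : ℝ, ∀ x : (P D).M, Pt.lev x ≤ n → dist x (P D).base ≤ R := by
  refine ⟨((n : ℝ) + 2) + ((n : ℝ) + 2) ^ 2, fun x hx => ?_⟩
  have hn : (0 : ℝ) ≤ (n : ℝ) := Nat.cast_nonneg n
  change Pt D at x
  change dd D x .o ≤ _
  have key : ∀ i : ℕ, i + 1 ≤ n → (rr i : ℝ) ≤ (n : ℝ) + 2 := by
    intro i hi
    have : rr i ≤ n + 2 := by unfold rr; omega
    exact_mod_cast this
  have h1 : ∀ i : ℕ, (0 : ℝ) ≤ rr i := fun i => Nat.cast_nonneg _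
  cases x with
  | o =>
    rw [dd_self]
    positivity
  | anc i q =>
    refine (dd_anc_o_le i q).trans ?_
    have := key i hx
    nlinarith [h1 i]
  | vert i k z =>
    refine (dd_vert_o_le i k z).trans ?_
    have := key i hx
    nlinarith [h1 i]

/-- The approximation property. -/
theorem hasAP_P : HasAP (P D).FreeSpace :=
  Lib.FreeLipBAP.hasAP_of_wedge (P := P D) hsep_P Pt.lev
    (fun x y h => dd_o_le_of_lev_ne x y h) hbdd_P

/-- The point type is countable. -/
instance : Countable (Pt D) := by
  classical
  let e : Option (Σ i : ℕ, (D i).G0 ⊕ Σ k : ℕ, ((D i).B k).V) → Pt D := fun p =>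
    match p with
    | none => .o
    | some ⟨i, Sum.inl q⟩ => .anc i q
    | some ⟨i, Sum.inr ⟨k, z⟩⟩ => .vert i k z
  refine Function.Surjective.countable (f := e) ?_
  intro x
  cases x with
  | o => exact ⟨none, rfl⟩
  | anc i q => exact ⟨some ⟨i, Sum.inl q⟩, rfl⟩
  | vert i k z => exact ⟨some ⟨i, Sum.inr ⟨k, z⟩⟩, rfl⟩

/-- The metric properties required by the statement. -/
theorem props_P (hne : ∀ k, Nonempty ((D 0).B k).V) :
    (P D).IsCountableSeparatedUnboundedNonproper := by
  refine ⟨inferInstanceAs (Countable (Pt D)), hsep_P, ?_, ?_⟩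
  · -- unbounded
    intro hb
    obtain ⟨R, hR⟩ := hb.subset_closedBall (P D).base
    obtain ⟨i, hi⟩ : ∃ i : ℕ, R < (rr i : ℝ) := by
      obtain ⟨i, hi⟩ := exists_nat_gt R
      refine ⟨i, hi.trans ?_⟩
      have : i < rr i := by unfold rr; omega
      exact_mod_cast this
    have h1 : dd D (.anc i 1) .o ≤ R := by
      have h0 : ∀ x : (P D).M, dist x (P D).base ≤ R :=
        fun x => Metric.mem_closedBall.mp (hR (Set.mem_univ x))
      exact h0 (Pt.anc i 1)
    have h2 : (rr i : ℝ) ^ 2 ≤ dd D (.anc i 1) .o := le_dd_anc_o i 1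
    have h4 := one_le_rr_real i
    nlinarith
  · -- not proper
    intro hp
    have hdisc : DiscreteTopology (P D).M :=
      DiscreteTopology.of_forall_le_dist (r := 1) one_pos (fun x y h => hsep_P x y h)
    have hcpt : IsCompact (Metric.closedBall (P D).base (3 + 9 : ℝ)) := isCompact_closedBall _ _
    have hfin := hcpt.finite_of_discrete
    let pts : ℕ → (P D).M := fun k => Pt.vert 0 k (Classical.choice (hne k))
    have hinj : Function.Injective pts := by
      intro a b hab
      simp only [pts] at hab
      injection hab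
    refine Set.infinite_of_injective_forall_mem hinj (fun k => ?_) hfin
    rw [Metric.mem_closedBall]
    refine (dd_vert_o_le 0 k _).trans ?_
    norm_num [rr]

/-! ### Embedding the union of the previous graphs -/

/-- Embedding of the union of the first `k` graphs of part `i` into the wedge. -/
def embU (i : ℕ) : (k : ℕ) → ((D i).U k).V → Pt D
  | 0, v => Empty.elim v
  | k + 1, v => Sum.elim (embU i k) (Pt.vert i k) v

lemma embU_eq_vert (i : ℕ) : ∀ (k : ℕ) (v : ((D i).U k).V), ∃ (j : ℕ) (z : ((D i).B j).V),
    j < k ∧ embU i k v = .vert i j z ∧ ((D i).U k).lab v = ((D i).B j).lab z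
  | 0, v => Empty.elim v
  | k + 1, v => by
    rcases v with v | z
    · obtain ⟨j, z, hj, h1, h2⟩ := embU_eq_vert i k v
      exact ⟨j, z, by omega, h1, h2⟩
    · exact ⟨k, z, by omega, rfl, rfl⟩

lemma embU_injective (i : ℕ) : ∀ k : ℕ, Function.Injective (embU (D := D) i k)
  | 0 => fun v => Empty.elim v
  | k + 1 => by
    rintro (v | z) (v' | z') h
    · exact congrArg Sum.inl (embU_injective i k h)
    · obtain ⟨j, w, hj, h1, -⟩ := embU_eq_vert (D := D) i k v
      change embU i k v = Pt.vert i k z' at h
      rw [h1] at h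
      injection h with _ h2
      omega
    · obtain ⟨j, w, hj, h1, -⟩ := embU_eq_vert (D := D) i k v'
      change Pt.vert i k z = embU i k v' at h
      rw [h1] at h
      injection h with _ h2
      omega
    · change Pt.vert i k z = Pt.vert i k z' at h
      injection h with _ _ h3
      exact congrArg Sum.inr h3

lemma embU_surj (i : ℕ) : ∀ (k j : ℕ), j < k → ∀ z : ((D i).B j).V,
    ∃ v : ((D i).U k).V, embU i k v = .vert i j z
  | 0, j, h, _ => absurd h (Nat.not_lt_zero j)
  | k + 1, j, h, z => by
    by_cases hj : j = k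
    · subst hj
      exact ⟨Sum.inr z, rfl⟩
    · obtain ⟨v, hv⟩ := embU_surj i k j (by omega) z
      exact ⟨Sum.inl v, hv⟩

lemma embU_step (i : ℕ) : ∀ (k j : ℕ) (z z' : ((D i).B j).V) (a : Letter m)
    (_ : ((D i).B j).step z a = some z') (v : ((D i).U k).V),
    embU i k v = .vert i j z → ∃ v', ((D i).U k).step v a = some v' ∧ embU i k v' = .vert i j z'
  | 0, _, _, _, _, _, v, _ => Empty.elim v
  | k + 1, j, z, z', a, hs, v, hv => by
    rcases v with v | z0
    · obtain ⟨v', h1, h2⟩ := embU_step i k j z z' a hs v hv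
      refine ⟨Sum.inl v', ?_, h2⟩
      change (((D i).U k).step v a).map Sum.inl = _
      rw [h1]
      rfl
    · change Pt.vert i k z0 = Pt.vert i j z at hv
      injection hv with _ h2 h3
      subst h2
      have h3' := eq_of_heq h3
      subst h3'
      refine ⟨Sum.inr z', ?_, rfl⟩
      change (((D i).B k).step z0 a).map Sum.inr = _
      rw [hs]
      rfl

/-- The graph `Y` of plan #770: anchors and the first `k` graphs of part `i`. -/
noncomputable abbrev YY (i k : ℕ) : LabGraph (D i).θ := LabGraph.withAnchors ((D i).U k)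

/-- Embedding of `Y` into the wedge. -/
def embY (i k : ℕ) : (YY (D := D) i k).V → Pt D := Sum.elim (Pt.anc i) (embU i k)

lemma embY_injective (i k : ℕ) : Function.Injective (embY (D := D) i k) := by
  rintro (q | v) (q' | v') h
  · change Pt.anc i q = Pt.anc i q' at h
    injection h with _ h2
    rw [h2]
  · obtain ⟨j, w, hj, h1, -⟩ := embU_eq_vert (D := D) i k v'
    change Pt.anc i q = embU i k v' at h
    rw [h1] at h
    cases h
  · obtain ⟨j, w, hj, h1, -⟩ := embU_eq_vert (D := D) i k v
    change embU i k v = Pt.anc i q' at h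
    rw [h1] at h
    cases h
  · exact congrArg Sum.inr (embU_injective i k h)

lemma not_mem_range_o (i k : ℕ) : ¬ ∃ y, embY (D := D) i k y = .o := by
  rintro ⟨q | v, h⟩
  · cases h
  · obtain ⟨j, w, hj, h1, -⟩ := embU_eq_vert (D := D) i k v
    change embU i k v = Pt.o at h
    rw [h1] at h
    cases h

lemma not_mem_range_anc (i k i' : ℕ) (hi : i' ≠ i) (q : (D i').G0) :
    ¬ ∃ y, embY (D := D) i k y = .anc i' q := by
  rintro ⟨q' | v, h⟩
  · change Pt.anc i q' = Pt.anc i' q at h
    injection h with h1 _
    exact hi h1.symm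
  · obtain ⟨j, w, hj, h1, -⟩ := embU_eq_vert (D := D) i k v
    change embU i k v = Pt.anc i' q at h
    rw [h1] at h
    cases h

lemma not_mem_range_vert (i k i' j : ℕ) (hi : i' ≠ i) (z : ((D i').B j).V) :
    ¬ ∃ y, embY (D := D) i k y = .vert i' j z := by
  rintro ⟨q' | v, h⟩
  · cases h
  · obtain ⟨j', w, hj, h1, -⟩ := embU_eq_vert (D := D) i k v
    change embU i k v = Pt.vert i' j z at h
    rw [h1] at h
    injection h with h2 _
    exact hi h2.symm

lemma not_mem_range_vert_ge (i k j : ℕ) (hj : k ≤ j) (z : ((D i).B j).V) :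
    ¬ ∃ y, embY (D := D) i k y = .vert i j z := by
  rintro ⟨q' | v, h⟩
  · cases h
  · obtain ⟨j', w, hj', h1, -⟩ := embU_eq_vert (D := D) i k v
    change embU i k v = Pt.vert i j z at h
    rw [h1] at h
    injection h with _ h2
    omega

/-- Extension by zero of a function on `Y`. -/
noncomputable def extg (i k : ℕ) (g : (YY (D := D) i k).V → ℝ) : Pt D → ℝ :=
  Function.extend (embY i k) g 0

lemma extg_apply (i k : ℕ) (g : (YY (D := D) i k).V → ℝ) (y : (YY (D := D) i k).V) :
    extg i k g (embY i k y) = g y :=
  (embY_injective i k).extend_apply g 0 y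

lemma extg_of_not (i k : ℕ) (g : (YY (D := D) i k).V → ℝ) {p : Pt D}
    (h : ¬ ∃ y, embY (D := D) i k y = p) : extg i k g p = 0 :=
  by
    unfold extg
    rw [Function.extend_apply' _ _ _ h]
    rfl

/-- **Extension lemma.** A test function on `Y`, extended by zero, is `c`-Lipschitz on each edge. -/
lemma extg_edges (i k : ℕ) (g : (YY (D := D) i k).V → ℝ) {c : ℝ} (hc : 0 ≤ c)
    (h1 : ∀ z a z', (YY (D := D) i k).step z a = some z' → |g z - g z'| ≤ c)
    (h2 : ∀ z, |g z - g (Sum.inl ((YY (D := D) i k).lab z))| ≤ c * rr i)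
    (h3 : ∀ q, |g (Sum.inl q)| ≤ c * rr i) :
    ∀ u v, Pt.Edge D u v → |extg i k g u - extg i k g v| ≤ c * Pt.wt D u v := by
  have hspoke : ∀ (i' j : ℕ) (z : ((D i').B j).V),
      |extg i k g (.vert i' j z) - extg i k g (.anc i' (((D i').B j).lab z))| ≤ c * rr i' := by
    intro i' j z
    by_cases hi : i' = i
    · subst hi
      have e1 : extg i' k g (.anc i' (((D i').B j).lab z)) = g (Sum.inl (((D i').B j).lab z)) :=
        extg_apply i' k g (Sum.inl _)
      by_cases hj : j < k
      · obtain ⟨v, hv⟩ := embU_surj (D := D) i' k j hj z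
        have e2 : extg i' k g (.vert i' j z) = g (Sum.inr v) := by
          rw [← hv]
          exact extg_apply i' k g (Sum.inr v)
        rw [e1, e2]
        obtain ⟨j', w, hj', h1', h2'⟩ := embU_eq_vert (D := D) i' k v
        rw [h1'] at hv
        injection hv with _ h3' h4'
        subst h3'
        have h4'' := eq_of_heq h4'
        subst h4''
        have := h2 (Sum.inr v)
        have hl : (YY (D := D) i' k).lab (Sum.inr v) = ((D i').B j').lab w := h2'
        rwa [hl] at this
      · have e2 : extg i' k g (.vert i' j z) = 0 :=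
          extg_of_not _ _ _ (not_mem_range_vert_ge i' k j (by omega) z)
        rw [e1, e2, zero_sub, abs_neg]
        exact h3 _
    · have e1 : extg i k g (.vert i' j z) = 0 := extg_of_not _ _ _ (not_mem_range_vert i k i' j hi z)
      have e2 : extg i k g (.anc i' (((D i').B j).lab z)) = 0 :=
        extg_of_not _ _ _ (not_mem_range_anc i k i' hi _)
      rw [e1, e2, sub_zero, abs_zero]
      positivity
  have hlink : ∀ (i' : ℕ) (q : (D i').G0),
      |extg i k g (.anc i' q) - extg i k g .o| ≤ c * (rr i' : ℝ) ^ 2 := by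
    intro i' q
    have eo : extg i k g .o = 0 := extg_of_not _ _ _ (not_mem_range_o i k)
    rw [eo, sub_zero]
    by_cases hi : i' = i
    · subst hi
      have e1 : extg i' k g (.anc i' q) = g (Sum.inl q) := extg_apply i' k g (Sum.inl q)
      rw [e1]
      have h1r := one_le_rr_real i'
      refine (h3 q).trans ?_
      apply mul_le_mul_of_nonneg_left _ hc
      nlinarith
    · have e1 : extg i k g (.anc i' q) = 0 := extg_of_not _ _ _ (not_mem_range_anc i k i' hi q)
      rw [e1, abs_zero]
      positivity
  intro u v hE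
  cases hE with
  | graph i' j z z' a hs =>
    change |_| ≤ c * 1
    rw [mul_one]
    by_cases hi : i' = i
    · subst hi
      by_cases hj : j < k
      · obtain ⟨v, hv⟩ := embU_surj (D := D) i' k j hj z
        obtain ⟨v', hs', hv'⟩ := embU_step (D := D) i' k j z z' a hs v hv
        have e1 : extg i' k g (.vert i' j z) = g (Sum.inr v) := by
          rw [← hv]
          exact extg_apply i' k g (Sum.inr v)
        have e2 : extg i' k g (.vert i' j z') = g (Sum.inr v') := by
          rw [← hv']
          exact extg_apply i' k g (Sum.inr v')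
        rw [e1, e2]
        refine h1 _ a _ ?_
        change (((D i').U k).step v a).map Sum.inr = _
        rw [hs']
        rfl
      · have e1 : extg i' k g (.vert i' j z) = 0 :=
          extg_of_not _ _ _ (not_mem_range_vert_ge i' k j (by omega) z)
        have e2 : extg i' k g (.vert i' j z') = 0 :=
          extg_of_not _ _ _ (not_mem_range_vert_ge i' k j (by omega) z')
        rw [e1, e2, sub_zero, abs_zero]
        exact hc
    · have e1 : extg i k g (.vert i' j z) = 0 := extg_of_not _ _ _ (not_mem_range_vert i k i' j hi z)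
      have e2 : extg i k g (.vert i' j z') = 0 :=
        extg_of_not _ _ _ (not_mem_range_vert i k i' j hi z')
      rw [e1, e2, sub_zero, abs_zero]
      exact hc
  | spoke i' j z => exact hspoke i' j z
  | spoke' i' j z =>
    rw [abs_sub_comm]
    exact hspoke i' j z
  | link i' q => exact hlink i' q
  | link' i' q =>
    rw [abs_sub_comm]
    exact hlink i' q

/-- Label functions: `φ ∘ lab` on part `i`, zero elsewhere. -/
noncomputable def labFun (i : ℕ) (φ : (D i).G0 → ℝ) : Pt D → ℝ
  | .o => 0
  | .anc j q => if h : j = i then φ (h ▸ q) else 0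
  | .vert j k z => if h : j = i then φ (h ▸ (((D j).B k).lab z)) else 0

lemma labFun_edges (i : ℕ) (φ : (D i).G0 → ℝ) {c : ℝ} (hc : 0 ≤ c)
    (h1 : ∀ q (a : Letter m), |φ (q * (D i).θ a.toFree) - φ q| ≤ c)
    (h2 : ∀ q, |φ q| ≤ c * (rr i : ℝ) ^ 2) :
    ∀ u v, Pt.Edge D u v → |labFun i φ u - labFun i φ v| ≤ c * Pt.wt D u v := by
  have hlink : ∀ (i' : ℕ) (q : (D i').G0),
      |labFun i φ (.anc i' q) - labFun i φ .o| ≤ c * (rr i' : ℝ) ^ 2 := by
    intro i' q
    by_cases hi : i' = i
    · subst hi
      simpa [labFun] using h2 q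
    · simp only [labFun, dif_neg hi, sub_self, abs_zero]
      positivity
  have hspoke : ∀ (i' j : ℕ) (z : ((D i').B j).V),
      |labFun i φ (.vert i' j z) - labFun i φ (.anc i' (((D i').B j).lab z))| ≤ c * rr i' := by
    intro i' j z
    by_cases hi : i' = i
    · subst hi
      simp only [labFun, dite_true, sub_self, abs_zero]
      positivity
    · simp only [labFun, dif_neg hi, sub_self, abs_zero]
      positivity
  intro u v hE
  cases hE with
  | graph i' j z z' a hs =>
    change |_| ≤ c * 1
    rw [mul_one]
    by_cases hi : i' = i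
    · subst hi
      simp only [labFun, dite_true]
      rw [((D i').B j).step_lab _ _ _ hs, abs_sub_comm]
      exact h1 _ a
    · simp only [labFun, dif_neg hi, sub_self, abs_zero]
      exact hc
  | spoke i' j z => exact hspoke i' j z
  | spoke' i' j z =>
    rw [abs_sub_comm]
    exact hspoke i' j z
  | link i' q => exact hlink i' q
  | link' i' q =>
    rw [abs_sub_comm]
    exact hlink i' q

/-! ### The bridge to the finite core -/

/-- The pairing against an extension by zero. -/
lemma pairing_extend (Q : PointedMetric) {α : Type} [Fintype α] (e : α → Q.M)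
    (he : Function.Injective e) (g : α → ℝ) (a : Q.Mol) :
    Q.pairing a (Function.extend e g 0) = ∑ y, (Q.coeffs a) (e y) * g y := by
  classical
  rw [Lib.FreeLipBAP.pairing_eq_sum]
  have h1 : ∑ y, (Q.coeffs a) (e y) * g y =
      ∑ x ∈ Finset.univ.image e, (Q.coeffs a) x * Function.extend e g 0 x := by
    rw [Finset.sum_image (fun _ _ _ _ h => he h)]
    exact Finset.sum_congr rfl fun y _ => by rw [he.extend_apply]
  rw [h1]
  have hs1 := Finset.sum_subset (s₁ := (Q.coeffs a).support)
    (s₂ := (Q.coeffs a).support ∪ Finset.univ.image e)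
    (f := fun x => (Q.coeffs a) x * Function.extend e g 0 x) Finset.subset_union_left
    (fun x _ hx => by
      have : (Q.coeffs a) x = 0 := by simpa using hx
      simp [this])
  have hs2 := Finset.sum_subset (s₁ := Finset.univ.image e)
    (s₂ := (Q.coeffs a).support ∪ Finset.univ.image e)
    (f := fun x => (Q.coeffs a) x * Function.extend e g 0 x) Finset.subset_union_right
    (fun x _ hx => by
      have h : ¬ ∃ y, e y = x := by
        rintro ⟨y, rfl⟩
        exact hx (Finset.mem_image_of_mem e (Finset.mem_univ y))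
      rw [Function.extend_apply' _ _ _ h]
      simp)
  exact hs1.trans hs2.symm

/-- From edge-Lipschitz to Lipschitz on the metric of the wedge. -/
lemma lip_of_edges {f : Pt D → ℝ} {c : ℝ} (hc : 0 ≤ c)
    (hf : ∀ u v, Pt.Edge D u v → |f u - f v| ≤ c * Pt.wt D u v) (x y : (P D).M) :
    |f x - f y| ≤ c * dist x y :=
  WGraph.abs_sub_le_cdist (G := graph D) hc hf x y

/-- The test pairing, for test functions. -/
lemma sum_eq_pairing (i k : ℕ) (a : (P D).Mol) (g : (YY (D := D) i k).V → ℝ) :
    ∑ z, ((P D).coeffs a) (embY i k z) * g z = (P D).pairing a (extg i k g) :=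
  (pairing_extend (P D) (embY i k) (embY_injective i k) g a).symm

/-- Non-BAP, from the properties of the data. -/
theorem notBAP_P
    (hgirth : ∀ i, NoRel (D i).θ ((rr i) ^ 2))
    (hgood : ∀ i k, Alteration.IsGood ((D i).B k))
    (hseq : ∀ i k, ∃ t, 1 ≤ t ∧ ∀ L : List (Letter m), FreeGroup.IsReduced L → L.length = t →
      ((D i).B k).ReadsSomewhere L → ∀ j < k, ¬ ((D i).B j).ReadsSomewhere L) :
    ¬ HasBAP (P D).FreeSpace := by
  classical
  apply Lib.FreeLipBAP.not_hasBAP_of
  intro lam hlam
  obtain ⟨i, hi⟩ : ∃ i, 100 * (lam + 1) ≤ (rr i : ℝ) := by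
    obtain ⟨i, hi⟩ := exists_nat_ge (100 * (lam + 1))
    refine ⟨i, hi.trans ?_⟩
    have : i ≤ rr i := by unfold rr; omega
    exact_mod_cast this
  have hr2 : (2 : ℝ) ≤ rr i := by exact_mod_cast two_le_rr i
  refine ⟨Finset.univ.image (Pt.anc i), {p : Pt D | p.lev = i + 1},
    (rr i : ℝ) + (rr i : ℝ) ^ 2, ?_, ?_⟩
  · intro x hx
    change Pt D at x
    change x.lev = i + 1 at hx
    change dd D x .o ≤ _
    cases x with
    | o => simp [Pt.lev] at hx
    | anc i' q =>
      have : i' = i := by simpa [Pt.lev] using hx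
      subst this
      refine (dd_anc_o_le i' q).trans ?_
      linarith
    | vert i' j z =>
      have : i' = i := by simpa [Pt.lev] using hx
      subst this
      exact dd_vert_o_le i' j z
  · intro C uu hC hLip hA
    -- pick `k` beyond the support
    let idx : Pt D → ℕ := fun p => match p with
      | .vert _ j _ => j + 1
      | _ => 0
    let k : ℕ := C.sup idx
    have hk : ∀ j, k ≤ j → ∀ z : ((D i).B j).V, (Pt.vert i j z : (P D).M) ∉ C := by
      intro j hj z hz
      have : idx (Pt.vert i j z) ≤ k := Finset.le_sup (f := idx) hz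
      change j + 1 ≤ k at this
      omega
    -- the finite data
    haveI : Nonempty ((D i).B k).V := (hgood i k).nonempty
    obtain ⟨t, ht1, ht⟩ := hseq i k
    let Y := YY (D := D) i k
    let H := (D i).B k
    let anc : (D i).G0 → Y.V := Sum.inl
    let u : H.V → Y.V → ℝ := fun x z => ((P D).coeffs (uu (Pt.vert i k x))) (embY i k z)
    have hM : ∀ x : H.V, (Pt.vert i k x : (P D).M) ∈ {p : Pt D | p.lev = i + 1} := fun x => rfl
    have hMa : ∀ q, (Pt.anc i q : (P D).M) ∈ {p : Pt D | p.lev = i + 1} := fun q => rfl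
    have hL1 : (1 : ℝ) ≤ lam + 1 := by linarith
    -- the norm estimate for the anchors
    have hnorm : ∀ x : H.V, ‖uu (Pt.vert i k x) - Lib.FreeLipBAP.delta (P D)
        (Pt.anc i (H.lab x))‖ ≤ (lam + 1) * rr i := by
      intro x
      have h1 := hLip _ (hM x) _ (hMa (H.lab x))
      have h2 := hA (Pt.anc i (H.lab x))
        (Finset.mem_image_of_mem _ (Finset.mem_univ _)) (hMa _)
      have h3 : dist (α := (P D).M) (Pt.vert i k x) (Pt.anc i (H.lab x)) ≤ rr i :=
        dd_vert_anc_le i k x
      have h4 : lam * dist (α := (P D).M) (Pt.vert i k x) (Pt.anc i (H.lab x)) ≤ lam * rr i :=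
        mul_le_mul_of_nonneg_left h3 hlam
      have h5 := norm_sub_le_norm_sub_add_norm_sub (uu (Pt.vert i k x))
        (uu (Pt.anc i (H.lab x))) (Lib.FreeLipBAP.delta (P D) (Pt.anc i (H.lab x)))
      nlinarith
    have hsum : ∀ (x : H.V) (g : Y.V → ℝ), ∑ z, u x z * g z =
        (P D).pairing (uu (Pt.vert i k x)) (extg i k g) := fun x g =>
      sum_eq_pairing i k _ g
    have hext0 : ∀ g : Y.V → ℝ, extg i k g (P D).base = 0 := fun g =>
      extg_of_not _ _ _ (not_mem_range_o i k)
    refine core Y H ((rr i) ^ 2) (rr i) rfl (hgirth i) anc (fun q => rfl) t ?_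
      (hgood i k).two_le_deg ?_ (lam + 1) hL1 hi u ?_ ?_ ?_
    · -- language disjointness
      intro W hW hWt hH hY
      have hne : W ≠ [] := by
        rintro rfl
        simp at hWt
        omega
      obtain ⟨j, hj, hr⟩ := Level.readsSomewhere_U (D i) k W
        (LabGraph.readsSomewhere_of_withAnchors _ hne hY)
      exact ht W hW hWt hH j hj hr
    · -- edge count
      have := (hgood i k).edges
      exact_mod_cast this
    · -- edges of `H`
      intro x a y hs c g hc ⟨hg1, hg2, hg3⟩
      have hlip := lip_of_edges (D := D) hc (extg_edges i k g hc hg1 hg2 hg3)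
      have e : ∑ z, (u y z - u x z) * g z =
          (P D).pairing (uu (Pt.vert i k y) - uu (Pt.vert i k x)) (extg i k g) := by
        have e0 := Lib.FreeLipBAP.pairing_sub (P D) (uu (Pt.vert i k y)) (uu (Pt.vert i k x))
          (extg i k g)
        rw [← hsum, ← hsum, ← Finset.sum_sub_distrib] at e0
        refine Eq.trans ?_ e0.symm
        exact Finset.sum_congr rfl fun z _ => by ring
      rw [e]
      refine (Lib.FreeLipBAP.abs_pairing_le_of_lip (P D) _ hc (hext0 g) hlip).trans ?_
      apply mul_le_mul_of_nonneg_left _ hc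
      have h1 := hLip _ (hM y) _ (hM x)
      have h3 : dist (α := (P D).M) (Pt.vert i k y) (Pt.vert i k x) ≤ 1 :=
        dd_vert_vert_le i k y x a.inv (H.step_inv _ _ _ hs)
      have h4 : lam * dist (α := (P D).M) (Pt.vert i k y) (Pt.vert i k x) ≤ lam * 1 :=
        mul_le_mul_of_nonneg_left h3 hlam
      linarith
    · -- near the anchor, test functions
      intro x c g hc ⟨hg1, hg2, hg3⟩
      have hlip := lip_of_edges (D := D) hc (extg_edges i k g hc hg1 hg2 hg3)
      have e : ∑ z, u x z * g z - g (anc (H.lab x)) =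
          (P D).pairing (uu (Pt.vert i k x) - Lib.FreeLipBAP.delta (P D) (Pt.anc i (H.lab x)))
            (extg i k g) := by
        have e0 := Lib.FreeLipBAP.pairing_sub (P D) (uu (Pt.vert i k x))
          (Lib.FreeLipBAP.delta (P D) (Pt.anc i (H.lab x))) (extg i k g)
        have e1 := Lib.FreeLipBAP.pairing_delta (P D) (Pt.anc i (H.lab x)) (extg i k g)
        rw [e1, ← hsum] at e0
        refine Eq.trans ?_ e0.symm
        congr 1
        exact (extg_apply i k g (Sum.inl (H.lab x))).symm
      rw [e]
      refine (Lib.FreeLipBAP.abs_pairing_le_of_lip (P D) _ hc (hext0 g) hlip).trans ?_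
      rw [mul_assoc]
      exact mul_le_mul_of_nonneg_left (hnorm x) hc
    · -- near the anchor, label functions
      intro x c φ hc hφ1 hφ2
      have hφ2' : ∀ q, |φ q| ≤ c * (rr i : ℝ) ^ 2 := by
        intro q
        have := hφ2 q
        push_cast at this
        exact this
      have hlip := lip_of_edges (D := D) hc (labFun_edges i φ hc hφ1 hφ2')
      have hψ0 : labFun i φ (P D).base = 0 := rfl
      have hsupp : (P D).pairing (uu (Pt.vert i k x)) (extg i k (fun z => φ (Y.lab z))) =
          (P D).pairing (uu (Pt.vert i k x)) (labFun i φ) := by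
        refine Lib.FreeLipBAP.pairing_congr (P D) _ fun p hp => ?_
        have hpC : p ∈ C := hC _ (hM x) p hp
        change Pt D at p
        cases p with
        | o =>
          rw [extg_of_not _ _ _ (not_mem_range_o i k)]
          rfl
        | anc i' q =>
          by_cases hi' : i' = i
          · subst hi'
            have e1 := extg_apply i' k (fun z => φ ((YY (D := D) i' k).lab z)) (Sum.inl q)
            refine e1.trans ?_
            simp [labFun]
            rfl
          · rw [extg_of_not _ _ _ (not_mem_range_anc i k i' hi' q)]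
            simp [labFun, hi']
        | vert i' j z =>
          by_cases hi' : i' = i
          · subst hi'
            by_cases hj : j < k
            · obtain ⟨v, hv⟩ := embU_surj (D := D) i' k j hj z
              have e1 : extg i' k (fun z => φ ((YY (D := D) i' k).lab z)) (Pt.vert i' j z) =
                  φ ((YY (D := D) i' k).lab (Sum.inr v)) := by
                rw [← hv]
                exact extg_apply i' k _ (Sum.inr v)
              refine e1.trans ?_
              obtain ⟨j', w, hj', h1', h2'⟩ := embU_eq_vert (D := D) i' k v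
              rw [h1'] at hv
              injection hv with _ h3' h4'
              subst h3'
              have h4'' := eq_of_heq h4'
              subst h4''
              have hl : (YY (D := D) i' k).lab (Sum.inr v) = ((D i').B j').lab w := h2'
              rw [hl]
              simp [labFun]
            · exact absurd hpC (hk j (by omega) z)
          · rw [extg_of_not _ _ _ (not_mem_range_vert i k i' j hi' z)]
            simp [labFun, hi']
      have e : ∑ z, u x z * φ (Y.lab z) - φ (H.lab x) =
          (P D).pairing (uu (Pt.vert i k x) - Lib.FreeLipBAP.delta (P D) (Pt.anc i (H.lab x)))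
            (labFun i φ) := by
        have e0 := Lib.FreeLipBAP.pairing_sub (P D) (uu (Pt.vert i k x))
          (Lib.FreeLipBAP.delta (P D) (Pt.anc i (H.lab x))) (labFun i φ)
        have e1 := Lib.FreeLipBAP.pairing_delta (P D) (Pt.anc i (H.lab x)) (labFun i φ)
        rw [e1, ← hsupp, ← hsum] at e0
        refine Eq.trans ?_ e0.symm
        congr 1
        simp [labFun]
      rw [e]
      refine (Lib.FreeLipBAP.abs_pairing_le_of_lip (P D) _ hc hψ0 hlip).trans ?_
      rw [mul_assoc]
      exact mul_le_mul_of_nonneg_left (hnorm x) hc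

/-- The data of the wedge exist. -/
theorem exists_data : ∃ D : ℕ → Level 400,
    (∀ i, NoRel (D i).θ ((rr i) ^ 2)) ∧ (∀ i k, Alteration.IsGood ((D i).B k)) ∧
    ∀ i k, ∃ t, 1 ≤ t ∧ ∀ L : List (Letter 400), FreeGroup.IsReduced L → L.length = t →
      ((D i).B k).ReadsSomewhere L → ∀ j < k, ¬ ((D i).B j).ReadsSomewhere L := by
  have key : ∀ i : ℕ, ∃ L : Level 400, NoRel L.θ ((rr i) ^ 2) ∧
      (∀ k, Alteration.IsGood (L.B k)) ∧
      ∀ k, ∃ t, 1 ≤ t ∧ ∀ W : List (Letter 400), FreeGroup.IsReduced W → W.length = t →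
        (L.B k).ReadsSomewhere W → ∀ j < k, ¬ (L.B j).ReadsSomewhere W := by
    intro i
    obtain ⟨Γ, hG, hF, θ, hθ⟩ := _root_.FreeLipBAP.FreeWord.exists_highGirth 400
      (2 * (rr i) ^ 2 + 2)
    obtain ⟨B, hB1, hB2⟩ := Alteration.exists_seq rfl θ
    exact ⟨⟨Γ, θ, B⟩, hθ, hB1, hB2⟩
  choose D hD1 hD2 hD3 using key
  exact ⟨D, hD1, hD2, hD3⟩

end Crest.Agent.FreeLipBAP
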