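import Mathlib

/-!
# Euler lemma on a graph with the forest property (row 115, S0154, helper28's plan #770).

`W` a finite graph in which every nonempty vertex set has a vertex with at most one neighbour inside;
`miss` a nonnegative defect; `c v = deg v + miss v - 2 ≥ 0`; then for any real `F`
`∑ F v * c v ≤ ∑_{edges} |F u - F v| + ∑ |F v| * miss v`.
The edge sum is written as one half of the sum over ordered adjacent pairs.
-/

namespace Crest.Agent.FreeLipBAP

open Finset

variable {V : Type*} [Fintype V] [DecidableEq V]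

/-- Induction statement on vertex subsets. -/
theorem euler_aux (adj : V → V → Prop) [DecidableRel adj]
    (hsymm : ∀ u v, adj u v → adj v u) (hirr : ∀ v, ¬ adj v v)
    (hforest : ∀ S : Finset V, S.Nonempty → ∃ v ∈ S, (S.filter (adj v)).card ≤ 1)
    (c : V → ℝ) (hc : ∀ v, 0 ≤ c v) (F : V → ℝ) (S : Finset V) :
    ∑ v ∈ S, F v * c v ≤
      (∑ u ∈ S, ∑ w ∈ S.filter (adj u), |F u - F w|) / 2
        + ∑ v ∈ S, |F v| * (c v + 2 - ((S.filter (adj v)).card : ℝ)) := by
  classical
  induction' h : S.card using Nat.strong_induction_on with n ih generalizing S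
  rcases S.eq_empty_or_nonempty with rfl | hne
  · simp
  obtain ⟨v, hv, hdeg⟩ := hforest S hne
  set S' := S.erase v with hS'
  have hvS' : v ∉ S' := by simp [hS']
  have hSins : S = insert v S' := by simp [hS', Finset.insert_erase hv]
  have hcard : S'.card < S.card := Finset.card_erase_lt_of_mem hv
  have IH := ih S'.card (h ▸ hcard) S' rfl
  set N := S'.filter (adj v) with hN
  -- neighbours of `v` in `S` are those in `S'`
  have hNS : S.filter (adj v) = N := by
    ext w
    simp only [hN, Finset.mem_filter, hS', Finset.mem_erase]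
    constructor
    · rintro ⟨hw, ha⟩
      exact ⟨⟨fun e => hirr v (e ▸ ha), hw⟩, ha⟩
    · rintro ⟨⟨_, hw⟩, ha⟩
      exact ⟨hw, ha⟩
  have hNcard : N.card ≤ 1 := hNS ▸ hdeg
  -- filters for other vertices
  have hfilter : ∀ u ∈ S', S.filter (adj u) =
      if adj u v then insert v (S'.filter (adj u)) else S'.filter (adj u) := by
    intro u _
    split_ifs with ha
    · ext w
      simp only [Finset.mem_filter, Finset.mem_insert, hS', Finset.mem_erase]
      constructor
      · rintro ⟨hw, haw⟩
        by_cases e : w = v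
        · exact Or.inl e
        · exact Or.inr ⟨⟨e, hw⟩, haw⟩
      · rintro (rfl | ⟨⟨_, hw⟩, haw⟩)
        · exact ⟨hv, ha⟩
        · exact ⟨hw, haw⟩
    · ext w
      simp only [Finset.mem_filter, hS', Finset.mem_erase]
      constructor
      · rintro ⟨hw, haw⟩
        refine ⟨⟨?_, hw⟩, haw⟩
        rintro rfl
        exact ha haw
      · rintro ⟨⟨_, hw⟩, haw⟩
        exact ⟨hw, haw⟩
  -- the double sum over `S`
  have hdouble : ∑ u ∈ S, ∑ w ∈ S.filter (adj u), |F u - F w| =
      (∑ u ∈ S', ∑ w ∈ S'.filter (adj u), |F u - F w|) + 2 * ∑ w ∈ N, |F v - F w| := by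
    rw [hSins, Finset.sum_insert hvS']
    rw [← hSins]
    have h1 : ∑ w ∈ S.filter (adj v), |F v - F w| = ∑ w ∈ N, |F v - F w| := by rw [hNS]
    have h2 : ∑ u ∈ S', ∑ w ∈ S.filter (adj u), |F u - F w| =
        (∑ u ∈ S', ∑ w ∈ S'.filter (adj u), |F u - F w|) + ∑ u ∈ N, |F v - F u| := by
      have : ∀ u ∈ S', ∑ w ∈ S.filter (adj u), |F u - F w| =
          (∑ w ∈ S'.filter (adj u), |F u - F w|) + (if adj v u then |F v - F u| else 0) := by
        intro u hu
        rw [hfilter u hu]
        by_cases ha : adj u v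
        · have ha' : adj v u := hsymm _ _ ha
          have hvnot : v ∉ S'.filter (adj u) := by simp [hvS']
          rw [if_pos ha, Finset.sum_insert hvnot, if_pos ha', abs_sub_comm (F u) (F v)]
          ring
        · have ha' : ¬ adj v u := fun h => ha (hsymm _ _ h)
          rw [if_neg ha, if_neg ha', add_zero]
      rw [Finset.sum_congr rfl this, Finset.sum_add_distrib]
      congr 1
      rw [hN, Finset.sum_filter]
    rw [h1, h2]
    ring
  -- the miss sum over `S`
  have hmiss : ∑ x ∈ S, |F x| * (c x + 2 - ((S.filter (adj x)).card : ℝ)) =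
      (∑ x ∈ S', |F x| * (c x + 2 - ((S'.filter (adj x)).card : ℝ)))
        + |F v| * (c v + 2 - (N.card : ℝ)) - ∑ w ∈ N, |F w| := by
    conv_lhs => rw [hSins, Finset.sum_insert hvS', ← hSins, hNS]
    have : ∀ u ∈ S', |F u| * (c u + 2 - ((S.filter (adj u)).card : ℝ)) =
        |F u| * (c u + 2 - ((S'.filter (adj u)).card : ℝ)) - (if adj v u then |F u| else 0) := by
      intro u hu
      rw [hfilter u hu]
      by_cases ha : adj u v
      · have ha' : adj v u := hsymm _ _ ha
        have hvnot : v ∉ S'.filter (adj u) := by simp [hvS']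
        rw [if_pos ha, if_pos ha', Finset.card_insert_of_notMem hvnot]
        push_cast
        ring
      · have ha' : ¬ adj v u := fun h => ha (hsymm _ _ h)
        rw [if_neg ha, if_neg ha', sub_zero]
    rw [Finset.sum_congr rfl this, Finset.sum_sub_distrib]
    have hs : ∑ u ∈ S', (if adj v u then |F u| else 0) = ∑ w ∈ N, |F w| := by
      rw [hN, Finset.sum_filter]
    rw [hs]
    ring
  -- the key pointwise estimate
  have hkey : F v * c v ≤ ∑ w ∈ N, |F v - F w| + |F v| * (c v + 2 - (N.card : ℝ)) - ∑ w ∈ N, |F w| := by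
    have h1 : ∑ w ∈ N, (|F v - F w| - |F w|) ≥ -((N.card : ℝ) * |F v|) := by
      have : ∀ w ∈ N, -|F v| ≤ |F v - F w| - |F w| := by
        intro w _
        have := abs_sub_abs_le_abs_sub (F w) (F v)
        rw [abs_sub_comm (F w) (F v)] at this
        linarith
      calc ∑ w ∈ N, (|F v - F w| - |F w|) ≥ ∑ w ∈ N, (-|F v|) := Finset.sum_le_sum this
        _ = -((N.card : ℝ) * |F v|) := by simp
    have h2 : F v * c v ≤ |F v| * c v :=
      mul_le_mul_of_nonneg_right (le_abs_self _) (hc v)
    have h3 : (N.card : ℝ) ≤ 1 := by exact_mod_cast hNcard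
    have h4 : 0 ≤ |F v| := abs_nonneg _
    rw [Finset.sum_sub_distrib] at h1
    nlinarith
  rw [hdouble, hmiss]
  conv_lhs => rw [hSins, Finset.sum_insert hvS']
  linarith

/-- **Euler lemma**. The edge sum appears as half the sum over ordered adjacent pairs. -/
theorem euler_lemma (adj : V → V → Prop) [DecidableRel adj]
    (hsymm : ∀ u v, adj u v → adj v u) (hirr : ∀ v, ¬ adj v v)
    (hforest : ∀ S : Finset V, S.Nonempty → ∃ v ∈ S, (S.filter (adj v)).card ≤ 1)
    (miss c : V → ℝ) (hmiss : ∀ v, ((univ.filter (adj v)).card : ℝ) + miss v = c v + 2)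
    (hc : ∀ v, 0 ≤ c v) (F : V → ℝ) :
    ∑ v, F v * c v ≤
      (∑ u, ∑ w ∈ univ.filter (adj u), |F u - F w|) / 2 + ∑ v, |F v| * miss v := by
  have h := euler_aux adj hsymm hirr hforest c hc F univ
  refine h.trans (le_of_eq ?_)
  congr 1
  refine Finset.sum_congr rfl fun v _ => ?_
  congr 1
  linarith [hmiss v]

end Crest.Agent.FreeLipBAP
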