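import Crest.Agent.Lib.FreeLipBAP.Euler

/-!
# Abstract finish of the non-BAP argument (row 115, S0154, plan #770)

A finite graph `X` with fibres `Pc x`, a partial-bijection partner relation between fibres of adjacent
vertices and a forest-like fibre product.  Euler's lemma gives
`∑ x, (deg x - 2) * mass x ≤ (∑ x, deg x) * η / 2` as soon as each edge has defect at most `η`.
-/

namespace Crest.Agent.FreeLipBAP

open Finset
open scoped Classical

section FinishAbstract

variable {X : Type} [Fintype X] (adjX : X → X → Prop)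
  (Pc : X → Type) [∀ x, Fintype (Pc x)]
  (part : ∀ x y, Pc x → Pc y → Prop)

/-- Adjacency in the fibre product. -/
def fibAdj (u v : Σ x, Pc x) : Prop := adjX u.1 v.1 ∧ part u.1 v.1 u.2 v.2

variable (F : ∀ x, Pc x → ℝ)

/-- Partner part of the edge defect. -/
noncomputable def edgeA (x y : X) : ℝ :=
  ∑ P : Pc x, ∑ P' : Pc y, if part x y P P' then |F x P - F y P'| else 0

/-- No-partner part of the edge defect. -/
noncomputable def edgeB (x y : X) : ℝ :=
  ∑ P : Pc x, if ∃ P', part x y P P' then 0 else |F x P|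

/-- Degree in the base graph. -/
noncomputable def degX (x : X) : ℕ := (univ.filter (adjX x)).card

variable {adjX Pc part}

lemma edgeA_comm (hpart : ∀ x y P P', part x y P P' ↔ part y x P' P) (x y : X) :
    edgeA Pc part F x y = edgeA Pc part F y x := by
  unfold edgeA
  rw [Finset.sum_comm]
  refine Finset.sum_congr rfl fun P' _ => Finset.sum_congr rfl fun P _ => ?_
  simp only [hpart x y P P', abs_sub_comm]

lemma card_nbrsW (hirr : ∀ x, ¬ adjX x x)
    (huniq : ∀ x y, adjX x y → ∀ P P₁ P₂, part x y P P₁ → part x y P P₂ → P₁ = P₂)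
    (u : Σ x, Pc x) :
    ((univ.filter (fibAdj adjX Pc part u)).card : ℝ) +
      ((univ.filter fun y => adjX u.1 y ∧ ¬ ∃ P', part u.1 y u.2 P').card : ℝ) =
      (degX adjX u.1 : ℝ) := by
  have h1 : (univ.filter (fibAdj adjX Pc part u)).card =
      (univ.filter fun y => adjX u.1 y ∧ ∃ P', part u.1 y u.2 P').card := by
    refine Finset.card_bij (fun v _ => v.1) ?_ ?_ ?_
    · rintro ⟨y, P'⟩ hv
      simp only [mem_filter, mem_univ, true_and, fibAdj] at hv ⊢
      exact ⟨hv.1, P', hv.2⟩
    · rintro ⟨y, P'⟩ hv ⟨y', P''⟩ hv' (rfl : y = y')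
      simp only [mem_filter, mem_univ, true_and, fibAdj] at hv hv'
      have := huniq _ _ hv.1 _ _ _ hv.2 hv'.2
      subst this
      rfl
    · intro y hy
      simp only [mem_filter, mem_univ, true_and] at hy
      obtain ⟨h, P', hP'⟩ := hy
      refine ⟨⟨y, P'⟩, ?_, rfl⟩
      simp only [mem_filter, mem_univ, true_and, fibAdj]
      exact ⟨h, hP'⟩
  rw [h1]
  have h2 : degX adjX u.1 = (univ.filter fun y => adjX u.1 y ∧ ∃ P', part u.1 y u.2 P').card +
      (univ.filter fun y => adjX u.1 y ∧ ¬ ∃ P', part u.1 y u.2 P').card := by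
    unfold degX
    rw [← Finset.card_union_of_disjoint]
    · congr 1
      ext y
      simp only [mem_filter, mem_univ, true_and, mem_union]
      tauto
    · rw [Finset.disjoint_left]
      intro y hy hy'
      simp only [mem_filter, mem_univ, true_and] at hy hy'
      exact hy'.2 hy.2
  rw [h2]
  push_cast
  ring

/-- The Euler inequality on the fibre product, regrouped over the base. -/
theorem fibre_euler
    (hsymm : ∀ x y, adjX x y → adjX y x) (hirr : ∀ x, ¬ adjX x x)
    (hpart : ∀ x y P P', part x y P P' ↔ part y x P' P)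
    (huniq : ∀ x y, adjX x y → ∀ P P₁ P₂, part x y P P₁ → part x y P P₂ → P₁ = P₂)
    (hforest : ∀ S : Finset (Σ x, Pc x), S.Nonempty →
      ∃ v ∈ S, (S.filter (fibAdj adjX Pc part v)).card ≤ 1)
    (hdeg : ∀ x, 2 ≤ degX adjX x)
    (η : ℝ)
    (hedge : ∀ x y, adjX x y →
      edgeA Pc part F x y + edgeB Pc part F x y + edgeB Pc part F y x ≤ η) :
    ∑ x, ((degX adjX x : ℝ) - 2) * ∑ P, F x P ≤ (∑ x, (degX adjX x : ℝ)) * η / 2 := by
  classical
  set FW : (Σ x, Pc x) → ℝ := fun v => F v.1 v.2 with hFW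
  set miss : (Σ x, Pc x) → ℝ := fun u =>
    ((univ.filter fun y => adjX u.1 y ∧ ¬ ∃ P', part u.1 y u.2 P').card : ℝ) with hmissdef
  set c : (Σ x, Pc x) → ℝ := fun u => (degX adjX u.1 : ℝ) - 2 with hcdef
  have hW := euler_lemma (V := Σ x, Pc x) (fibAdj adjX Pc part)
    (fun u v h => ⟨hsymm _ _ h.1, (hpart _ _ _ _).1 h.2⟩)
    (fun u h => hirr _ h.1) hforest miss c
    (fun u => by
      have := card_nbrsW (Pc := Pc) (part := part) hirr huniq u
      simp only [hcdef, hmissdef]
      linarith)
    (fun u => by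
      have := hdeg u.1
      have h2 : (2:ℝ) ≤ (degX adjX u.1 : ℝ) := by exact_mod_cast this
      simp only [hcdef]
      linarith) FW
  -- left side
  have hL : ∑ v, FW v * c v = ∑ x, ((degX adjX x : ℝ) - 2) * ∑ P, F x P := by
    rw [Fintype.sum_sigma]
    refine Finset.sum_congr rfl fun x _ => ?_
    rw [Finset.mul_sum]
    refine Finset.sum_congr rfl fun P _ => ?_
    simp only [hFW, hcdef]
    ring
  -- edge sum
  have hE : ∑ u, ∑ w ∈ univ.filter (fibAdj adjX Pc part u), |FW u - FW w| =
      ∑ x, ∑ y ∈ univ.filter (adjX x), edgeA Pc part F x y := by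
    rw [Fintype.sum_sigma]
    refine Finset.sum_congr rfl fun x _ => ?_
    unfold edgeA
    rw [Finset.sum_comm]
    refine Finset.sum_congr rfl fun P _ => ?_
    rw [Finset.sum_filter, Fintype.sum_sigma, Finset.sum_filter]
    refine Finset.sum_congr rfl fun y _ => ?_
    by_cases hxy : adjX x y
    · rw [if_pos hxy]
      refine Finset.sum_congr rfl fun P' _ => ?_
      simp [fibAdj, hxy, hFW]
    · rw [if_neg hxy]
      refine Finset.sum_eq_zero fun P' _ => ?_
      simp [fibAdj, hxy]
  -- miss sum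
  have hM : ∑ v, |FW v| * miss v = ∑ x, ∑ y ∈ univ.filter (adjX x), edgeB Pc part F x y := by
    rw [Fintype.sum_sigma]
    refine Finset.sum_congr rfl fun x _ => ?_
    unfold edgeB
    rw [Finset.sum_comm]
    refine Finset.sum_congr rfl fun P _ => ?_
    simp only [hFW, hmissdef]
    rw [Finset.card_filter]
    push_cast
    rw [Finset.mul_sum, Finset.sum_filter]
    refine Finset.sum_congr rfl fun y _ => ?_
    by_cases hxy : adjX x y <;> by_cases hP : ∃ P', part x y P P' <;> simp [hxy, hP]
  have hswap : ∑ x, ∑ y ∈ univ.filter (adjX x), edgeB Pc part F x y =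
      ∑ x, ∑ y ∈ univ.filter (adjX x), edgeB Pc part F y x := by
    simp only [Finset.sum_filter]
    rw [Finset.sum_comm]
    refine Finset.sum_congr rfl fun x _ => Finset.sum_congr rfl fun y _ => ?_
    by_cases h : adjX x y
    · rw [if_pos h, if_pos (hsymm _ _ h)]
    · rw [if_neg h, if_neg (fun h' => h (hsymm _ _ h'))]
  have hR : (∑ u, ∑ w ∈ univ.filter (fibAdj adjX Pc part u), |FW u - FW w|) / 2 + ∑ v, |FW v| * miss v
      ≤ (∑ x, (degX adjX x : ℝ)) * η / 2 := by
    rw [hE, hM]
    have h1 : ∑ x, ∑ y ∈ univ.filter (adjX x), edgeB Pc part F x y =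
        (∑ x, ∑ y ∈ univ.filter (adjX x), edgeB Pc part F x y) / 2 +
        (∑ x, ∑ y ∈ univ.filter (adjX x), edgeB Pc part F y x) / 2 := by
      rw [← hswap]; ring
    rw [h1]
    have h2 : (∑ x, ∑ y ∈ univ.filter (adjX x), edgeA Pc part F x y) +
        (∑ x, ∑ y ∈ univ.filter (adjX x), edgeB Pc part F x y) +
        (∑ x, ∑ y ∈ univ.filter (adjX x), edgeB Pc part F y x) ≤
        ∑ x, (degX adjX x : ℝ) * η := by
      rw [← Finset.sum_add_distrib, ← Finset.sum_add_distrib]
      refine Finset.sum_le_sum fun x _ => ?_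
      rw [← Finset.sum_add_distrib, ← Finset.sum_add_distrib]
      have : (degX adjX x : ℝ) * η = ∑ y ∈ univ.filter (adjX x), η := by
        simp [degX]
      rw [this]
      refine Finset.sum_le_sum fun y hy => ?_
      exact hedge x y (by simpa using hy)
    rw [← Finset.sum_mul] at h2
    linarith
  rw [hL] at hW
  exact hW.trans hR

/-- Numeric finish. -/
theorem fibre_numeric [Nonempty X]
    (hdeg : ∀ x, 2 ≤ degX adjX x)
    (hcount : 17 * (Fintype.card X : ℝ) ≤ 5 * ∑ x, (degX adjX x : ℝ))
    (hmass : ∀ x, (99 / 100 : ℝ) ≤ ∑ P, F x P)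
    (η : ℝ) (hη : η ≤ 1 / 20)
    (hE : ∑ x, ((degX adjX x : ℝ) - 2) * ∑ P, F x P ≤ (∑ x, (degX adjX x : ℝ)) * η / 2) :
    False := by
  set D : ℝ := ∑ x, (degX adjX x : ℝ) with hD
  have hDpos : 0 < D := by
    obtain ⟨x⟩ := ‹Nonempty X›
    have h1 : (degX adjX x : ℝ) ≤ D :=
      Finset.single_le_sum (f := fun x => (degX adjX x : ℝ)) (fun _ _ => by positivity) (mem_univ x)
    have h2 : (2:ℝ) ≤ (degX adjX x : ℝ) := by exact_mod_cast hdeg x
    linarith
  have h1 : ∑ x : X, ((degX adjX x : ℝ) - 2) * (99 / 100) ≤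
      ∑ x, ((degX adjX x : ℝ) - 2) * ∑ P, F x P := by
    refine Finset.sum_le_sum fun x _ => ?_
    have h2 : (2:ℝ) ≤ (degX adjX x : ℝ) := by exact_mod_cast hdeg x
    exact mul_le_mul_of_nonneg_left (hmass x) (by linarith)
  have h2 : ∑ x : X, ((degX adjX x : ℝ) - 2) * (99 / 100) =
      (D - 2 * (Fintype.card X : ℝ)) * (99 / 100) := by
    rw [← Finset.sum_mul, Finset.sum_sub_distrib]
    simp [hD, Finset.card_univ]
    ring
  have h3 : D * η / 2 ≤ D * (1 / 40) := by
    have : D * η ≤ D * (1 / 20) := mul_le_mul_of_nonneg_left hη hDpos.le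
    linarith
  nlinarith

/-- Sign selection for a partial bijection. -/
theorem exists_signs {A B : Type} [Fintype A] [Fintype B] (part : A → B → Prop)
    (huA : ∀ a b₁ b₂, part a b₁ → part a b₂ → b₁ = b₂)
    (huB : ∀ a₁ a₂ b, part a₁ b → part a₂ b → a₁ = a₂)
    (f : A → ℝ) (g : B → ℝ) :
    ∃ (σ : A → ℝ) (τ : B → ℝ), (∀ a, |σ a| ≤ 1) ∧ (∀ b, |τ b| ≤ 1) ∧
      (∀ a b, part a b → σ a = τ b) ∧
      ∑ b, τ b * g b - ∑ a, σ a * f a =
        (∑ a, ∑ b, if part a b then |f a - g b| else 0) +
        (∑ a, if ∃ b, part a b then 0 else |f a|) +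
        (∑ b, if ∃ a, part a b then 0 else |g b|) := by
  classical
  let sgn : ℝ → ℝ := fun z => if 0 ≤ z then 1 else -1
  have hsgn : ∀ z, |sgn z| ≤ 1 := by
    intro z
    simp only [sgn]
    split_ifs <;> simp
  have hsgn2 : ∀ z, sgn z * z = |z| := by
    intro z
    simp only [sgn]
    split_ifs with h
    · rw [abs_of_nonneg h, one_mul]
    · rw [abs_of_neg (not_le.mp h)]; ring
  let σ : A → ℝ := fun a => if h : ∃ b, part a b then sgn (g h.choose - f a) else - sgn (f a)
  let τ : B → ℝ := fun b => if h : ∃ a, part a b then sgn (g b - f h.choose) else sgn (g b)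
  have hσ : ∀ a b, part a b → σ a = sgn (g b - f a) := by
    intro a b h
    have hex : ∃ b, part a b := ⟨b, h⟩
    simp only [σ, dif_pos hex]
    rw [huA a _ _ hex.choose_spec h]
  have hτ : ∀ a b, part a b → τ b = sgn (g b - f a) := by
    intro a b h
    have hex : ∃ a, part a b := ⟨a, h⟩
    simp only [τ, dif_pos hex]
    rw [huB _ _ b hex.choose_spec h]
  refine ⟨σ, τ, ?_, ?_, ?_, ?_⟩
  · intro a
    simp only [σ]
    split_ifs with h
    · exact hsgn _
    · rw [abs_neg]; exact hsgn _
  · intro b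
    simp only [τ]
    split_ifs with h
    · exact hsgn _
    · exact hsgn _
  · intro a b h
    rw [hσ a b h, hτ a b h]
  · have h1 : ∀ b, τ b * g b =
        (∑ a, if part a b then sgn (g b - f a) * g b else 0) +
          (if ∃ a, part a b then 0 else |g b|) := by
      intro b
      by_cases h : ∃ a, part a b
      · obtain ⟨a, ha⟩ := h
        rw [if_pos ⟨a, ha⟩, add_zero, Finset.sum_eq_single a, if_pos ha, hτ a b ha]
        · intro a' _ hne
          rw [if_neg]
          intro h'
          exact hne (huB _ _ _ h' ha)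
        · simp
      · rw [if_neg h, Finset.sum_eq_zero, zero_add]
        · simp only [τ, dif_neg h]
          exact hsgn2 _
        · intro a _
          rw [if_neg]
          exact fun h' => h ⟨a, h'⟩
    have h2 : ∀ a, σ a * f a =
        (∑ b, if part a b then sgn (g b - f a) * f a else 0) -
          (if ∃ b, part a b then 0 else |f a|) := by
      intro a
      by_cases h : ∃ b, part a b
      · obtain ⟨b, hb⟩ := h
        rw [if_pos ⟨b, hb⟩, sub_zero, Finset.sum_eq_single b, if_pos hb, hσ a b hb]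
        · intro b' _ hne
          rw [if_neg]
          intro h'
          exact hne (huA _ _ _ h' hb)
        · simp
      · rw [if_neg h, Finset.sum_eq_zero, zero_sub]
        · simp only [σ, dif_neg h]
          rw [neg_mul, hsgn2]
        · intro b _
          rw [if_neg]
          exact fun h' => h ⟨b, h'⟩
    simp_rw [h1, h2]
    rw [Finset.sum_add_distrib, Finset.sum_sub_distrib]
    have h3 : (∑ b, ∑ a, if part a b then sgn (g b - f a) * g b else 0) =
        ∑ a, ∑ b, if part a b then sgn (g b - f a) * g b else 0 := Finset.sum_comm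
    rw [h3]
    have h4 : (∑ a, ∑ b, if part a b then |f a - g b| else 0) =
        (∑ a, ∑ b, if part a b then sgn (g b - f a) * g b else 0) -
        (∑ a, ∑ b, if part a b then sgn (g b - f a) * f a else 0) := by
      rw [← Finset.sum_sub_distrib]
      refine Finset.sum_congr rfl fun a _ => ?_
      rw [← Finset.sum_sub_distrib]
      refine Finset.sum_congr rfl fun b _ => ?_
      by_cases h : part a b
      · simp only [if_pos h]
        rw [← mul_sub, hsgn2, abs_sub_comm]
      · simp [if_neg h]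
    rw [h4]
    ring

end FinishAbstract

end Crest.Agent.FreeLipBAP
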