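import Crest.Agent.Lib.FreeLipBAP.Fibre
import Crest.Agent.Lib.FreeLipBAP.FinishAbs
import Crest.Agent.Lib.FreeLipBAP.BallFun

/-!
# Bridge between `Fibre` and `FinishAbs`/`BallFun` (row 115, S0154).

`Pc x := Piece Y K (H.lab x)`, `part x y P P' := Partner P P'`: the hypotheses of
`FinishAbs.fibre_euler` in exactly the form stated there.
-/

namespace Crest.Agent.FreeLipBAP

variable {m : ℕ} {G0 : Type} [Group G0] {θ0 : FreeGroup (Fin m) →* G0}

lemma noRel_iff_girth {K : ℕ} : NoRel θ0 K ↔ Girth θ0 (2 * K + 2) := Iff.rfl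

lemma inBall_iff_inBallG {Y : LabGraph θ0} {K : ℕ} {q : G0} {z : Y.V} :
    InBall Y K q z ↔ InBallG θ0 K q (Y.lab z) := Iff.rfl

variable {H Y : LabGraph θ0} {K : ℕ}

/-- The fibres of the fibre product. -/
abbrev PcF (H Y : LabGraph θ0) (K : ℕ) (x : H.V) : Type := Piece Y K (H.lab x)

/-- The partner relation of the fibre product. -/
def partF (H Y : LabGraph θ0) (K : ℕ) (x y : H.V) (P : PcF H Y K x) (P' : PcF H Y K y) : Prop :=
  Partner P P'

lemma partF_comm (x y : H.V) (P : PcF H Y K x) (P' : PcF H Y K y) :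
    partF H Y K x y P P' ↔ partF H Y K y x P' P :=
  ⟨Partner.symm, Partner.symm⟩

lemma partF_uniq (hK : NoRel θ0 K) (x y : H.V) (hxy : H.Adj x y) (P : PcF H Y K x)
    (P₁ P₂ : PcF H Y K y) (h₁ : partF H Y K x y P P₁) (h₂ : partF H Y K x y P P₂) : P₁ = P₂ := by
  obtain ⟨a, ha⟩ := hxy
  exact partner_unique hK (H.step_lab _ _ _ ha) h₁ h₂

lemma partF_uniq_left (hK : NoRel θ0 K) (x y : H.V) (hxy : H.Adj x y) (P₁ P₂ : PcF H Y K x)
    (P : PcF H Y K y) (h₁ : partF H Y K x y P₁ P) (h₂ : partF H Y K x y P₂ P) : P₁ = P₂ := by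
  obtain ⟨a, ha⟩ := hxy
  exact partner_unique_left hK (H.step_lab _ _ _ ha) h₁ h₂

/-- The forest hypothesis of `fibre_euler`, with any decidability instances. -/
theorem forest_adjW (hK : NoRel θ0 K) (t : ℕ)
    (hdisj : ∀ L : List (Letter m), FreeGroup.IsReduced L → L.length = t →
      H.ReadsSomewhere L → Y.ReadsSomewhere L → False)
    (S : Finset (Σ x : H.V, PcF H Y K x)) (hS : S.Nonempty)
    [∀ v, DecidablePred (fibAdj H.Adj (PcF H Y K) (partF H Y K) v)] :
    ∃ v ∈ S, (S.filter (fibAdj H.Adj (PcF H Y K) (partF H Y K) v)).card ≤ 1 := by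
  obtain ⟨v, hv, hcard⟩ := forest (H := H) (Y := Y) (K := K) hK t hdisj S hS
  refine ⟨v, hv, ?_⟩
  rw [Finset.card_le_one] at hcard ⊢
  intro a ha b hb
  simp only [Finset.mem_filter] at ha hb
  exact hcard a (by simpa using ⟨ha.1, ha.2⟩) b (by simpa using ⟨hb.1, hb.2⟩)

end Crest.Agent.FreeLipBAP
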