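import Crest.Agent.Lib.FreeLipBAP.BallFun
import Crest.Agent.Lib.FreeLipBAP.FinishAbs

/-!
# Functional part of the non-BAP theorem (row 115, S0154, plan #770)

Ball functions with signs on pieces, the edge estimate, mass estimate, and the finish through Euler's
lemma.  The statement is purely finite: the molecules `u_x` are coefficient vectors on the finite
labelled graph `Y`, tested on explicit classes of functions.
-/

namespace Crest.Agent.FreeLipBAP

open Finset
open scoped Classical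

variable {m : ℕ} {G0 : Type} [Group G0] {θ0 : FreeGroup (Fin m) →* G0}

/-- Test functions: functions on `Y` whose zero extension to the metric space is `c`-Lipschitz. -/
def IsTest (Y : LabGraph θ0) (anc : G0 → Y.V) (r c : ℝ) (g : Y.V → ℝ) : Prop :=
  (∀ z a z', Y.step z a = some z' → |g z - g z'| ≤ c) ∧
  (∀ z, |g z - g (anc (Y.lab z))| ≤ c * r) ∧
  (∀ q, |g (anc q)| ≤ c * r)

section
variable (Y H : LabGraph θ0) (K : ℕ)
  (Pc : G0 → Type) [∀ q, Fintype (Pc q)] (pc : ∀ q, Y.V → Pc q)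

/-- PartnerF relation of pieces: they share a point of `Y`. -/
def PartnerF (x y : H.V) (P : Pc (H.lab x)) (P' : Pc (H.lab y)) : Prop :=
  ∃ z, InBallG θ0 K (H.lab x) (Y.lab z) ∧ InBallG θ0 K (H.lab y) (Y.lab z) ∧
    pc (H.lab x) z = P ∧ pc (H.lab y) z = P'

/-- Mass of a molecule on a piece, weighted by the ball function. -/
noncomputable def massF (u : H.V → Y.V → ℝ) (x : H.V) (P : Pc (H.lab x)) : ℝ :=
  ∑ z, if pc (H.lab x) z = P then u x z * bL θ0 K (H.lab x) (Y.lab z) else 0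

/-- Ball function with signs on pieces. -/
noncomputable def gTest (q : G0) (σ : Pc q → ℝ) (z : Y.V) : ℝ :=
  σ (pc q z) * bL θ0 K q (Y.lab z)

variable {Y H K Pc pc}

lemma sum_u_gTest (u : H.V → Y.V → ℝ) (x : H.V) (σ : Pc (H.lab x) → ℝ) :
    ∑ z, u x z * gTest Y K Pc pc (H.lab x) σ z = ∑ P, σ P * massF Y H K Pc pc u x P := by
  unfold massF gTest
  simp_rw [Finset.mul_sum]
  rw [Finset.sum_comm]
  refine Finset.sum_congr rfl fun z _ => ?_
  rw [Finset.sum_eq_single (pc (H.lab x) z)]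
  · rw [if_pos rfl]; ring
  · intro P _ hP
    rw [if_neg (Ne.symm hP), mul_zero]
  · simp

lemma sum_massF (u : H.V → Y.V → ℝ) (x : H.V) :
    ∑ P, massF Y H K Pc pc u x P = ∑ z, u x z * bL θ0 K (H.lab x) (Y.lab z) := by
  unfold massF
  rw [Finset.sum_comm]
  refine Finset.sum_congr rfl fun z _ => ?_
  rw [Finset.sum_eq_single (pc (H.lab x) z)]
  · rw [if_pos rfl]
  · intro P _ hP
    rw [if_neg (Ne.symm hP)]
  · simp

lemma abs_gTest_le (q : G0) (σ : Pc q → ℝ) (hσ : ∀ P, |σ P| ≤ 1) (z : Y.V) :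
    |gTest Y K Pc pc q σ z| ≤ 1 := by
  unfold gTest
  rw [abs_mul]
  calc |σ (pc q z)| * |bL θ0 K q (Y.lab z)| ≤ 1 * 1 :=
        mul_le_mul (hσ _) (abs_bL_le_one _ _) (abs_nonneg _) (by norm_num)
    _ = 1 := by norm_num

/-- Signed ball functions are test functions. -/
lemma gTest_isTest {r : ℝ} (hg : Girth θ0 (2 * K + 2)) (hr : 0 < r) (hKr : 1 / (K:ℝ) ≤ 2 / r)
    (hpc : ∀ q z a z', Y.step z a = some z' → InBallG θ0 K q (Y.lab z) →
      InBallG θ0 K q (Y.lab z') → pc q z = pc q z')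
    (anc : G0 → Y.V) (q : G0) (σ : Pc q → ℝ) (hσ : ∀ P, |σ P| ≤ 1) :
    IsTest Y anc r (2 / r) (gTest Y K Pc pc q σ) := by
  have hstep : ∀ z a z', Y.step z a = some z' →
      |bL θ0 K q (Y.lab z') - bL θ0 K q (Y.lab z)| ≤ 1 / K := by
    intro z a z' h
    rw [Y.step_lab _ _ _ h]
    exact bL_step hg _ _ _
  have hcr : (2 / r) * r = 2 := by field_simp
  refine ⟨?_, ?_, ?_⟩
  · intro z a z' h
    have hb := hstep z a z' h
    refine le_trans ?_ hKr
    unfold gTest
    by_cases h1 : InBallG θ0 K q (Y.lab z)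
    · by_cases h2 : InBallG θ0 K q (Y.lab z')
      · rw [hpc q z a z' h h1 h2, ← mul_sub, abs_mul]
        rw [abs_sub_comm] at hb
        calc _ ≤ 1 * |bL θ0 K q (Y.lab z) - bL θ0 K q (Y.lab z')| :=
              mul_le_mul_of_nonneg_right (hσ _) (abs_nonneg _)
          _ ≤ 1 / K := by rwa [one_mul]
      · rw [bL_of_not h2] at hb ⊢
        rw [mul_zero, sub_zero, abs_mul]
        rw [zero_sub, abs_neg] at hb
        calc _ ≤ 1 * |bL θ0 K q (Y.lab z)| := mul_le_mul_of_nonneg_right (hσ _) (abs_nonneg _)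
          _ ≤ 1 / K := by rwa [one_mul]
    · rw [bL_of_not h1] at hb ⊢
      rw [mul_zero, zero_sub, abs_neg, abs_mul]
      rw [sub_zero] at hb
      calc _ ≤ 1 * |bL θ0 K q (Y.lab z')| := mul_le_mul_of_nonneg_right (hσ _) (abs_nonneg _)
        _ ≤ 1 / K := by rwa [one_mul]
  · intro z
    rw [hcr]
    have h1 := abs_gTest_le (Y := Y) (K := K) (pc := pc) q σ hσ z
    have h2 := abs_gTest_le (Y := Y) (K := K) (pc := pc) q σ hσ (anc (Y.lab z))
    have := abs_sub (gTest Y K Pc pc q σ z) (gTest Y K Pc pc q σ (anc (Y.lab z)))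
    linarith
  · intro q'
    rw [hcr]
    have h2 := abs_gTest_le (Y := Y) (K := K) (pc := pc) q σ hσ (anc q')
    linarith

/-- The difference of two signed ball functions at adjacent centres is uniformly small. -/
lemma abs_diff_le (hg : Girth θ0 (2 * K + 2))
    (x y : H.V) (a : Letter m) (hs : H.step x a = some y)
    (σ : Pc (H.lab x) → ℝ) (τ : Pc (H.lab y) → ℝ) (hσ : ∀ P, |σ P| ≤ 1) (hτ : ∀ P, |τ P| ≤ 1)
    (hst : ∀ P P', PartnerF Y H K Pc pc x y P P' → σ P = τ P') (z : Y.V) :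
    |gTest Y K Pc pc (H.lab y) τ z - gTest Y K Pc pc (H.lab x) σ z| ≤ 1 / K := by
  have hb : |bL θ0 K (H.lab y) (Y.lab z) - bL θ0 K (H.lab x) (Y.lab z)| ≤ 1 / K := by
    rw [H.step_lab _ _ _ hs]
    exact bL_step_left hg _ _ _
  unfold gTest
  by_cases h1 : InBallG θ0 K (H.lab x) (Y.lab z)
  · by_cases h2 : InBallG θ0 K (H.lab y) (Y.lab z)
    · have := hst _ _ ⟨z, h1, h2, rfl, rfl⟩
      rw [this, ← mul_sub, abs_mul]
      calc _ ≤ 1 * |bL θ0 K (H.lab y) (Y.lab z) - bL θ0 K (H.lab x) (Y.lab z)| :=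
            mul_le_mul_of_nonneg_right (hτ _) (abs_nonneg _)
        _ ≤ 1 / K := by rwa [one_mul]
    · rw [bL_of_not h2] at hb ⊢
      rw [mul_zero, zero_sub, abs_neg, abs_mul]
      rw [zero_sub, abs_neg] at hb
      calc _ ≤ 1 * |bL θ0 K (H.lab x) (Y.lab z)| :=
            mul_le_mul_of_nonneg_right (hσ _) (abs_nonneg _)
        _ ≤ 1 / K := by rwa [one_mul]
  · rw [bL_of_not h1] at hb ⊢
    rw [mul_zero, sub_zero, abs_mul]
    rw [sub_zero] at hb
    calc _ ≤ 1 * |bL θ0 K (H.lab y) (Y.lab z)| :=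
          mul_le_mul_of_nonneg_right (hτ _) (abs_nonneg _)
      _ ≤ 1 / K := by rwa [one_mul]

/-- A uniformly small function is a test function (1-separation). -/
lemma isTest_of_sup {anc : G0 → Y.V} {r s : ℝ} (hr : 1 ≤ r) (hs : 0 ≤ s) {g : Y.V → ℝ}
    (hg : ∀ z, |g z| ≤ s) : IsTest Y anc r (2 * s) g := by
  have key : ∀ z z', |g z - g z'| ≤ 2 * s := by
    intro z z'
    have := abs_sub (g z) (g z')
    linarith [hg z, hg z']
  refine ⟨fun z _ z' _ => key z z', fun z => ?_, fun q => ?_⟩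
  · have : 2 * s ≤ 2 * s * r := le_mul_of_one_le_right (by positivity) hr
    exact (key _ _).trans this
  · have : s ≤ 2 * s * r := by nlinarith
    exact (hg _).trans this

/-- **Edge estimate.** -/
theorem edge_estimate (r : ℕ) (hr : 1 ≤ r) (hK : K = r ^ 2) (hg : Girth θ0 (2 * K + 2))
    (anc : G0 → Y.V)
    (hpc : ∀ q z a z', Y.step z a = some z' → InBallG θ0 K q (Y.lab z) →
      InBallG θ0 K q (Y.lab z') → pc q z = pc q z')
    (huA : ∀ x y, H.Adj x y → ∀ P P₁ P₂, PartnerF Y H K Pc pc x y P P₁ →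
      PartnerF Y H K Pc pc x y P P₂ → P₁ = P₂)
    (L : ℝ) (hL : 1 ≤ L) (u : H.V → Y.V → ℝ)
    (h1 : ∀ x a y, H.step x a = some y → ∀ c g, 0 ≤ c → IsTest Y anc r c g →
      |∑ z, (u y z - u x z) * g z| ≤ c * L)
    (h2a : ∀ x c g, 0 ≤ c → IsTest Y anc r c g →
      |∑ z, u x z * g z - g (anc (H.lab x))| ≤ c * L * r)
    (x : H.V) (a : Letter m) (y : H.V) (hs : H.step x a = some y) :
    edgeA (fun v : H.V => Pc (H.lab v)) (PartnerF Y H K Pc pc) (massF Y H K Pc pc u) x y +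
      edgeB (fun v : H.V => Pc (H.lab v)) (PartnerF Y H K Pc pc) (massF Y H K Pc pc u) x y +
      edgeB (fun v : H.V => Pc (H.lab v)) (PartnerF Y H K Pc pc) (massF Y H K Pc pc u) y x
      ≤ 5 * L / r := by
  have hrpos : (0:ℝ) < r := by exact_mod_cast hr
  have hr1 : (1:ℝ) ≤ r := by exact_mod_cast hr
  have hKreal : (K:ℝ) = (r:ℝ) ^ 2 := by rw [hK]; push_cast; ring
  have hKpos : (0:ℝ) < K := by rw [hKreal]; positivity
  have hxy : H.Adj x y := ⟨a, hs⟩
  have hyx : H.Adj y x := hxy.symm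
  have hpsymm : ∀ v w P P', PartnerF Y H K Pc pc v w P P' ↔ PartnerF Y H K Pc pc w v P' P := by
    rintro v w P P'
    constructor <;> · rintro ⟨z, h1, h2, h3, h4⟩; exact ⟨z, h2, h1, h4, h3⟩
  obtain ⟨σ, τ, hσ, hτ, hst, hsum⟩ := exists_signs (PartnerF Y H K Pc pc x y)
    (huA x y hxy)
    (fun P₁ P₂ P' h₁ h₂ => huA y x hyx P' P₁ P₂ ((hpsymm _ _ _ _).1 h₁) ((hpsymm _ _ _ _).1 h₂))
    (massF Y H K Pc pc u x) (massF Y H K Pc pc u y)
  -- rewrite the left side as the sign sum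
  have hLHS : edgeA (fun v : H.V => Pc (H.lab v)) (PartnerF Y H K Pc pc) (massF Y H K Pc pc u) x y +
      edgeB (fun v : H.V => Pc (H.lab v)) (PartnerF Y H K Pc pc) (massF Y H K Pc pc u) x y +
      edgeB (fun v : H.V => Pc (H.lab v)) (PartnerF Y H K Pc pc) (massF Y H K Pc pc u) y x =
      ∑ b, τ b * massF Y H K Pc pc u y b - ∑ a, σ a * massF Y H K Pc pc u x a := by
    rw [hsum]
    unfold edgeA edgeB
    congr 1
    refine Finset.sum_congr rfl fun P' _ => ?_
    have : (∃ P, PartnerF Y H K Pc pc y x P' P) ↔ (∃ P, PartnerF Y H K Pc pc x y P P') := by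
      constructor
      · rintro ⟨P, h⟩; exact ⟨P, (hpsymm _ _ _ _).1 h⟩
      · rintro ⟨P, h⟩; exact ⟨P, (hpsymm _ _ _ _).1 h⟩
    simp only [this]
  rw [hLHS, ← sum_u_gTest (Y := Y) (K := K) (pc := pc) u y τ,
    ← sum_u_gTest (Y := Y) (K := K) (pc := pc) u x σ]
  set gx := gTest Y K Pc pc (H.lab x) σ with hgx
  set gy := gTest Y K Pc pc (H.lab y) τ with hgy
  have hKr : 1 / (K:ℝ) ≤ 2 / r := by
    rw [hKreal, div_le_div_iff₀ (by positivity) hrpos]
    nlinarith
  have ht1 : IsTest Y anc r (2 / r) gy := gTest_isTest hg hrpos hKr hpc anc _ τ hτ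
  have e1 := h1 x a y hs (2 / r) gy (by positivity) ht1
  -- the difference
  set hh : Y.V → ℝ := fun z => gy z - gx z with hhh
  have hsup : ∀ z, |hh z| ≤ 1 / K := fun z =>
    abs_diff_le hg x y a hs σ τ hσ hτ hst z
  have ht2 : IsTest Y anc r (2 * (1 / K)) hh := isTest_of_sup hr1 (by positivity) hsup
  have e2 := h2a x (2 * (1 / K)) hh (by positivity) ht2
  have e3 := hsup (anc (H.lab x))
  have hsplit : ∑ z, u y z * gy z - ∑ z, u x z * gx z =
      ∑ z, (u y z - u x z) * gy z + ∑ z, u x z * hh z := by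
    rw [← Finset.sum_sub_distrib, ← Finset.sum_add_distrib]
    refine Finset.sum_congr rfl fun z _ => ?_
    simp only [hhh]
    ring
  rw [hsplit]
  have e4 := (abs_le.mp e1).2
  have e5 := (abs_le.mp e2).2
  have e6 := (abs_le.mp e3).2
  -- numerics
  have hval : 2 * (1 / (K:ℝ)) * L * r = 2 * L / r := by
    rw [hKreal]; field_simp
  have hval2 : 1 / (K:ℝ) ≤ L / r := by
    rw [hKreal, div_le_div_iff₀ (by positivity) hrpos]
    nlinarith
  have hval3 : (2 / (r:ℝ)) * L = 2 * L / r := by ring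
  have hval4 : 5 * L / r = 2 * L / r + 2 * L / r + L / r := by ring
  rw [hval4]
  rw [hval3] at e4
  rw [hval] at e5
  linarith

/-- **Mass estimate.** -/
theorem mass_estimate (r : ℕ) (hr : 1 ≤ r) (hK : K = r ^ 2) (hg : Girth θ0 (2 * K + 2))
    (L : ℝ) (hL100 : 100 * L ≤ r) (hL : 0 ≤ L) (u : H.V → Y.V → ℝ)
    (h2b : ∀ x c (φ : G0 → ℝ), 0 ≤ c → (∀ q a, |φ (q * θ0 (Letter.toFree a)) - φ q| ≤ c) →
      (∀ q, |φ q| ≤ c * K) → |∑ z, u x z * φ (Y.lab z) - φ (H.lab x)| ≤ c * L * r)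
    (x : H.V) :
    (99 / 100 : ℝ) ≤ ∑ P, massF Y H K Pc pc u x P := by
  have hrpos : (0:ℝ) < r := by exact_mod_cast hr
  have hKreal : (K:ℝ) = (r:ℝ) ^ 2 := by rw [hK]; push_cast; ring
  have hKpos : (0:ℝ) < K := by rw [hKreal]; positivity
  have hKnat : 0 < K := by exact_mod_cast hKpos
  rw [sum_massF]
  have := h2b x (1 / K) (bL θ0 K (H.lab x)) (by positivity)
    (fun q a => bL_step hg _ _ _)
    (fun q => by
      rw [one_div, inv_mul_cancel₀ hKpos.ne']
      exact abs_bL_le_one _ _)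
  rw [bL_self hg hKnat] at this
  have h3 := (abs_le.mp this).1
  have h4 : 1 / (K:ℝ) * L * r = L / r := by
    rw [hKreal]; field_simp
  rw [h4] at h3
  have h5 : L / r ≤ 1 / 100 := by
    rw [div_le_div_iff₀ hrpos (by norm_num)]
    linarith
  linarith

/-- The base adjacency of `H` has degree `H.deg`. -/
lemma degX_eq_deg (hg : Girth θ0 (2 * K + 2)) (x : H.V) :
    degX H.Adj x = H.deg x := by
  unfold degX LabGraph.deg
  symm
  refine Finset.card_bij (fun a ha => (H.step x a).get (by simpa using ha)) ?_ ?_ ?_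
  · intro a ha
    simp only [mem_filter, mem_univ, true_and]
    exact ⟨a, by simp⟩
  · intro a ha b hb hab
    have ha' : (H.step x a).isSome := by simpa using ha
    have hb' : (H.step x b).isSome := by simpa using hb
    have e1 : H.step x a = some ((H.step x a).get ha') := by simp
    have e2 : H.step x b = some ((H.step x a).get ha') := by
      rw [hab]; simp
    have l1 := H.step_lab _ _ _ e1
    have l2 := H.step_lab _ _ _ e2
    rw [l1] at l2
    have l3 : θ0 a.toFree = θ0 b.toFree := mul_left_cancel l2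
    have l4 : a.toFree = b.toFree := by
      refine FreeLipBAP.FreeWord.eq_of_map_eq θ0 (2 * K + 2) hg ?_ l3
      have na : a.toFree.norm ≤ 1 := by
        simpa [Letter.toFree] using FreeGroup.norm_mk_le (L₁ := [a])
      have nb : b.toFree.norm ≤ 1 := by
        simpa [Letter.toFree] using FreeGroup.norm_mk_le (L₁ := [b])
      omega
    have l5 := congrArg FreeGroup.toWord l4
    simpa [Letter.toFree, FreeLipBAP.FreeWord.toWord_mk_singleton] using l5
  · intro y hy
    simp only [mem_filter, mem_univ, true_and] at hy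
    obtain ⟨a, ha⟩ := hy
    refine ⟨a, ?_, ?_⟩
    · simp [ha]
    · simp [ha]

/-- `H` has no loops. -/
lemma adj_irrefl (hg : Girth θ0 (2 * K + 2)) (x : H.V) : ¬ H.Adj x x := by
  rintro ⟨a, ha⟩
  have l := H.step_lab _ _ _ ha
  have h1 : θ0 a.toFree = 1 := by
    have : H.lab x * θ0 a.toFree = H.lab x * 1 := by rw [← l, mul_one]
    exact mul_left_cancel this
  have hne : a.toFree ≠ 1 := by
    intro h
    have := congrArg FreeGroup.toWord h
    simp [Letter.toFree, FreeLipBAP.FreeWord.toWord_mk_singleton] at this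
  have na : a.toFree.norm ≤ 1 := by
    simpa [Letter.toFree] using FreeGroup.norm_mk_le (L₁ := [a])
  exact hg _ hne (by omega) h1

/-- **Finish of the core theorem**, given the fibre combinatorics (pieces, partner uniqueness,
forest property). -/
theorem finish_core (r : ℕ) (hK : K = r ^ 2) (hg : Girth θ0 (2 * K + 2))
    (anc : G0 → Y.V)
    (hpc : ∀ q z a z', Y.step z a = some z' → InBallG θ0 K q (Y.lab z) →
      InBallG θ0 K q (Y.lab z') → pc q z = pc q z')
    (huA : ∀ x y, H.Adj x y → ∀ P P₁ P₂, PartnerF Y H K Pc pc x y P P₁ →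
      PartnerF Y H K Pc pc x y P P₂ → P₁ = P₂)
    (hforest : ∀ S : Finset (Σ x : H.V, Pc (H.lab x)), S.Nonempty →
      ∃ v ∈ S, (S.filter (fibAdj H.Adj (fun v : H.V => Pc (H.lab v)) (PartnerF Y H K Pc pc) v)).card ≤ 1)
    [Nonempty H.V] (hdeg : ∀ x, 2 ≤ H.deg x)
    (hcount : 17 * (Fintype.card H.V : ℝ) ≤ 5 * ∑ x, (H.deg x : ℝ))
    (L : ℝ) (hL : 1 ≤ L) (hL100 : 100 * L ≤ r) (u : H.V → Y.V → ℝ)
    (h1 : ∀ x a y, H.step x a = some y → ∀ c g, 0 ≤ c → IsTest Y anc r c g →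
      |∑ z, (u y z - u x z) * g z| ≤ c * L)
    (h2a : ∀ x c g, 0 ≤ c → IsTest Y anc r c g →
      |∑ z, u x z * g z - g (anc (H.lab x))| ≤ c * L * r)
    (h2b : ∀ x c (φ : G0 → ℝ), 0 ≤ c → (∀ q a, |φ (q * θ0 (Letter.toFree a)) - φ q| ≤ c) →
      (∀ q, |φ q| ≤ c * K) → |∑ z, u x z * φ (Y.lab z) - φ (H.lab x)| ≤ c * L * r) :
    False := by
  have hrreal : (100:ℝ) ≤ r := by linarith
  have hr : 1 ≤ r := by
    have : (1:ℝ) ≤ r := by linarith
    exact_mod_cast this
  have hdegX : ∀ x, degX H.Adj x = H.deg x := degX_eq_deg hg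
  have hη : 5 * L / (r:ℝ) ≤ 1 / 20 := by
    rw [div_le_div_iff₀ (by linarith) (by norm_num)]
    linarith
  have hE := fibre_euler (Pc := fun v : H.V => Pc (H.lab v)) (part := PartnerF Y H K Pc pc)
    (massF Y H K Pc pc u) (adjX := H.Adj) (fun _ _ h => h.symm) (adj_irrefl hg)
    (fun v w P P' => by
      constructor <;> · rintro ⟨z, h1, h2, h3, h4⟩; exact ⟨z, h2, h1, h4, h3⟩)
    huA hforest (fun x => by rw [hdegX]; exact hdeg x) (5 * L / r)
    (fun x y hxy => by
      obtain ⟨a, ha⟩ := hxy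
      exact edge_estimate r hr hK hg anc hpc huA L hL u h1 h2a x a y ha)
  exact fibre_numeric (adjX := H.Adj) (Pc := fun v : H.V => Pc (H.lab v)) (massF Y H K Pc pc u)
    (fun x => by rw [hdegX]; exact hdeg x)
    (by simp_rw [hdegX]; exact hcount)
    (fun x => mass_estimate r hr hK hg L hL100 (by linarith) u h2b x)
    (5 * L / r) hη hE

end

end Crest.Agent.FreeLipBAP
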