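import Mathlib
import Crest.Prelude.Def_LipschitzFree

/-!
# Functional-analytic interface for free spaces (row 115, S0154)

Generic facts about `Crest.AnalysisR.PointedMetric.FreeSpace`, with no graph theory:

* `delta`, pairing computations, the Lipschitz bound `abs_pairing_le_of_lip`,
  `norm_delta_sub_le`, `norm_le_of_lip1`;
* restriction of molecules `restrict Q` and the extension of bounded operators on molecules to the
  completion, `extOp`;
* `hasAP_of_wedge`: the abstract form of step (3) of the plan (finding #770);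
* `bap_extract`, `not_hasBAP_of`: what a bounded approximation gives on a bounded family of points.
-/

set_option autoImplicit false

namespace Crest.Agent.Lib.FreeLipBAP

open Crest.AnalysisR Crest.AnalysisR.PointedMetric
open scoped Classical

attribute [local instance] PointedMetric.metric

variable (P : PointedMetric)

/-- The point mass at `x`, as a molecule. -/
noncomputable def delta (x : P.M) : P.Mol := (Finsupp.single x (1 : ℝ) : P.M →₀ ℝ)

lemma norm_mol_def (a : P.Mol) : ‖a‖ = P.freeNorm a := rfl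

lemma pairing_eq_sum (a : P.Mol) (f : P.M → ℝ) :
    P.pairing a f = ∑ x ∈ (P.coeffs a).support, (P.coeffs a) x * f x := rfl

@[simp] lemma pairing_delta (x : P.M) (f : P.M → ℝ) : P.pairing (delta P x) f = f x := by
  unfold PointedMetric.pairing
  change ((Finsupp.single x (1 : ℝ) : P.M →₀ ℝ).sum fun y r => r * f y) = f x
  rw [Finsupp.sum_single_index (by simp)]
  simp

lemma pairing_sub (a b : P.Mol) (f : P.M → ℝ) :
    P.pairing (a - b) f = P.pairing a f - P.pairing b f := by
  rw [sub_eq_add_neg, P.pairing_add, P.pairing_neg]; ring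

lemma pairing_fun_add (a : P.Mol) (f g : P.M → ℝ) :
    P.pairing a (f + g) = P.pairing a f + P.pairing a g := by
  simp only [pairing_eq_sum, Pi.add_apply, mul_add, Finset.sum_add_distrib]

lemma pairing_fun_smul (c : ℝ) (a : P.Mol) (f : P.M → ℝ) :
    P.pairing a (c • f) = c * P.pairing a f := by
  simp only [pairing_eq_sum, Pi.smul_apply, smul_eq_mul, Finset.mul_sum]
  exact Finset.sum_congr rfl fun _ _ => by ring

lemma pairing_fun_sub (a : P.Mol) (f g : P.M → ℝ) :
    P.pairing a (f - g) = P.pairing a f - P.pairing a g := by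
  simp only [pairing_eq_sum, Pi.sub_apply, mul_sub, Finset.sum_sub_distrib]

lemma pairing_fun_zero (a : P.Mol) : P.pairing a (fun _ => 0) = 0 := by
  simp [pairing_eq_sum]

lemma pairing_fun_sum {ι : Type*} (s : Finset ι) (a : P.Mol) (f : ι → P.M → ℝ) :
    P.pairing a (fun x => ∑ i ∈ s, f i x) = ∑ i ∈ s, P.pairing a (f i) := by
  simp only [pairing_eq_sum, Finset.mul_sum]
  exact Finset.sum_comm

/-- The pairing only sees the values of the function on the support of the molecule. -/
lemma pairing_congr (a : P.Mol) {f g : P.M → ℝ}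
    (h : ∀ x ∈ (P.coeffs a).support, f x = g x) : P.pairing a f = P.pairing a g :=
  Finset.sum_congr rfl fun x hx => by beta_reduce; rw [h x hx]

/-- The pairing is bounded by the Lipschitz constant times the free seminorm. -/
lemma abs_pairing_le_of_lip (a : P.Mol) {f : P.M → ℝ} {C : ℝ} (hC : 0 ≤ C)
    (hf0 : f P.base = 0) (hf : ∀ x y, |f x - f y| ≤ C * dist x y) :
    |P.pairing a f| ≤ C * ‖a‖ := by
  rcases hC.eq_or_lt with rfl | hCpos
  · have hz : ∀ x, f x = 0 := fun x => by
      have := hf x P.base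
      rw [hf0, sub_zero, zero_mul] at this
      exact abs_nonpos_iff.mp this
    have : f = fun _ => 0 := funext hz
    rw [this, pairing_fun_zero]; simp
  · have hg : LipschitzWith 1 (C⁻¹ • f) := by
      refine LipschitzWith.of_dist_le_mul fun x y => ?_
      simp only [Pi.smul_apply, smul_eq_mul, Real.dist_eq, NNReal.coe_one, one_mul]
      rw [← mul_sub, abs_mul, abs_of_pos (inv_pos.mpr hCpos)]
      calc C⁻¹ * |f x - f y| ≤ C⁻¹ * (C * dist x y) :=
            mul_le_mul_of_nonneg_left (hf x y) (inv_pos.mpr hCpos).le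
        _ = dist x y := by field_simp
    have hg0 : (C⁻¹ • f) P.base = 0 := by simp [hf0]
    have key : |P.pairing a (C⁻¹ • f)| ≤ ‖a‖ := by
      rw [norm_mol_def]
      exact le_ciSup (P.freeNorm_bddAbove a) (⟨C⁻¹ • f, hg, hg0⟩ : P.Lip1)
    rw [pairing_fun_smul, abs_mul, abs_of_pos (inv_pos.mpr hCpos)] at key
    calc |P.pairing a f| = C * (C⁻¹ * |P.pairing a f|) := by field_simp
      _ ≤ C * ‖a‖ := mul_le_mul_of_nonneg_left key hC

/-- To bound the free seminorm it suffices to test on `1`-Lipschitz functions vanishing at the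
base point. -/
lemma norm_le_of_lip1 (a : P.Mol) {B : ℝ}
    (h : ∀ f : P.M → ℝ, f P.base = 0 → (∀ x y, |f x - f y| ≤ dist x y) → |P.pairing a f| ≤ B) :
    ‖a‖ ≤ B := by
  rw [norm_mol_def]
  refine ciSup_le fun f => h f.1 f.2.2 fun x y => ?_
  have := f.2.1.dist_le_mul x y
  simpa [Real.dist_eq] using this

lemma norm_delta_sub_le (x y : P.M) : ‖delta P x - delta P y‖ ≤ dist x y := by
  refine norm_le_of_lip1 P _ fun f _ hf => ?_
  rw [pairing_sub, pairing_delta, pairing_delta]
  exact hf x y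

lemma norm_delta_le (x : P.M) : ‖delta P x‖ ≤ dist x P.base := by
  refine norm_le_of_lip1 P _ fun f hf0 hf => ?_
  rw [pairing_delta]
  simpa [hf0] using hf x P.base

/-! ### Restriction of molecules -/

/-- The restriction of a molecule to a set of points. -/
noncomputable def restrict (Q : Set P.M) : P.Mol →ₗ[ℝ] P.Mol where
  toFun a := (Finsupp.filter (· ∈ Q) (P.coeffs a) : P.M →₀ ℝ)
  map_add' a b := by
    change Finsupp.filter (· ∈ Q) (P.coeffs a + P.coeffs b) = _
    rw [Finsupp.filter_add]; rfl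
  map_smul' c a := by
    change Finsupp.filter (· ∈ Q) (c • P.coeffs a) = _
    rw [Finsupp.filter_smul]; rfl

lemma coeffs_restrict (Q : Set P.M) (a : P.Mol) :
    P.coeffs (restrict P Q a) = Finsupp.filter (· ∈ Q) (P.coeffs a) := rfl

lemma support_restrict_subset (Q : Set P.M) (a : P.Mol) (x : P.M)
    (hx : x ∈ (P.coeffs (restrict P Q a)).support) : x ∈ Q := by
  rw [coeffs_restrict, Finsupp.support_filter, Finset.mem_filter] at hx
  exact hx.2

lemma pairing_restrict (Q : Set P.M) (a : P.Mol) (f : P.M → ℝ) :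
    P.pairing (restrict P Q a) f = P.pairing a (Q.indicator f) := by
  rw [pairing_eq_sum, pairing_eq_sum, coeffs_restrict, Finsupp.support_filter, Finset.sum_filter]
  refine Finset.sum_congr rfl fun x _ => ?_
  by_cases hx : x ∈ Q
  · simp [hx, Finsupp.filter_apply_pos]
  · simp [hx]

lemma restrict_eq_self (Q : Set P.M) (a : P.Mol) (h : ∀ x ∈ (P.coeffs a).support, x ∈ Q) :
    restrict P Q a = a := by
  change Finsupp.filter (· ∈ Q) (P.coeffs a) = P.coeffs a
  exact Finsupp.filter_eq_self_iff _ _ |>.mpr fun x hx => by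
    by_contra hq
    exact hx (by
      by_contra hne
      exact hq (h x (Finsupp.mem_support_iff.mpr hne)))

/-- A bound for restriction: if `f ↦ f·1_Q` preserves Lipschitz functions up to `C`. -/
lemma norm_restrict_le (Q : Set P.M) {C : ℝ} (hC : 0 ≤ C)
    (h : ∀ f : P.M → ℝ, f P.base = 0 → (∀ x y, |f x - f y| ≤ dist x y) →
      ∀ x y, |Q.indicator f x - Q.indicator f y| ≤ C * dist x y) (a : P.Mol) :
    ‖restrict P Q a‖ ≤ C * ‖a‖ := by
  refine norm_le_of_lip1 P _ fun f hf0 hf => ?_
  rw [pairing_restrict]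
  refine abs_pairing_le_of_lip P a hC ?_ (h f hf0 hf)
  by_cases hb : P.base ∈ Q <;> simp [hb, hf0]

/-! ### Extension of operators to the completion -/

/-- The coercion of molecules into the free space, as a continuous linear map. -/
noncomputable abbrev toF : P.Mol →L[ℝ] P.FreeSpace := UniformSpace.Completion.toComplL

lemma toF_denseRange : DenseRange (toF P) := UniformSpace.Completion.denseRange_coe

lemma toF_unif : IsUniformInducing (toF P) := UniformSpace.Completion.isUniformInducing_coe _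

/-- The extension to the free space of a bounded linear operator on molecules. -/
noncomputable def extOp (S : P.Mol →ₗ[ℝ] P.Mol) (C : ℝ) (hS : ∀ a, ‖S a‖ ≤ C * ‖a‖) :
    P.FreeSpace →L[ℝ] P.FreeSpace :=
  ContinuousLinearMap.extend
    ((toF P).comp (LinearMap.mkContinuous S C hS)) (toF P)

@[simp] lemma extOp_coe (S : P.Mol →ₗ[ℝ] P.Mol) (C : ℝ) (hS : ∀ a, ‖S a‖ ≤ C * ‖a‖) (a : P.Mol) :
    extOp P S C hS (a : P.FreeSpace) = (S a : P.FreeSpace) := by
  have := ContinuousLinearMap.extend_eq ((toF P).comp (LinearMap.mkContinuous S C hS))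
    (toF_denseRange P) (toF_unif P) a
  simpa [extOp] using this

lemma norm_extOp_apply_le (S : P.Mol →ₗ[ℝ] P.Mol) (C : ℝ) (hS : ∀ a, ‖S a‖ ≤ C * ‖a‖)
    (x : P.FreeSpace) : ‖extOp P S C hS x‖ ≤ C * ‖x‖ := by
  induction x using UniformSpace.Completion.induction_on with
  | hp =>
    exact isClosed_le (by fun_prop) (by fun_prop)
  | ih a =>
    rw [extOp_coe, UniformSpace.Completion.norm_coe, UniformSpace.Completion.norm_coe]
    exact hS a

/-- If an operator on molecules has values in a finite-dimensional subspace after coercion, its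
extension has finite rank. -/
lemma finiteRank_extOp (S : P.Mol →ₗ[ℝ] P.Mol) (C : ℝ) (hS : ∀ a, ‖S a‖ ≤ C * ‖a‖)
    (W : Submodule ℝ P.FreeSpace) [FiniteDimensional ℝ W] (hW : ∀ a, (S a : P.FreeSpace) ∈ W) :
    FiniteDimensional ℝ (LinearMap.range (extOp P S C hS).toLinearMap) := by
  have hcl : IsClosed (W : Set P.FreeSpace) := Submodule.closed_of_finiteDimensional W
  have hle : LinearMap.range (extOp P S C hS).toLinearMap ≤ W := by
    rintro _ ⟨x, rfl⟩
    change extOp P S C hS x ∈ W
    induction x using UniformSpace.Completion.induction_on with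
    | hp => exact hcl.preimage (by fun_prop)
    | ih a => rw [extOp_coe]; exact hW a
  exact Submodule.finiteDimensional_of_le hle

/-- The span of finitely many point masses in the free space. -/
noncomputable def deltaSpan (S : Finset P.M) : Submodule ℝ P.FreeSpace :=
  Submodule.span ℝ ((fun x => ((delta P x : P.Mol) : P.FreeSpace)) '' (S : Set P.M))

instance (S : Finset P.M) : FiniteDimensional ℝ (deltaSpan P S) :=
  FiniteDimensional.span_of_finite ℝ (S.finite_toSet.image _)

/-- Every molecule is the finite sum of its coefficients times point masses. -/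
lemma mol_eq_sum (a : P.Mol) :
    a = ∑ x ∈ (P.coeffs a).support, (P.coeffs a) x • delta P x := by
  have h : (P.coeffs a) = ∑ x ∈ (P.coeffs a).support, Finsupp.single x ((P.coeffs a) x) :=
    (Finsupp.sum_single (P.coeffs a)).symm
  conv_lhs => rw [show a = P.coeffs a from rfl, h]
  refine Finset.sum_congr rfl fun x _ => ?_
  change Finsupp.single x _ = (P.coeffs a) x • Finsupp.single x (1 : ℝ)
  simp

/-- A molecule supported in `S` lies in the span of the point masses of `S`. -/
lemma coe_mem_deltaSpan (S : Finset P.M) (a : P.Mol) (h : ∀ x ∈ (P.coeffs a).support, x ∈ S) :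
    (a : P.FreeSpace) ∈ deltaSpan P S := by
  have e : (a : P.FreeSpace) = toF P a := rfl
  rw [e, mol_eq_sum P a, map_sum]
  refine Submodule.sum_mem _ fun x hx => ?_
  rw [map_smul]
  exact Submodule.smul_mem _ _ (Submodule.subset_span ⟨x, by exact_mod_cast h x hx, rfl⟩)

/-! ### Nets by molecules -/

/-- A compact subset of the free space has a finite `ε`-net of molecules. -/
lemma exists_mol_net {K : Set P.FreeSpace} (hK : IsCompact K) {ε : ℝ} (hε : 0 < ε) :
    ∃ N : Finset P.Mol, ∀ x ∈ K, ∃ m ∈ N, ‖x - (m : P.FreeSpace)‖ ≤ ε := by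
  obtain ⟨t, -, htf, hcov⟩ := hK.finite_cover_balls (half_pos hε)
  have hm : ∀ c : P.FreeSpace, ∃ m : P.Mol, ‖c - (m : P.FreeSpace)‖ < ε / 2 := fun c => by
    obtain ⟨m, hm⟩ := (toF_denseRange P).exists_dist_lt c (half_pos hε)
    refine ⟨m, ?_⟩
    rw [← dist_eq_norm]
    exact hm
  choose mm hmm using hm
  refine ⟨htf.toFinset.image mm, fun x hx => ?_⟩
  obtain ⟨c, hc, hxc⟩ := Set.mem_iUnion₂.mp (hcov hx)
  refine ⟨mm c, Finset.mem_image.mpr ⟨c, htf.mem_toFinset.mpr hc, rfl⟩, ?_⟩
  have h1 : ‖x - c‖ < ε / 2 := by simpa [dist_eq_norm] using hxc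
  have h2 := hmm c
  calc ‖x - (mm c : P.FreeSpace)‖ = ‖(x - c) + (c - (mm c : P.FreeSpace))‖ := by abel_nf
    _ ≤ ‖x - c‖ + ‖c - (mm c : P.FreeSpace)‖ := norm_add_le _ _
    _ ≤ ε := by linarith

/-! ### The approximation property of wedges -/

variable {P}

/-- Abstract form of step (3) of the plan: a `1`-separated pointed metric space which is a wedge
of (possibly unbounded in number) parts, each finite union of parts being bounded, has the
approximation property in its free space. -/
theorem hasAP_of_wedge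
    (hsep : ∀ x y : P.M, x ≠ y → 1 ≤ dist x y)
    (part : P.M → ℕ)
    (hcross : ∀ x y : P.M, part x ≠ part y → dist x P.base ≤ dist x y)
    (hbdd : ∀ n : ℕ, ∃ R : ℝ, ∀ x : P.M, part x ≤ n → dist x P.base ≤ R) :
    HasAP P.FreeSpace := by
  intro K hK ε hε
  -- operators
  let Qn : ℕ → Set P.M := fun n => {x | part x ≤ n}
  have hQn : ∀ n f, f P.base = 0 → (∀ x y, |f x - f y| ≤ dist x y) →
      ∀ x y, |(Qn n).indicator f x - (Qn n).indicator f y| ≤ 1 * dist x y := by
    intro n f hf0 hf x y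
    rw [one_mul]
    have hbase : ∀ z, |f z| ≤ dist z P.base := fun z => by simpa [hf0] using hf z P.base
    by_cases hx : x ∈ Qn n <;> by_cases hy : y ∈ Qn n
    · simpa [hx, hy] using hf x y
    · have hne : part x ≠ part y := fun h => hy (by
        change part y ≤ n; rw [← h]; exact hx)
      simp only [Set.indicator_of_mem hx, Set.indicator_of_notMem hy, sub_zero]
      exact (hbase x).trans (hcross x y hne)
    · have hne : part y ≠ part x := fun h => hx (by
        change part x ≤ n; rw [← h]; exact hy)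
      simp only [Set.indicator_of_mem hy, Set.indicator_of_notMem hx, zero_sub, abs_neg]
      rw [dist_comm]
      exact (hbase y).trans (hcross y x hne)
    · simp [hx, hy]
  have hPsi : ∀ n a, ‖restrict P (Qn n) a‖ ≤ 1 * ‖a‖ := fun n a =>
    norm_restrict_le P (Qn n) zero_le_one (hQn n) a
  -- first net, fixing the level n
  obtain ⟨N₁, hN₁⟩ := exists_mol_net P hK (show (0:ℝ) < ε / 4 by linarith)
  obtain ⟨n, hn⟩ : ∃ n : ℕ, ∀ m ∈ N₁, ∀ x ∈ (P.coeffs m).support, x ∈ Qn n := by
    refine ⟨(N₁.biUnion fun m => (P.coeffs m).support).sup part, fun m hm x hx => ?_⟩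
    change part x ≤ _
    exact Finset.le_sup (f := part) (Finset.mem_biUnion.mpr ⟨m, hm, hx⟩)
  obtain ⟨R, hR⟩ := hbdd n
  -- the bound for restriction to a finite set inside `Qn n`
  let C : ℝ := max 1 R
  have hC1 : 1 ≤ C := le_max_left _ _
  have hC0 : 0 ≤ C := by linarith
  have hQS : ∀ S : Set P.M, (∀ x ∈ S, x ∈ Qn n) → ∀ f, f P.base = 0 →
      (∀ x y, |f x - f y| ≤ dist x y) →
      ∀ x y, |S.indicator f x - S.indicator f y| ≤ C * dist x y := by
    intro S hS f hf0 hf x y
    have hbase : ∀ z, z ∈ S → |f z| ≤ C := fun z hz => by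
      have h1 : |f z| ≤ dist z P.base := by simpa [hf0] using hf z P.base
      exact h1.trans ((hR z (hS z hz)).trans (le_max_right _ _))
    by_cases hxy : x = y
    · subst hxy; simp
    have hd := hsep x y hxy
    by_cases hx : x ∈ S <;> by_cases hy : y ∈ S
    · simp only [Set.indicator_of_mem hx, Set.indicator_of_mem hy]
      calc |f x - f y| ≤ dist x y := hf x y
        _ ≤ C * dist x y := by nlinarith [dist_nonneg (x := x) (y := y)]
    · simp only [Set.indicator_of_mem hx, Set.indicator_of_notMem hy, sub_zero]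
      calc |f x| ≤ C := hbase x hx
        _ ≤ C * dist x y := by nlinarith
    · simp only [Set.indicator_of_mem hy, Set.indicator_of_notMem hx, zero_sub, abs_neg]
      calc |f y| ≤ C := hbase y hy
        _ ≤ C * dist x y := by nlinarith
    · simp only [Set.indicator_of_notMem hx, Set.indicator_of_notMem hy, sub_zero, abs_zero]
      exact mul_nonneg hC0 dist_nonneg
  -- second net, at the scale allowed by `C`
  have hε' : (0:ℝ) < ε / (4 * (C + 1)) := by positivity
  obtain ⟨N₂, hN₂⟩ := exists_mol_net P hK hε'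
  let S : Finset P.M := N₂.biUnion fun m => (P.coeffs (restrict P (Qn n) m)).support
  have hSQ : ∀ x ∈ (S : Set P.M), x ∈ Qn n := by
    intro x hx
    obtain ⟨m, -, hxm⟩ := Finset.mem_biUnion.mp (Finset.mem_coe.mp hx)
    exact support_restrict_subset P _ m x hxm
  have hTS : ∀ a, ‖restrict P (S : Set P.M) a‖ ≤ C * ‖a‖ :=
    fun a => norm_restrict_le P _ hC0 (hQS _ hSQ) a
  -- the operator on molecules
  let T₀ : P.Mol →ₗ[ℝ] P.Mol := (restrict P (S : Set P.M)).comp (restrict P (Qn n))
  have hT₀ : ∀ a, ‖T₀ a‖ ≤ C * ‖a‖ := fun a => by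
    calc ‖T₀ a‖ ≤ C * ‖restrict P (Qn n) a‖ := hTS _
      _ ≤ C * (1 * ‖a‖) := mul_le_mul_of_nonneg_left (hPsi n a) hC0
      _ = C * ‖a‖ := by ring
  let Ψ := extOp P (restrict P (Qn n)) 1 (hPsi n)
  let TS := extOp P (restrict P (S : Set P.M)) C hTS
  let T := TS.comp Ψ
  refine ⟨T, ?_, ?_⟩
  · -- finite rank
    have hW : ∀ a, ((T₀ a : P.Mol) : P.FreeSpace) ∈ deltaSpan P S := fun a =>
      coe_mem_deltaSpan P S _ fun x hx => by
        exact_mod_cast support_restrict_subset P _ _ x hx
    have hfr := finiteRank_extOp P T₀ C hT₀ (deltaSpan P S) hW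
    have hTeq : T = extOp P T₀ C hT₀ := by
      refine ContinuousLinearMap.ext fun x => ?_
      induction x using UniformSpace.Completion.induction_on with
      | hp => exact isClosed_eq (by fun_prop) (by fun_prop)
      | ih a =>
        simp only [T, Ψ, TS, ContinuousLinearMap.comp_apply, extOp_coe]
        rfl
    rw [hTeq]
    exact hfr
  · intro x hx
    have hΨ : ∀ y : P.FreeSpace, ‖Ψ y‖ ≤ 1 * ‖y‖ := norm_extOp_apply_le P _ 1 (hPsi n)
    have hTSb : ∀ y : P.FreeSpace, ‖TS y‖ ≤ C * ‖y‖ := norm_extOp_apply_le P _ C hTS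
    -- Ψ x is close to x
    obtain ⟨m, hm, hxm⟩ := hN₁ x hx
    have h1 : ‖Ψ x - x‖ ≤ ε / 2 := by
      have hΨm : Ψ (m : P.FreeSpace) = (m : P.FreeSpace) := by
        simp only [Ψ, extOp_coe]
        rw [restrict_eq_self P _ m (hn m hm)]
      have : Ψ x - x = Ψ (x - m) - (x - m) := by
        rw [map_sub, hΨm]; abel
      rw [this]
      calc ‖Ψ (x - m) - (x - m)‖ ≤ ‖Ψ (x - m)‖ + ‖x - (m : P.FreeSpace)‖ := norm_sub_le _ _
        _ ≤ 1 * ‖x - (m : P.FreeSpace)‖ + ‖x - (m : P.FreeSpace)‖ := by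
            gcongr; exact hΨ _
        _ ≤ ε / 2 := by linarith
    -- TS fixes Ψ m' and moves Ψ x a little
    obtain ⟨m', hm', hxm'⟩ := hN₂ x hx
    have h2 : ‖TS (Ψ x) - Ψ x‖ ≤ ε / 2 := by
      have hfix : TS (Ψ (m' : P.FreeSpace)) = Ψ (m' : P.FreeSpace) := by
        simp only [Ψ, TS, extOp_coe]
        rw [restrict_eq_self P _ (restrict P (Qn n) m')]
        intro z hz
        exact_mod_cast Finset.mem_biUnion.mpr ⟨m', hm', hz⟩
      have hy : ‖Ψ x - Ψ (m' : P.FreeSpace)‖ ≤ ε / (4 * (C + 1)) := by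
        rw [← map_sub]
        calc ‖Ψ (x - m')‖ ≤ 1 * ‖x - (m' : P.FreeSpace)‖ := hΨ _
          _ ≤ ε / (4 * (C + 1)) := by linarith
      have : TS (Ψ x) - Ψ x = TS (Ψ x - Ψ m') - (Ψ x - Ψ m') := by
        rw [map_sub, hfix]; abel
      rw [this]
      calc ‖TS (Ψ x - Ψ m') - (Ψ x - Ψ m')‖
          ≤ ‖TS (Ψ x - Ψ m')‖ + ‖Ψ x - Ψ (m' : P.FreeSpace)‖ := norm_sub_le _ _
        _ ≤ C * ‖Ψ x - Ψ (m' : P.FreeSpace)‖ + ‖Ψ x - Ψ (m' : P.FreeSpace)‖ := by
            gcongr; exact hTSb _
        _ = (C + 1) * ‖Ψ x - Ψ (m' : P.FreeSpace)‖ := by ring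
        _ ≤ (C + 1) * (ε / (4 * (C + 1))) := by gcongr
        _ = ε / 4 := by field_simp
        _ ≤ ε / 2 := by linarith
    change ‖TS (Ψ x) - x‖ ≤ ε
    calc ‖TS (Ψ x) - x‖ = ‖(TS (Ψ x) - Ψ x) + (Ψ x - x)‖ := by abel_nf
      _ ≤ ‖TS (Ψ x) - Ψ x‖ + ‖Ψ x - x‖ := norm_add_le _ _
      _ ≤ ε := by linarith

/-! ### What a bounded approximation gives -/

/-- A bounded family in the range of a finite-rank operator can be replaced by molecules with a
common finite support. -/
theorem bap_extract (hBAP : HasBAP P.FreeSpace) :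
    ∃ lam : ℝ, 0 ≤ lam ∧ ∀ (A : Finset P.M) (M0 : Set P.M) (R : ℝ),
      (∀ x ∈ M0, dist x P.base ≤ R) →
      ∃ (C : Finset P.M) (u : P.M → P.Mol),
        (∀ x ∈ M0, ∀ z ∈ (P.coeffs (u x)).support, z ∈ C) ∧
        (∀ x ∈ M0, ∀ y ∈ M0, ‖u x - u y‖ ≤ lam * dist x y + 1) ∧
        (∀ a ∈ A, a ∈ M0 → ‖u a - delta P a‖ ≤ 1) := by
  obtain ⟨lam, hlam⟩ := hBAP
  have hlam0 : 0 ≤ lam := by
    obtain ⟨T, -, hT, -⟩ := hlam ∅ isCompact_empty 1 one_pos
    exact (norm_nonneg _).trans hT
  refine ⟨lam, hlam0, fun A M0 R hR => ?_⟩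
  -- the anchors
  let Kset : Set P.FreeSpace := (fun a => ((delta P a : P.Mol) : P.FreeSpace)) '' (A : Set P.M)
  have hKset : IsCompact Kset := (A.finite_toSet.image _).isCompact
  obtain ⟨T, hTfr, hTn, hTK⟩ := hlam Kset hKset (1 / 2) (by norm_num)
  -- the relevant compact set in the range of T
  let δ' : P.M → P.FreeSpace := fun x => ((delta P x : P.Mol) : P.FreeSpace)
  have hδn : ∀ x, ‖δ' x‖ ≤ dist x P.base := fun x => by
    simp only [δ', UniformSpace.Completion.norm_coe]
    exact norm_delta_le P x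
  let W : Submodule ℝ P.FreeSpace := LinearMap.range T.toLinearMap
  have : FiniteDimensional ℝ W := hTfr
  let B : Set W := {w | ‖w‖ ≤ lam * |R|}
  have hBc : IsCompact B := by
    have : B = Metric.closedBall (0 : W) (lam * |R|) := by
      ext w; simp [B]
    rw [this]
    exact isCompact_closedBall _ _
  have hBim : IsCompact ((fun w : W => (w : P.FreeSpace)) '' B) :=
    hBc.image continuous_subtype_val
  obtain ⟨N, hN⟩ := exists_mol_net P hBim (show (0:ℝ) < 1 / 2 by norm_num)
  have hmem : ∀ x ∈ M0, T (δ' x) ∈ (fun w : W => (w : P.FreeSpace)) '' B := fun x hx => by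
    refine ⟨⟨T (δ' x), ⟨δ' x, rfl⟩⟩, ?_, rfl⟩
    change ‖T (δ' x)‖ ≤ _
    calc ‖T (δ' x)‖ ≤ ‖T‖ * ‖δ' x‖ := T.le_opNorm _
      _ ≤ lam * |R| := by
          have h1 : ‖δ' x‖ ≤ |R| := (hδn x).trans ((hR x hx).trans (le_abs_self _))
          exact mul_le_mul hTn h1 (norm_nonneg _) hlam0
  have hpick : ∀ x, ∃ m : P.Mol, x ∈ M0 → m ∈ N ∧ ‖T (δ' x) - (m : P.FreeSpace)‖ ≤ 1 / 2 := by
    intro x
    by_cases hx : x ∈ M0
    · obtain ⟨m, hm, h⟩ := hN _ (hmem x hx)
      exact ⟨m, fun _ => ⟨hm, h⟩⟩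
    · exact ⟨0, fun h => absurd h hx⟩
  choose u hu using hpick
  refine ⟨N.biUnion fun m => (P.coeffs m).support, u, ?_, ?_, ?_⟩
  · intro x hx z hz
    exact Finset.mem_biUnion.mpr ⟨u x, (hu x hx).1, hz⟩
  · intro x hx y hy
    have h1 := (hu x hx).2
    have h2 := (hu y hy).2
    have h3 : ‖T (δ' x) - T (δ' y)‖ ≤ lam * dist x y := by
      rw [← map_sub]
      calc ‖T (δ' x - δ' y)‖ ≤ ‖T‖ * ‖δ' x - δ' y‖ := T.le_opNorm _
        _ ≤ lam * dist x y := by
          refine mul_le_mul hTn ?_ (norm_nonneg _) hlam0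
          have : δ' x - δ' y = ((delta P x - delta P y : P.Mol) : P.FreeSpace) := by
            simp [δ', UniformSpace.Completion.coe_sub]
          rw [this, UniformSpace.Completion.norm_coe]
          exact norm_delta_sub_le P x y
    have : ‖u x - u y‖ = ‖((u x : P.Mol) : P.FreeSpace) - (u y : P.Mol)‖ := by
      rw [← UniformSpace.Completion.coe_sub, UniformSpace.Completion.norm_coe]
    rw [this]
    calc ‖((u x : P.Mol) : P.FreeSpace) - (u y : P.Mol)‖
        = ‖(T (δ' x) - T (δ' y)) - (T (δ' x) - (u x : P.FreeSpace)) +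
            (T (δ' y) - (u y : P.FreeSpace))‖ := by abel_nf
      _ ≤ ‖T (δ' x) - T (δ' y)‖ + ‖T (δ' x) - (u x : P.FreeSpace)‖ +
            ‖T (δ' y) - (u y : P.FreeSpace)‖ :=
            (norm_add_le _ _).trans (add_le_add (norm_sub_le _ _) le_rfl)
      _ ≤ lam * dist x y + 1 := by linarith
  · intro a ha haM
    have h1 := (hu a haM).2
    have h2 : ‖T (δ' a) - δ' a‖ ≤ 1 / 2 := hTK _ ⟨a, by exact_mod_cast ha, rfl⟩
    have : ‖u a - delta P a‖ = ‖((u a : P.Mol) : P.FreeSpace) - δ' a‖ := by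
      rw [← UniformSpace.Completion.norm_coe (u a - delta P a), UniformSpace.Completion.coe_sub]
    rw [this]
    calc ‖((u a : P.Mol) : P.FreeSpace) - δ' a‖
        = ‖(T (δ' a) - δ' a) - (T (δ' a) - (u a : P.FreeSpace))‖ := by abel_nf
      _ ≤ ‖T (δ' a) - δ' a‖ + ‖T (δ' a) - (u a : P.FreeSpace)‖ := norm_sub_le _ _
      _ ≤ 1 := by linarith

/-- The contrapositive form of `bap_extract`, in the form used for the final theorem: to refute
the bounded approximation property, for every `lam` produce a finite anchor set and a bounded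
family for which no family of finitely supported molecules can exist. -/
theorem not_hasBAP_of
    (h : ∀ lam : ℝ, 0 ≤ lam → ∃ (A : Finset P.M) (M0 : Set P.M) (R : ℝ),
      (∀ x ∈ M0, dist x P.base ≤ R) ∧
      ∀ (C : Finset P.M) (u : P.M → P.Mol),
        (∀ x ∈ M0, ∀ z ∈ (P.coeffs (u x)).support, z ∈ C) →
        (∀ x ∈ M0, ∀ y ∈ M0, ‖u x - u y‖ ≤ lam * dist x y + 1) →
        (∀ a ∈ A, a ∈ M0 → ‖u a - delta P a‖ ≤ 1) → False) :
    ¬ HasBAP P.FreeSpace := by
  intro hBAP
  obtain ⟨lam, hlam0, hlam⟩ := bap_extract hBAP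
  obtain ⟨A, M0, R, hR, hno⟩ := h lam hlam0
  obtain ⟨C, u, h1, h2, h3⟩ := hlam A M0 R hR
  exact hno C u h1 h2 h3

end Crest.Agent.Lib.FreeLipBAP
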