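import Mathlib
import Crest.Prelude.Def_LipschitzFree

/-!
# Metric of a weighted graph (row 115, S0154; module `WMetric`)

Generic construction: a connected graph on `V` with symmetric edge weights `≥ 1` gives a metric on
`V` (minimal weight of chains).  The only facts needed downstream are

* `d_le_w`: `d u v ≤ w u v` on edges;
* `one_le_d`: `1 ≤ d u v` for `u ≠ v`;
* `abs_sub_le_of_edges` / `lipschitz_of_edges`: a function which is `L`-Lipschitz on edges
  (relative to the weights) is `L`-Lipschitz for the metric;
* `toPointed`: the packaging as `Crest.AnalysisR.PointedMetric`.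
-/

namespace Crest.Agent.Lib.FreeLipBAP

open scoped NNReal

/-- A connected graph with symmetric weights `≥ 1`. -/
structure WGraph (V : Type) where
  /-- adjacency -/
  adj : V → V → Prop
  /-- weights (only used on edges) -/
  w : V → V → ℝ
  adj_symm : ∀ {u v}, adj u v → adj v u
  w_symm : ∀ {u v}, adj u v → w u v = w v u
  one_le_w : ∀ {u v}, adj u v → 1 ≤ w u v
  conn : ∀ u v, Relation.ReflTransGen adj u v

namespace WGraph

variable {V : Type} (G : WGraph V)

/-- `HasChain u v d`: there is a chain from `u` to `v` of total weight `d`. -/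
inductive HasChain : V → V → ℝ → Prop
  | refl (u : V) : HasChain u u 0
  | step {u v x : V} {d : ℝ} : G.adj u v → HasChain v x d → HasChain u x (G.w u v + d)

variable {G}

lemma HasChain.nonneg {u v : V} {d : ℝ} (h : G.HasChain u v d) : 0 ≤ d := by
  induction h with
  | refl _ => exact le_rfl
  | step ha _ ih => have := G.one_le_w ha; linarith

lemma HasChain.trans {u v x : V} {d e : ℝ} (h : G.HasChain u v d) (h' : G.HasChain v x e) :
    G.HasChain u x (d + e) := by
  induction h with
  | refl _ => simpa using h'
  | step ha _ ih =>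
    rw [add_assoc]
    exact HasChain.step ha (ih h')

lemma HasChain.symm {u v : V} {d : ℝ} (h : G.HasChain u v d) : G.HasChain v u d := by
  induction h with
  | refl u => exact HasChain.refl u
  | @step a b c e ha _ ih =>
    have h2 : G.HasChain b a (G.w a b) := by
      have := HasChain.step (G := G) (G.adj_symm ha) (HasChain.refl a)
      rwa [add_zero, ← G.w_symm ha] at this
    have := ih.trans h2
    rwa [add_comm] at this

lemma HasChain.one_le {u v : V} {d : ℝ} (h : G.HasChain u v d) (hne : u ≠ v) : 1 ≤ d := by
  cases h with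
  | refl _ => exact absurd rfl hne
  | step ha h' =>
    have := G.one_le_w ha
    have := h'.nonneg
    linarith

variable (G)

lemma exists_chain (u v : V) : ∃ d, G.HasChain u v d := by
  have h := G.conn u v
  induction h using Relation.ReflTransGen.head_induction_on with
  | refl => exact ⟨0, HasChain.refl v⟩
  | head ha _ ih =>
    obtain ⟨d, hd⟩ := ih
    exact ⟨_, HasChain.step ha hd⟩

/-- The chain distance. -/
noncomputable def d (u v : V) : ℝ := sInf {x | G.HasChain u v x}

lemma d_nonempty (u v : V) : ({x | G.HasChain u v x} : Set ℝ).Nonempty := G.exists_chain u v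

lemma d_bdd (u v : V) : BddBelow ({x | G.HasChain u v x} : Set ℝ) :=
  ⟨0, fun _ hx => HasChain.nonneg hx⟩

lemma d_le_of_chain {u v : V} {x : ℝ} (h : G.HasChain u v x) : G.d u v ≤ x :=
  csInf_le (G.d_bdd u v) h

lemma d_self (u : V) : G.d u u = 0 := by
  apply le_antisymm
  · exact G.d_le_of_chain (HasChain.refl u)
  · exact le_csInf (G.d_nonempty u u) fun _ hx => HasChain.nonneg hx

lemma d_comm (u v : V) : G.d u v = G.d v u := by
  have : ({x | G.HasChain u v x} : Set ℝ) = {x | G.HasChain v u x} := by
    ext x; exact ⟨HasChain.symm, HasChain.symm⟩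
  unfold d; rw [this]

lemma d_triangle (u v x : V) : G.d u x ≤ G.d u v + G.d v x := by
  have h1 : ∀ a ∈ ({y | G.HasChain u v y} : Set ℝ), G.d u x - G.d v x ≤ a := by
    intro a ha
    have h2 : ∀ b ∈ ({y | G.HasChain v x y} : Set ℝ), G.d u x - a ≤ b := by
      intro b hb
      have := G.d_le_of_chain (HasChain.trans ha hb)
      linarith
    have := le_csInf (G.d_nonempty v x) h2
    change G.d u x - a ≤ G.d v x at this
    linarith
  have := le_csInf (G.d_nonempty u v) h1
  change G.d u x - G.d v x ≤ G.d u v at this
  linarith

/-- Distinct points are at distance at least `1`. -/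
lemma one_le_d {u v : V} (h : u ≠ v) : 1 ≤ G.d u v :=
  le_csInf (G.d_nonempty u v) fun _ hx => HasChain.one_le hx h

lemma d_nonneg (u v : V) : 0 ≤ G.d u v :=
  le_csInf (G.d_nonempty u v) fun _ hx => HasChain.nonneg hx

/-- On an edge the distance is at most the weight. -/
lemma d_le_w {u v : V} (h : G.adj u v) : G.d u v ≤ G.w u v := by
  have := G.d_le_of_chain (HasChain.step h (HasChain.refl v))
  simpa using this

/-- A function `L`-Lipschitz on edges satisfies `|f x - f y| ≤ L * d x y`. -/
lemma abs_sub_le_of_edges {L : ℝ} (hL : 0 ≤ L) (f : V → ℝ)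
    (hf : ∀ u v, G.adj u v → |f u - f v| ≤ L * G.w u v) (x y : V) :
    |f x - f y| ≤ L * G.d x y := by
  have key : ∀ {u v : V} {c : ℝ}, G.HasChain u v c → |f u - f v| ≤ L * c := by
    intro u v c h
    induction h with
    | refl _ => simp
    | @step a b e c ha _ ih =>
      have h1 := hf a b ha
      have h2 : |f a - f e| ≤ |f a - f b| + |f b - f e| := abs_sub_le _ _ _
      rw [mul_add]
      linarith
  rcases eq_or_lt_of_le hL with h0 | hpos
  · -- `L = 0`: use any chain
    obtain ⟨c, hc⟩ := G.exists_chain x y
    have := key hc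
    rw [← h0] at this ⊢
    simpa using this
  · have h1 : ∀ c ∈ ({z | G.HasChain x y z} : Set ℝ), |f x - f y| / L ≤ c := by
      intro c hc
      rw [div_le_iff₀ hpos]
      have := key hc
      linarith
    have := le_csInf (G.d_nonempty x y) h1
    change |f x - f y| / L ≤ G.d x y at this
    rw [div_le_iff₀ hpos] at this
    linarith

/-- The metric space structure. -/
@[reducible] noncomputable def metricSpace : MetricSpace V where
  dist := G.d
  dist_self := G.d_self
  dist_comm := G.d_comm
  dist_triangle := G.d_triangle
  eq_of_dist_eq_zero := by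
    intro x y h
    by_contra hne
    have := G.one_le_d hne
    change G.d x y = 0 at h
    linarith

/-- Packaging as a pointed metric space. -/
@[reducible] noncomputable def toPointed (o : V) : Crest.AnalysisR.PointedMetric :=
  ⟨V, G.metricSpace, o⟩

lemma dist_eq (x y : V) : (letI := G.metricSpace; dist x y) = G.d x y := rfl

/-- Lipschitz test, in Mathlib form. -/
lemma lipschitz_of_edges (L : ℝ≥0) (f : V → ℝ)
    (hf : ∀ u v, G.adj u v → |f u - f v| ≤ L * G.w u v) :
    letI := G.metricSpace
    LipschitzWith L f := by
  letI := G.metricSpace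
  refine LipschitzWith.of_dist_le_mul fun x y => ?_
  rw [Real.dist_eq]
  exact G.abs_sub_le_of_edges L.2 f hf x y

/-- A function `L`-Lipschitz for the metric is `L`-Lipschitz on edges (converse of the test, using
only `d ≤ w`). -/
lemma abs_sub_le_w_of_abs_sub_le_d {L : ℝ} (hL : 0 ≤ L) (f : V → ℝ)
    (hf : ∀ x y, |f x - f y| ≤ L * G.d x y) {u v : V} (h : G.adj u v) :
    |f u - f v| ≤ L * G.w u v :=
  (hf u v).trans (mul_le_mul_of_nonneg_left (G.d_le_w h) hL)

end WGraph

end Crest.Agent.Lib.FreeLipBAP
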